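import Vale.Agent.Lib.P346q.Defs

/-!
# P346 over a finite field: partition functions (module AnA)
-/

open Finset

namespace Vale.Agent.P346q

theorem sg_pos (q : ℕ) (hq : 2 ≤ q) : 0 < sg q := by
  unfold sg
  have hq' : (2 : ℝ) ≤ q := by exact_mod_cast hq
  apply div_pos _ (by linarith)
  apply Finset.sum_pos' (fun a _ => sq_nonneg _)
  refine ⟨0, by simp; omega, ?_⟩
  have : ((0 : ℕ) : ℝ) - ((q : ℝ) - 1) / 2 ≠ 0 := by
    push_cast
    intro h
    linarith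
  positivity

private lemma cosh_le_aux (x : ℝ) : Real.cosh x ≤ 1 + x ^ 2 / 2 * Real.cosh x := by
  have h1 := Real.cosh_le_exp_half_sq x
  have h2 := Real.add_one_le_exp (-(x ^ 2 / 2))
  have h3 : Real.cosh x * (1 - x ^ 2 / 2) ≤ 1 := by
    have hc : 0 < Real.cosh x := Real.cosh_pos x
    calc Real.cosh x * (1 - x ^ 2 / 2) ≤ Real.cosh x * Real.exp (-(x ^ 2 / 2)) :=
          mul_le_mul_of_nonneg_left (by linarith) hc.le
      _ ≤ Real.exp (x ^ 2 / 2) * Real.exp (-(x ^ 2 / 2)) :=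
          mul_le_mul_of_nonneg_right h1 (Real.exp_pos _).le
      _ = 1 := by rw [← Real.exp_add]; simp
  linarith

private lemma le_cosh_aux (x : ℝ) : 1 + x ^ 2 / 2 ≤ Real.cosh x := by
  have h1 : Real.cosh x = 1 + 2 * Real.sinh (x / 2) ^ 2 := by
    have := Real.cosh_two_mul (x / 2)
    have h2 := Real.cosh_sq (x / 2)
    have h3 : 2 * (x / 2) = x := by ring
    rw [h3] at this
    rw [this, h2]; ring
  have h2 : (x / 2) ^ 2 ≤ Real.sinh (x / 2) ^ 2 := by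
    rw [sq_le_sq]
    rcases le_total 0 (x / 2) with h | h
    · rw [abs_of_nonneg h, abs_of_nonneg (Real.sinh_nonneg_iff.2 h)]
      exact Real.self_le_sinh_iff.2 h
    · rw [abs_of_nonpos h, abs_of_nonpos (Real.sinh_nonpos_iff.2 h)]
      have := Real.sinh_le_self_iff.2 h
      linarith
  rw [h1]; nlinarith

lemma Zf_eq (q : ℕ) (s : ℝ) :
    Zf q s = Real.exp (-s * (((q : ℝ) - 1) / 2)) *
      ∑ a ∈ range q, Real.cosh (s * ((a : ℝ) - ((q : ℝ) - 1) / 2)) := by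
  set μ := ((q : ℝ) - 1) / 2 with hμ
  have h1 : Zf q s = ∑ a ∈ range q, Real.exp (-s * μ) * Real.exp (-(s * ((a : ℝ) - μ))) := by
    unfold Zf
    apply Finset.sum_congr rfl
    intro a _
    rw [← Real.exp_add]; congr 1; ring
  have h2 : Zf q s = ∑ a ∈ range q, Real.exp (-s * μ) * Real.exp (s * ((a : ℝ) - μ)) := by
    rw [h1, ← Finset.sum_range_reflect]
    apply Finset.sum_congr rfl
    intro a ha
    rw [mem_range] at ha
    congr 2
    have : ((q - 1 - a : ℕ) : ℝ) = (q : ℝ) - 1 - a := by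
      rw [Nat.cast_sub (by omega), Nat.cast_sub (by omega)]; push_cast; ring
    rw [this, hμ]; ring
  have h3 : Zf q s = (Zf q s + Zf q s) / 2 := by ring
  rw [h3]
  nth_rewrite 1 [h1]
  rw [h2, ← Finset.sum_add_distrib, Finset.mul_sum, Finset.sum_div]
  apply Finset.sum_congr rfl
  intro a _
  rw [Real.cosh_eq]; ring

lemma anA_sum_sq_eq (q : ℕ) (hq : 1 ≤ q) :
    ∑ a ∈ range q, ((a : ℝ) - ((q : ℝ) - 1) / 2) ^ 2 = q * sg q := by
  unfold sg
  have : (q : ℝ) ≠ 0 := by positivity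
  rw [mul_comm, div_mul_cancel₀ _ this]

/-- `cosh x ≤ 1 + x²/2 cosh x`, symmetry of the distribution -/
theorem Zf_upper (q : ℕ) (hq : 1 ≤ q) (s : ℝ) (hs : 0 ≤ s) :
    Zf q s ≤ q * Real.exp (-s * (((q : ℝ) - 1) / 2)
      + sg q * s ^ 2 / 2 * Real.cosh (s * (((q : ℝ) - 1) / 2))) := by
  rw [Zf_eq, Real.exp_add]
  set μ := ((q : ℝ) - 1) / 2 with hμ
  have hq' : (1 : ℝ) ≤ q := by exact_mod_cast hq
  have h1 : ∑ a ∈ range q, Real.cosh (s * ((a : ℝ) - μ))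
      ≤ ∑ a ∈ range q, (1 + s ^ 2 / 2 * Real.cosh (s * μ) * ((a : ℝ) - μ) ^ 2) := by
    apply Finset.sum_le_sum
    intro a ha
    rw [mem_range] at ha
    have ha' : (a : ℝ) ≤ (q : ℝ) - 1 := by
      have : ((a + 1 : ℕ) : ℝ) ≤ q := by exact_mod_cast ha
      push_cast at this; linarith
    have ha0 : (0 : ℝ) ≤ a := Nat.cast_nonneg a
    have h2 := cosh_le_aux (s * ((a : ℝ) - μ))
    have h3 : Real.cosh (s * ((a : ℝ) - μ)) ≤ Real.cosh (s * μ) := by
      rw [Real.cosh_le_cosh, abs_mul, abs_mul]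
      apply mul_le_mul_of_nonneg_left _ (abs_nonneg _)
      rw [abs_of_nonneg (by rw [hμ]; linarith : 0 ≤ μ), abs_le]
      constructor <;> rw [hμ] <;> linarith
    have h4 : 0 ≤ (s * ((a : ℝ) - μ)) ^ 2 / 2 := by positivity
    calc Real.cosh (s * ((a : ℝ) - μ))
        ≤ 1 + (s * ((a : ℝ) - μ)) ^ 2 / 2 * Real.cosh (s * ((a : ℝ) - μ)) := h2
      _ ≤ 1 + (s * ((a : ℝ) - μ)) ^ 2 / 2 * Real.cosh (s * μ) := by
          have := mul_le_mul_of_nonneg_left h3 h4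
          linarith
      _ = _ := by ring
  have h5 : ∑ a ∈ range q, (1 + s ^ 2 / 2 * Real.cosh (s * μ) * ((a : ℝ) - μ) ^ 2)
      = q * (1 + sg q * s ^ 2 / 2 * Real.cosh (s * μ)) := by
    rw [Finset.sum_add_distrib, ← Finset.mul_sum, anA_sum_sq_eq q hq]
    simp
    ring
  have h6 : 1 + sg q * s ^ 2 / 2 * Real.cosh (s * μ)
      ≤ Real.exp (sg q * s ^ 2 / 2 * Real.cosh (s * μ)) := by
    have := Real.add_one_le_exp (sg q * s ^ 2 / 2 * Real.cosh (s * μ))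
    linarith
  calc Real.exp (-s * μ) * ∑ a ∈ range q, Real.cosh (s * ((a : ℝ) - μ))
      ≤ Real.exp (-s * μ) * (q * Real.exp (sg q * s ^ 2 / 2 * Real.cosh (s * μ))) := by
        apply mul_le_mul_of_nonneg_left _ (Real.exp_pos _).le
        rw [h5] at h1
        exact h1.trans (mul_le_mul_of_nonneg_left h6 (by linarith))
    _ = _ := by ring

/-- `cosh x ≥ 1 + x²/2` -/
theorem Zf_lower (q : ℕ) (hq : 1 ≤ q) (s : ℝ) (hs : 0 ≤ s) :
    q * Real.exp (-s * (((q : ℝ) - 1) / 2)) * (1 + sg q * s ^ 2 / 2) ≤ Zf q s := by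
  rw [Zf_eq]
  set μ := ((q : ℝ) - 1) / 2 with hμ
  have h1 : ∑ a ∈ range q, (1 + s ^ 2 / 2 * ((a : ℝ) - μ) ^ 2)
      ≤ ∑ a ∈ range q, Real.cosh (s * ((a : ℝ) - μ)) := by
    apply Finset.sum_le_sum
    intro a _
    have := le_cosh_aux (s * ((a : ℝ) - μ))
    calc 1 + s ^ 2 / 2 * ((a : ℝ) - μ) ^ 2 = 1 + (s * ((a : ℝ) - μ)) ^ 2 / 2 := by ring
      _ ≤ _ := this
  rw [Finset.sum_add_distrib, ← Finset.mul_sum, anA_sum_sq_eq q hq] at h1
  simp only [sum_const, card_range, nsmul_eq_mul, mul_one] at h1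
  calc (q : ℝ) * Real.exp (-s * μ) * (1 + sg q * s ^ 2 / 2)
      = Real.exp (-s * μ) * (q + s ^ 2 / 2 * (q * sg q)) := by ring
    _ ≤ _ := mul_le_mul_of_nonneg_left h1 (Real.exp_pos _).le

lemma Zf_pow (q b : ℕ) (s : ℝ) :
    Zf q s ^ b = ∑ a : Fin b → Fin q, Real.exp (-s * ((∑ j, (a j : ℕ) : ℕ) : ℝ)) := by
  unfold Zf
  rw [Finset.sum_range (fun a : ℕ => Real.exp (-s * (a : ℝ)))]
  have h1 : (∑ a : Fin q, Real.exp (-s * ((a : ℕ) : ℝ))) ^ b
      = ∏ _j : Fin b, ∑ a : Fin q, Real.exp (-s * ((a : ℕ) : ℝ)) := by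
    rw [Finset.prod_const, Finset.card_univ, Fintype.card_fin]
  rw [h1, Finset.prod_univ_sum, Fintype.piFinset_univ]
  apply Finset.sum_congr rfl
  intro a _
  rw [← Real.exp_sum]
  congr 1
  push_cast
  rw [Finset.mul_sum]

theorem Zl_lower (q b h : ℕ) (s : ℝ) (hs : 0 ≤ s) :
    Zf q s ^ b - q ^ b * Real.exp (-s * (h + 1)) ≤ Zl q b h s := by
  rw [Zf_pow]
  unfold Zl
  rw [← Finset.sum_filter_add_sum_filter_not univ (fun a : Fin b → Fin q => ∑ j, (a j : ℕ) ≤ h)]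
  have h1 : ∑ a ∈ (univ : Finset (Fin b → Fin q)).filter (fun a => ¬ ∑ j, (a j : ℕ) ≤ h),
      Real.exp (-s * ((∑ j, (a j : ℕ) : ℕ) : ℝ)) ≤ q ^ b * Real.exp (-s * (h + 1)) := by
    calc ∑ a ∈ (univ : Finset (Fin b → Fin q)).filter (fun a => ¬ ∑ j, (a j : ℕ) ≤ h),
        Real.exp (-s * ((∑ j, (a j : ℕ) : ℕ) : ℝ))
        ≤ ∑ _a ∈ (univ : Finset (Fin b → Fin q)).filter (fun a => ¬ ∑ j, (a j : ℕ) ≤ h),
          Real.exp (-s * (h + 1)) := by
          apply Finset.sum_le_sum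
          intro a ha
          rw [mem_filter] at ha
          apply Real.exp_le_exp.2
          have h2 : ((h + 1 : ℕ) : ℝ) ≤ ((∑ j, (a j : ℕ) : ℕ) : ℝ) := by
            exact_mod_cast (by omega : h + 1 ≤ ∑ j, (a j : ℕ))
          push_cast at h2 ⊢
          nlinarith
      _ ≤ ∑ _a : Fin b → Fin q, Real.exp (-s * (h + 1)) := by
          apply Finset.sum_le_sum_of_subset_of_nonneg (filter_subset _ _)
          intro _ _ _
          exact (Real.exp_pos _).le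
      _ = q ^ b * Real.exp (-s * (h + 1)) := by
          rw [Finset.sum_const, Finset.card_univ, nsmul_eq_mul]
          simp
  linarith

end Vale.Agent.P346q
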