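import Vale.Agent.Lib.P346q.AnA

/-!
# P346 over a finite field: lower bound for balls (module AnB)

Under the uniform measure on `[0, q-1]^b` let `w = ∏ (1 - ε (a_j - μ))`, `μ = (q-1)/2`. `E w = 1`,
`E w² = (1 + ε² sg)^b ≤ exp(ε² sg b)`. Under the tilted measure the sum has mean `b μ - ε sg b` and
variance `b (sg - ε² sg²)` (third central moment `0` by symmetry). Chebyshev: the event `A = {∑ ≤ l}`
has `E[w 1_A] ≥ 1/2`. Cauchy-Schwarz: `P(A) ≥ (E[w 1_A])² / E w²`.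
-/

open Finset

namespace Vale.Agent.P346q

lemma anB_prod_sum (q b : ℕ) (φ : Fin b → Fin q → ℝ) :
    ∑ a : Fin b → Fin q, ∏ j, φ j (a j) = ∏ j, ∑ x : Fin q, φ j x := by
  rw [Finset.prod_univ_sum, Fintype.piFinset_univ]

lemma anB_m1 (q : ℕ) : ∑ x : Fin q, (((x : ℕ) : ℝ) - ((q : ℝ) - 1) / 2) = 0 := by
  have h1 : ∑ x : Fin q, (((x : ℕ) : ℝ) - ((q : ℝ) - 1) / 2)
      = ∑ a ∈ range q, ((a : ℝ) - ((q : ℝ) - 1) / 2) :=
    (Finset.sum_range (fun a : ℕ => ((a : ℝ) - ((q : ℝ) - 1) / 2))).symm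
  have h2 : ∑ a ∈ range q, ((a : ℝ) - ((q : ℝ) - 1) / 2)
      = - ∑ a ∈ range q, ((a : ℝ) - ((q : ℝ) - 1) / 2) := by
    nth_rewrite 1 [← Finset.sum_range_reflect]
    rw [← Finset.sum_neg_distrib]
    apply Finset.sum_congr rfl
    intro a ha
    rw [mem_range] at ha
    have : ((q - 1 - a : ℕ) : ℝ) = (q : ℝ) - 1 - a := by
      rw [Nat.cast_sub (by omega), Nat.cast_sub (by omega)]; push_cast; ring
    rw [this]; ring
  rw [h1]; linarith

lemma anB_m3 (q : ℕ) : ∑ x : Fin q, (((x : ℕ) : ℝ) - ((q : ℝ) - 1) / 2) ^ 3 = 0 := by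
  have h1 : ∑ x : Fin q, (((x : ℕ) : ℝ) - ((q : ℝ) - 1) / 2) ^ 3
      = ∑ a ∈ range q, ((a : ℝ) - ((q : ℝ) - 1) / 2) ^ 3 :=
    (Finset.sum_range (fun a : ℕ => ((a : ℝ) - ((q : ℝ) - 1) / 2) ^ 3)).symm
  have h2 : ∑ a ∈ range q, ((a : ℝ) - ((q : ℝ) - 1) / 2) ^ 3
      = - ∑ a ∈ range q, ((a : ℝ) - ((q : ℝ) - 1) / 2) ^ 3 := by
    nth_rewrite 1 [← Finset.sum_range_reflect]
    rw [← Finset.sum_neg_distrib]
    apply Finset.sum_congr rfl
    intro a ha
    rw [mem_range] at ha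
    have : ((q - 1 - a : ℕ) : ℝ) = (q : ℝ) - 1 - a := by
      rw [Nat.cast_sub (by omega), Nat.cast_sub (by omega)]; push_cast; ring
    rw [this]; ring
  rw [h1]; linarith

lemma anB_m2 (q : ℕ) (hq : 1 ≤ q) :
    ∑ x : Fin q, (((x : ℕ) : ℝ) - ((q : ℝ) - 1) / 2) ^ 2 = q * sg q := by
  rw [← anA_sum_sq_eq q hq]
  exact (Finset.sum_range (fun a : ℕ => ((a : ℝ) - ((q : ℝ) - 1) / 2) ^ 2)).symm

section Tilt

variable (q b : ℕ) (ε : ℝ)

/-- tilted weight of one coordinate -/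
noncomputable def anB_p (x : Fin q) : ℝ := 1 - ε * (((x : ℕ) : ℝ) - ((q : ℝ) - 1) / 2)

/-- centered coordinate -/
noncomputable def anB_y (x : Fin q) : ℝ := (((x : ℕ) : ℝ) - ((q : ℝ) - 1) / 2) + ε * sg q

lemma anB_sum_p : ∑ x : Fin q, anB_p q ε x = q := by
  unfold anB_p
  rw [Finset.sum_sub_distrib, ← Finset.mul_sum, anB_m1]
  simp

lemma anB_sum_p2 (hq : 1 ≤ q) : ∑ x : Fin q, anB_p q ε x ^ 2 = q * (1 + ε ^ 2 * sg q) := by
  have h : ∀ x : Fin q, anB_p q ε x ^ 2 = 1 - 2 * ε * (((x : ℕ) : ℝ) - ((q : ℝ) - 1) / 2)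
      + ε ^ 2 * (((x : ℕ) : ℝ) - ((q : ℝ) - 1) / 2) ^ 2 := by
    intro x; unfold anB_p; ring
  rw [Finset.sum_congr rfl (fun x _ => h x), Finset.sum_add_distrib, Finset.sum_sub_distrib,
    ← Finset.mul_sum, ← Finset.mul_sum, anB_m1, anB_m2 q hq]
  simp
  ring

lemma anB_sum_py (hq : 1 ≤ q) : ∑ x : Fin q, anB_p q ε x * anB_y q ε x = 0 := by
  have h : ∀ x : Fin q, anB_p q ε x * anB_y q ε x
      = ε * sg q + (1 - ε ^ 2 * sg q) * (((x : ℕ) : ℝ) - ((q : ℝ) - 1) / 2)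
      - ε * (((x : ℕ) : ℝ) - ((q : ℝ) - 1) / 2) ^ 2 := by
    intro x; unfold anB_p anB_y; ring
  rw [Finset.sum_congr rfl (fun x _ => h x), Finset.sum_sub_distrib, Finset.sum_add_distrib,
    ← Finset.mul_sum, ← Finset.mul_sum, ← Finset.mul_sum, anB_m1, anB_m2 q hq]
  simp

lemma anB_sum_pyy (hq : 1 ≤ q) : ∑ x : Fin q, anB_p q ε x * anB_y q ε x ^ 2 ≤ q * sg q := by
  have h : ∀ x : Fin q, anB_p q ε x * anB_y q ε x ^ 2
      = ε ^ 2 * sg q ^ 2 + (2 * ε * sg q - ε ^ 3 * sg q ^ 2) *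
        (((x : ℕ) : ℝ) - ((q : ℝ) - 1) / 2)
      + (1 - 2 * ε ^ 2 * sg q) * (((x : ℕ) : ℝ) - ((q : ℝ) - 1) / 2) ^ 2
      - ε * (((x : ℕ) : ℝ) - ((q : ℝ) - 1) / 2) ^ 3 := by
    intro x; unfold anB_p anB_y; ring
  rw [Finset.sum_congr rfl (fun x _ => h x), Finset.sum_sub_distrib, Finset.sum_add_distrib,
    Finset.sum_add_distrib, ← Finset.mul_sum, ← Finset.mul_sum, ← Finset.mul_sum,
    ← Finset.mul_sum, anB_m1, anB_m2 q hq, anB_m3]
  simp only [sum_const, card_univ, Fintype.card_fin, nsmul_eq_mul, mul_zero, add_zero, sub_zero]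
  have : 0 ≤ ε ^ 2 * sg q ^ 2 * q := by positivity
  nlinarith

lemma anB_p_nonneg (hε : 0 ≤ ε) (hε1 : ε * ((q : ℝ) - 1) ≤ 2) (x : Fin q) :
    0 ≤ anB_p q ε x := by
  unfold anB_p
  have hx : ((x : ℕ) : ℝ) ≤ (q : ℝ) - 1 := by
    have : (((x : ℕ) + 1 : ℕ) : ℝ) ≤ q := by exact_mod_cast x.2
    push_cast at this; linarith
  have : ε * (((x : ℕ) : ℝ) - ((q : ℝ) - 1) / 2) ≤ ε * (((q : ℝ) - 1) / 2) :=
    mul_le_mul_of_nonneg_left (by linarith) hε
  linarith

/-- second moment under the tilted measure -/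
lemma anB_second (hq : 1 ≤ q) :
    ∑ a : Fin b → Fin q, (∏ j, anB_p q ε (a j)) * (∑ j, anB_y q ε (a j)) ^ 2
      ≤ (q : ℝ) ^ b * (b * sg q) := by
  have hq0 : (0 : ℝ) < q := by exact_mod_cast hq
  have h1 : ∀ a : Fin b → Fin q, (∏ j, anB_p q ε (a j)) * (∑ j, anB_y q ε (a j)) ^ 2
      = ∑ k : Fin b, ∑ l : Fin b, ∏ j, (anB_p q ε (a j) * (if j = k then anB_y q ε (a j) else 1) *
        (if j = l then anB_y q ε (a j) else 1)) := by
    intro a
    rw [sq, Finset.sum_mul_sum, Finset.mul_sum]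
    apply Finset.sum_congr rfl
    intro k _
    rw [Finset.mul_sum]
    apply Finset.sum_congr rfl
    intro l _
    rw [Finset.prod_mul_distrib, Finset.prod_mul_distrib, Finset.prod_ite_eq', Finset.prod_ite_eq']
    simp [mul_assoc]
  rw [Finset.sum_congr rfl (fun a _ => h1 a), Finset.sum_comm]
  have h2 : ∀ k : Fin b, ∑ a : Fin b → Fin q, ∑ l : Fin b,
      ∏ j, (anB_p q ε (a j) * (if j = k then anB_y q ε (a j) else 1) *
        (if j = l then anB_y q ε (a j) else 1)) ≤ (q : ℝ) ^ b * sg q := by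
    intro k
    rw [Finset.sum_comm]
    have h3 : ∀ l : Fin b, ∑ a : Fin b → Fin q,
        ∏ j, (anB_p q ε (a j) * (if j = k then anB_y q ε (a j) else 1) *
          (if j = l then anB_y q ε (a j) else 1))
        = ∏ j, ∑ x : Fin q, (anB_p q ε x * (if j = k then anB_y q ε x else 1) *
          (if j = l then anB_y q ε x else 1)) := by
      intro l
      exact anB_prod_sum q b (fun j x => anB_p q ε x * (if j = k then anB_y q ε x else 1) *
          (if j = l then anB_y q ε x else 1))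
    rw [Finset.sum_congr rfl (fun l _ => h3 l), ← Finset.add_sum_erase univ _ (mem_univ k)]
    have h4 : ∑ l ∈ univ.erase k, ∏ j, ∑ x : Fin q, (anB_p q ε x *
        (if j = k then anB_y q ε x else 1) * (if j = l then anB_y q ε x else 1)) = 0 := by
      apply Finset.sum_eq_zero
      intro l hl
      have hlk : l ≠ k := (Finset.mem_erase.1 hl).1
      apply Finset.prod_eq_zero (mem_univ k)
      simp only [if_true, if_neg hlk.symm, mul_one]
      exact anB_sum_py q ε hq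
    rw [h4, add_zero, ← Finset.mul_prod_erase univ _ (mem_univ k)]
    have h5 : ∏ j ∈ univ.erase k, ∑ x : Fin q, (anB_p q ε x *
        (if j = k then anB_y q ε x else 1) * (if j = k then anB_y q ε x else 1))
        = (q : ℝ) ^ (b - 1) := by
      rw [Finset.prod_congr rfl (g := fun _ => (q : ℝ))]
      · rw [Finset.prod_const, Finset.card_erase_of_mem (mem_univ k)]
        simp
      · intro j hj
        have hjk : j ≠ k := (Finset.mem_erase.1 hj).1
        simp only [if_neg hjk, mul_one]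
        exact anB_sum_p q ε
    rw [h5]
    have h6 : ∑ x : Fin q, (anB_p q ε x * (if k = k then anB_y q ε x else 1) *
        (if k = k then anB_y q ε x else 1)) ≤ q * sg q := by
      refine le_trans (le_of_eq ?_) (anB_sum_pyy q ε hq)
      apply Finset.sum_congr rfl
      intro x _
      simp only [if_true]
      ring
    have hb : (q : ℝ) ^ b = q * (q : ℝ) ^ (b - 1) := by
      have : b = (b - 1) + 1 := by have := k.2; omega
      conv_lhs => rw [this]
      rw [pow_succ]; ring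
    rw [hb]
    calc _ ≤ (q * sg q) * (q : ℝ) ^ (b - 1) := mul_le_mul_of_nonneg_right h6 (by positivity)
      _ = _ := by ring
  calc _ ≤ ∑ _k : Fin b, (q : ℝ) ^ b * sg q := Finset.sum_le_sum (fun k _ => h2 k)
    _ = _ := by rw [Finset.sum_const, card_univ, Fintype.card_fin, nsmul_eq_mul]; ring

end Tilt

/-- lower bound for the ball: Cauchy-Schwarz with the tilted weights `∏ (1 - ε (a_j - (q-1)/2))` and
Chebyshev's inequality for the tilted measure (mean `b (q-1)/2 - ε sg b`, variance at most `sg b`) -/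
theorem cnt_lower (q b l : ℕ) (hq : 2 ≤ q) (hb : 1 ≤ b) (ε : ℝ) (hε : 0 < ε)
    (hε1 : ε * ((q : ℝ) - 1) ≤ 2)
    (hl : (b : ℝ) * (((q : ℝ) - 1) / 2) - ε * sg q * b + Real.sqrt (2 * sg q * b) ≤ l) :
    (q : ℝ) ^ b / 4 * Real.exp (-(ε ^ 2 * sg q * b)) ≤ cnt (Fin b) q l := by
  have hq1 : 1 ≤ q := by omega
  have hq0 : (0 : ℝ) < q := by exact_mod_cast hq1
  have hb0 : (0 : ℝ) < b := by exact_mod_cast hb
  have hsg := sg_pos q hq
  set w : (Fin b → Fin q) → ℝ := fun a => ∏ j, anB_p q ε (a j) with hw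
  have hw0 : ∀ a, 0 ≤ w a := fun a =>
    Finset.prod_nonneg fun j _ => anB_p_nonneg q ε hε.le hε1 (a j)
  have hw1 : ∑ a, w a = (q : ℝ) ^ b := by
    simp only [hw]
    rw [anB_prod_sum q b (fun _ x => anB_p q ε x)]
    simp [anB_sum_p]
  have hw2 : ∑ a, w a ^ 2 ≤ (q : ℝ) ^ b * Real.exp (ε ^ 2 * sg q * b) := by
    have h1 : ∀ a, w a ^ 2 = ∏ j, anB_p q ε (a j) ^ 2 := by
      intro a; simp only [hw]; rw [Finset.prod_pow]
    rw [Finset.sum_congr rfl (fun a _ => h1 a), anB_prod_sum q b (fun _ x => anB_p q ε x ^ 2)]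
    rw [Finset.prod_const, card_univ, Fintype.card_fin, anB_sum_p2 q ε hq1, mul_pow]
    apply mul_le_mul_of_nonneg_left _ (by positivity)
    calc (1 + ε ^ 2 * sg q) ^ b ≤ (Real.exp (ε ^ 2 * sg q)) ^ b := by
          apply pow_le_pow_left₀ (by positivity)
          have := Real.add_one_le_exp (ε ^ 2 * sg q)
          linarith
      _ = Real.exp (ε ^ 2 * sg q * b) := by rw [← Real.exp_nat_mul]; congr 1; ring
  set A := (univ : Finset (Fin b → Fin q)).filter fun a => ∑ j, (a j : ℕ) ≤ l with hA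
  have hcnt : cnt (Fin b) q l = A.card := rfl
  -- Chebyshev
  have hcheb : ∑ a ∈ univ.filter (fun a : Fin b → Fin q => ¬ ∑ j, (a j : ℕ) ≤ l), w a
      ≤ (q : ℝ) ^ b / 2 := by
    set R := 2 * sg q * b with hR
    have hR0 : 0 < R := by positivity
    have h1 : R * ∑ a ∈ univ.filter (fun a : Fin b → Fin q => ¬ ∑ j, (a j : ℕ) ≤ l), w a
        ≤ ∑ a : Fin b → Fin q, w a * (∑ j, anB_y q ε (a j)) ^ 2 := by
      rw [Finset.mul_sum]
      calc ∑ a ∈ univ.filter (fun a : Fin b → Fin q => ¬ ∑ j, (a j : ℕ) ≤ l), R * w a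
          ≤ ∑ a ∈ univ.filter (fun a : Fin b → Fin q => ¬ ∑ j, (a j : ℕ) ≤ l),
            w a * (∑ j, anB_y q ε (a j)) ^ 2 := by
            apply Finset.sum_le_sum
            intro a ha
            rw [mem_filter] at ha
            rw [mul_comm]
            apply mul_le_mul_of_nonneg_left _ (hw0 a)
            have h2 : ∑ j, anB_y q ε (a j)
                = ((∑ j, (a j : ℕ) : ℕ) : ℝ) - b * (((q : ℝ) - 1) / 2) + ε * sg q * b := by
              unfold anB_y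
              rw [Finset.sum_add_distrib, Finset.sum_sub_distrib]
              simp
              ring
            have h3 : (l : ℝ) ≤ ((∑ j, (a j : ℕ) : ℕ) : ℝ) := by
              exact_mod_cast (not_le.1 ha.2).le
            have h4 : √R ≤ ∑ j, anB_y q ε (a j) := by rw [h2]; linarith
            calc R = √R ^ 2 := (Real.sq_sqrt hR0.le).symm
              _ ≤ _ := pow_le_pow_left₀ (Real.sqrt_nonneg _) h4 2
        _ ≤ _ := by
            apply Finset.sum_le_sum_of_subset_of_nonneg (filter_subset _ _)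
            intro a _ _
            exact mul_nonneg (hw0 a) (sq_nonneg _)
    have h2 := anB_second q b ε hq1
    have h3 : R * ∑ a ∈ univ.filter (fun a : Fin b → Fin q => ¬ ∑ j, (a j : ℕ) ≤ l), w a
        ≤ R * ((q : ℝ) ^ b / 2) := by
      refine (h1.trans h2).trans (le_of_eq ?_)
      rw [hR]; ring
    exact le_of_mul_le_mul_left h3 hR0
  have hAw : (q : ℝ) ^ b / 2 ≤ ∑ a ∈ A, w a := by
    have := Finset.sum_filter_add_sum_filter_not univ
      (fun a : Fin b → Fin q => ∑ j, (a j : ℕ) ≤ l) w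
    rw [hw1] at this
    linarith
  -- Cauchy-Schwarz
  have hCS : (∑ a ∈ A, w a) ^ 2 ≤ (A.card : ℝ) * ∑ a ∈ A, w a ^ 2 := by
    have := Finset.sum_mul_sq_le_sq_mul_sq A (fun _ => (1 : ℝ)) w
    simpa using this
  have hA2 : ∑ a ∈ A, w a ^ 2 ≤ (q : ℝ) ^ b * Real.exp (ε ^ 2 * sg q * b) := by
    refine le_trans ?_ hw2
    exact Finset.sum_le_sum_of_subset_of_nonneg (filter_subset _ _) (fun a _ _ => sq_nonneg _)
  have h5 : ((q : ℝ) ^ b / 2) ^ 2 ≤ (A.card : ℝ) * ((q : ℝ) ^ b * Real.exp (ε ^ 2 * sg q * b)) := by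
    calc ((q : ℝ) ^ b / 2) ^ 2 ≤ (∑ a ∈ A, w a) ^ 2 :=
          pow_le_pow_left₀ (by positivity) hAw 2
      _ ≤ _ := hCS
      _ ≤ _ := mul_le_mul_of_nonneg_left hA2 (Nat.cast_nonneg _)
  rw [hcnt, Real.exp_neg, ← div_eq_mul_inv, div_le_iff₀ (Real.exp_pos _)]
  have hqb : (0 : ℝ) < (q : ℝ) ^ b := by positivity
  have h6 : (q : ℝ) ^ b * ((q : ℝ) ^ b / 4)
      ≤ (q : ℝ) ^ b * ((A.card : ℝ) * Real.exp (ε ^ 2 * sg q * b)) := by
    calc (q : ℝ) ^ b * ((q : ℝ) ^ b / 4) = ((q : ℝ) ^ b / 2) ^ 2 := by ring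
      _ ≤ _ := h5
      _ = _ := by ring
  exact le_of_mul_le_mul_left h6 hqb

end Vale.Agent.P346q
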