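import Vale.Agent.Lib.P346q.AnA

/-!
# P346 over a finite field: tails (module AnC)

`E exp(λ (a - μ)) = E cosh(λ (a - μ)) ≤ exp(λ² (q-1)² / 8)`, Markov with `λ = 4 W / (b (q-1)²)`.
-/

open Finset

namespace Vale.Agent.P346q

lemma anC_Zf_le (q : ℕ) (hq : 1 ≤ q) (s : ℝ) :
    Zf q s ≤ Real.exp (-s * (((q : ℝ) - 1) / 2)) * (q * Real.exp (s ^ 2 * ((q : ℝ) - 1) ^ 2 / 8)) := by
  rw [Zf_eq]
  apply mul_le_mul_of_nonneg_left _ (Real.exp_pos _).le
  have hq' : (1 : ℝ) ≤ q := by exact_mod_cast hq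
  calc ∑ a ∈ range q, Real.cosh (s * ((a : ℝ) - ((q : ℝ) - 1) / 2))
      ≤ ∑ _a ∈ range q, Real.exp (s ^ 2 * ((q : ℝ) - 1) ^ 2 / 8) := by
        apply Finset.sum_le_sum
        intro a ha
        rw [mem_range] at ha
        have ha' : (a : ℝ) ≤ (q : ℝ) - 1 := by
          have : ((a + 1 : ℕ) : ℝ) ≤ q := by exact_mod_cast ha
          push_cast at this; linarith
        have ha0 : (0 : ℝ) ≤ a := Nat.cast_nonneg a
        refine (Real.cosh_le_exp_half_sq _).trans (Real.exp_le_exp.2 ?_)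
        have h1 : ((a : ℝ) - ((q : ℝ) - 1) / 2) ^ 2 ≤ (((q : ℝ) - 1) / 2) ^ 2 := by nlinarith
        have h2 : 0 ≤ s ^ 2 := sq_nonneg s
        nlinarith
    _ = q * Real.exp (s ^ 2 * ((q : ℝ) - 1) ^ 2 / 8) := by simp

/-- Chernoff: for every real `s` and every set `A` on which `-s (∑ a - b μ) ≥ |s| W`. -/
lemma anC_chernoff (q b : ℕ) (hq : 1 ≤ q) (s W : ℝ) (A : Finset (Fin b → Fin q))
    (hA : ∀ a ∈ A, W ≤ -s * (((∑ j, (a j : ℕ) : ℕ) : ℝ) - b * (((q : ℝ) - 1) / 2))) :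
    (A.card : ℝ) ≤ q ^ b * Real.exp (-W + b * (s ^ 2 * ((q : ℝ) - 1) ^ 2 / 8)) := by
  set μ := ((q : ℝ) - 1) / 2 with hμ
  have h1 : (A.card : ℝ) * Real.exp (W - s * (b * μ)) ≤ Zf q s ^ b := by
    rw [Zf_pow]
    calc (A.card : ℝ) * Real.exp (W - s * (b * μ))
        = ∑ _a ∈ A, Real.exp (W - s * (b * μ)) := by simp
      _ ≤ ∑ a ∈ A, Real.exp (-s * ((∑ j, (a j : ℕ) : ℕ) : ℝ)) := by
          apply Finset.sum_le_sum
          intro a ha
          apply Real.exp_le_exp.2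
          have := hA a ha
          linarith
      _ ≤ ∑ a : Fin b → Fin q, Real.exp (-s * ((∑ j, (a j : ℕ) : ℕ) : ℝ)) := by
          apply Finset.sum_le_sum_of_subset_of_nonneg (subset_univ _)
          intro _ _ _
          exact (Real.exp_pos _).le
  have hZ0 : 0 ≤ Zf q s := Finset.sum_nonneg fun _ _ => (Real.exp_pos _).le
  have h2 : Zf q s ^ b ≤ q ^ b * Real.exp (-s * (b * μ) + b * (s ^ 2 * ((q : ℝ) - 1) ^ 2 / 8)) := by
    calc Zf q s ^ b ≤ (Real.exp (-s * μ) * (q * Real.exp (s ^ 2 * ((q : ℝ) - 1) ^ 2 / 8))) ^ b :=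
          pow_le_pow_left₀ hZ0 (anC_Zf_le q hq s) b
      _ = _ := by
          rw [mul_pow, mul_pow, ← Real.exp_nat_mul, ← Real.exp_nat_mul, Real.exp_add]
          have : (b : ℝ) * (-s * μ) = -s * (b * μ) := by ring
          rw [this]; ring
  have h3 : (A.card : ℝ) = (A.card : ℝ) * Real.exp (W - s * (b * μ)) *
      Real.exp (-(W - s * (b * μ))) := by
    rw [mul_assoc, ← Real.exp_add]; simp
  rw [h3]
  calc (A.card : ℝ) * Real.exp (W - s * (b * μ)) * Real.exp (-(W - s * (b * μ)))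
      ≤ (q ^ b * Real.exp (-s * (b * μ) + b * (s ^ 2 * ((q : ℝ) - 1) ^ 2 / 8))) *
        Real.exp (-(W - s * (b * μ))) :=
        mul_le_mul_of_nonneg_right (h1.trans h2) (Real.exp_pos _).le
    _ = _ := by
        rw [mul_assoc, ← Real.exp_add]
        congr 2
        ring

/-- Hoeffding bound for the two tails: `W` is a lower bound for the distance from the mean -/
theorem tailCnt_le (q b D v : ℕ) (hq : 2 ≤ q) (hb : 1 ≤ b) (W : ℝ) (hW : 0 < W)
    (h1 : (D : ℝ) * (v - 1) ≤ b * (((q : ℝ) - 1) / 2) - W) (hv : 1 ≤ v)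
    (h2 : (b : ℝ) * (((q : ℝ) - 1) / 2) + W ≤ D * (v + 1)) :
    (tailCnt b q D v : ℝ) ≤ 2 * q ^ b * Real.exp (-(2 * W ^ 2) / (b * ((q : ℝ) - 1) ^ 2)) := by
  have hq' : (2 : ℝ) ≤ q := by exact_mod_cast hq
  have hb' : (1 : ℝ) ≤ b := by exact_mod_cast hb
  set μ := ((q : ℝ) - 1) / 2 with hμ
  set A₁ := (univ : Finset (Fin b → Fin q)).filter fun a => ∑ j, (a j : ℕ) < D * (v - 1) with hA₁
  set A₂ := (univ : Finset (Fin b → Fin q)).filter fun a => D * (v + 1) ≤ ∑ j, (a j : ℕ) with hA₂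
  have hcard : tailCnt b q D v ≤ A₁.card + A₂.card := by
    unfold tailCnt
    rw [Finset.filter_or]
    exact Finset.card_union_le _ _
  set l := 4 * W / (b * ((q : ℝ) - 1) ^ 2) with hl
  have hq1 : (0 : ℝ) < (q : ℝ) - 1 := by linarith
  have hl0 : 0 < l := by positivity
  have hexp : -(l * W) + b * (l ^ 2 * ((q : ℝ) - 1) ^ 2 / 8)
      = -(2 * W ^ 2) / (b * ((q : ℝ) - 1) ^ 2) := by
    rw [hl]; field_simp; ring
  have e1 := anC_chernoff q b (by omega) l (l * W) A₁ (by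
    intro a ha
    rw [hA₁, mem_filter] at ha
    have h3 : ((∑ j, (a j : ℕ) : ℕ) : ℝ) ≤ (D : ℝ) * (v - 1) := by
      have h4 : ((∑ j, (a j : ℕ) : ℕ) : ℝ) ≤ ((D * (v - 1) : ℕ) : ℝ) := by exact_mod_cast ha.2.le
      have h5 : ((D * (v - 1) : ℕ) : ℝ) = (D : ℝ) * (v - 1) := by
        rw [Nat.cast_mul, Nat.cast_sub hv]; simp
      rwa [h5] at h4
    rw [← hμ]
    have h6 : ((∑ j, (a j : ℕ) : ℕ) : ℝ) - b * μ ≤ -W := by linarith
    have h7 := mul_le_mul_of_nonneg_left h6 hl0.le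
    linarith)
  have e2 := anC_chernoff q b (by omega) (-l) (l * W) A₂ (by
    intro a ha
    rw [hA₂, mem_filter] at ha
    have h3 : (D : ℝ) * (v + 1) ≤ ((∑ j, (a j : ℕ) : ℕ) : ℝ) := by exact_mod_cast ha.2
    rw [← hμ, neg_neg]
    have h6 : W ≤ ((∑ j, (a j : ℕ) : ℕ) : ℝ) - b * μ := by linarith
    exact mul_le_mul_of_nonneg_left h6 hl0.le)
  rw [hexp] at e1
  have hl2 : (-l) ^ 2 = l ^ 2 := by ring
  rw [hl2, hexp] at e2
  have : (tailCnt b q D v : ℝ) ≤ (A₁.card : ℝ) + A₂.card := by exact_mod_cast hcard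
  linarith

end Vale.Agent.P346q
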