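import Vale.Agent.Lib.P346q.Defs

/-!
# P346 over a finite field: binomial estimates (module AnD)
-/

open Finset

namespace Vale.Agent.P346q

/-- Chernoff: `∑_{i ≤ k} C(T,i) (q-1)^(T-i) ≤ e^k (q - 1 + e^{-1})^T` -/
theorem fewZeros_le (q τ k : ℕ) (hq : 2 ≤ q) :
    (fewZeros q τ k : ℝ) ≤ (q : ℝ) ^ (τ + 1) * Real.exp (k - (τ + 1) / (2 * q)) := by
  set T := τ + 1 with hT
  have hq' : (2 : ℝ) ≤ q := by exact_mod_cast hq
  have hcast : ((q - 1 : ℕ) : ℝ) = (q : ℝ) - 1 := by
    rw [Nat.cast_sub (by omega)]; simp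
  set f : ℕ → ℝ := fun i => (Real.exp (-1)) ^ i * ((q : ℝ) - 1) ^ (T - i) * (T.choose i) with hf
  have hf0 : ∀ i, 0 ≤ f i := by
    intro i
    have : (0 : ℝ) ≤ (q : ℝ) - 1 := by linarith
    positivity
  have h1 : (fewZeros q τ k : ℝ) ≤ Real.exp k * ∑ i ∈ range (k + 1), f i := by
    unfold fewZeros
    push_cast
    rw [Finset.mul_sum]
    apply Finset.sum_le_sum
    intro i hi
    rw [mem_range] at hi
    rw [hcast]
    have h2 : (1 : ℝ) ≤ Real.exp k * (Real.exp (-1)) ^ i := by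
      rw [← Real.exp_nat_mul, ← Real.exp_add]
      apply Real.one_le_exp
      have : (i : ℝ) ≤ k := by exact_mod_cast (by omega : i ≤ k)
      linarith
    have h3 : (0 : ℝ) ≤ ((T.choose i : ℕ) : ℝ) * ((q : ℝ) - 1) ^ (T - i) := by
      have : (0 : ℝ) ≤ (q : ℝ) - 1 := by linarith
      positivity
    calc ((T.choose i : ℕ) : ℝ) * ((q : ℝ) - 1) ^ (T - i)
        = 1 * (((T.choose i : ℕ) : ℝ) * ((q : ℝ) - 1) ^ (T - i)) := by ring
      _ ≤ (Real.exp k * (Real.exp (-1)) ^ i) *
          (((T.choose i : ℕ) : ℝ) * ((q : ℝ) - 1) ^ (T - i)) :=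
          mul_le_mul_of_nonneg_right h2 h3
      _ = Real.exp k * f i := by simp only [hf]; ring
  have h2 : ∑ i ∈ range (k + 1), f i ≤ ∑ i ∈ range (T + 1), f i := by
    calc ∑ i ∈ range (k + 1), f i ≤ ∑ i ∈ range (k + 1 + (T + 1)), f i := by
          apply Finset.sum_le_sum_of_subset_of_nonneg
          · intro i; simp only [mem_range]; omega
          · intro i _ _; exact hf0 i
      _ = ∑ i ∈ range (T + 1), f i := by
          symm
          apply Finset.sum_subset
          · intro i; simp only [mem_range]; omega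
          · intro i _ hi
            rw [mem_range] at hi
            simp only [hf]
            rw [Nat.choose_eq_zero_of_lt (by omega)]
            simp
  have h3 : ∑ i ∈ range (T + 1), f i = (Real.exp (-1) + ((q : ℝ) - 1)) ^ T := by
    rw [add_pow]
  have h4 : Real.exp (-1) + ((q : ℝ) - 1) ≤ q * Real.exp (-(1 / (2 * q))) := by
    have h5 : Real.exp (-1) ≤ 1 / 2 := by
      rw [Real.exp_neg, one_div]
      apply inv_anti₀ (by norm_num)
      have := Real.exp_one_gt_d9
      linarith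
    have h6 := Real.add_one_le_exp (-(1 / (2 * (q : ℝ))))
    have h7 : (q : ℝ) * (1 / (2 * q)) = 1 / 2 := by field_simp
    have h8 : (q : ℝ) * (-(1 / (2 * (q : ℝ))) + 1) ≤ q * Real.exp (-(1 / (2 * q))) :=
      mul_le_mul_of_nonneg_left h6 (by linarith)
    have h9 : (q : ℝ) * (-(1 / (2 * (q : ℝ))) + 1) = q - 1 / 2 := by
      rw [mul_add, mul_neg, h7]; ring
    linarith
  have h5 : (Real.exp (-1) + ((q : ℝ) - 1)) ^ T ≤ (q : ℝ) ^ T * Real.exp (-(T / (2 * q))) := by
    calc (Real.exp (-1) + ((q : ℝ) - 1)) ^ T ≤ (q * Real.exp (-(1 / (2 * q)))) ^ T := by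
          apply pow_le_pow_left₀ _ h4
          have := Real.exp_pos (-1 : ℝ)
          linarith
      _ = (q : ℝ) ^ T * Real.exp (-(T / (2 * q))) := by
          rw [mul_pow, ← Real.exp_nat_mul]
          congr 2
          ring
  calc (fewZeros q τ k : ℝ) ≤ Real.exp k * ((q : ℝ) ^ T * Real.exp (-(T / (2 * q)))) := by
        refine h1.trans (mul_le_mul_of_nonneg_left ?_ (Real.exp_pos _).le)
        exact h2.trans (h3.le.trans h5)
    _ = (q : ℝ) ^ T * Real.exp (k - (τ + 1) / (2 * q)) := by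
        rw [sub_eq_add_neg, Real.exp_add, hT]
        push_cast
        ring

theorem fewSub_le (r k : ℕ) (hk : 1 ≤ k) (hkr : k ≤ r) :
    (fewSub r k : ℝ) ≤ (Real.exp 1 * r / k) ^ k := by
  have hk' : (0 : ℝ) < k := by exact_mod_cast hk
  have hr' : (0 : ℝ) < r := lt_of_lt_of_le hk' (by exact_mod_cast hkr)
  have hkr' : (k : ℝ) ≤ r := by exact_mod_cast hkr
  have h0 : (1 : ℝ) ≤ r / k := (one_le_div hk').2 hkr'
  have h1 : (fewSub r k : ℝ) ≤ ∑ U : Finset (Fin r), ((r : ℝ) / k) ^ k * ((k : ℝ) / r) ^ U.card := by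
    unfold fewSub
    calc (((univ : Finset (Finset (Fin r))).filter fun U => U.card ≤ k).card : ℝ)
        = ∑ _U ∈ (univ : Finset (Finset (Fin r))).filter (fun U => U.card ≤ k), (1 : ℝ) := by simp
      _ ≤ ∑ U ∈ (univ : Finset (Finset (Fin r))).filter (fun U => U.card ≤ k),
          ((r : ℝ) / k) ^ k * ((k : ℝ) / r) ^ U.card := by
          apply Finset.sum_le_sum
          intro U hU
          rw [mem_filter] at hU
          have h2 : ((k : ℝ) / r) ^ U.card = ((r : ℝ) / k)⁻¹ ^ U.card := by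
            rw [inv_div]
          have h3 : ((r : ℝ) / k) ^ k = ((r : ℝ) / k) ^ (k - U.card) * ((r : ℝ) / k) ^ U.card := by
            rw [← pow_add]; congr 1; omega
          rw [h2, h3, mul_assoc, ← mul_pow, mul_inv_cancel₀ (by positivity), one_pow, mul_one]
          exact one_le_pow₀ h0
      _ ≤ _ := by
          apply Finset.sum_le_sum_of_subset_of_nonneg (filter_subset _ _)
          intro U _ _
          positivity
  have h2 : ∑ U : Finset (Fin r), ((r : ℝ) / k) ^ k * ((k : ℝ) / r) ^ U.card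
      = ((r : ℝ) / k) ^ k * ((k : ℝ) / r + 1) ^ r := by
    rw [← Finset.mul_sum]
    congr 1
    have := Fintype.sum_pow_mul_eq_add_pow (Fin r) ((k : ℝ) / r) 1
    simpa using this
  have h3 : ((k : ℝ) / r + 1) ^ r ≤ Real.exp k := by
    calc ((k : ℝ) / r + 1) ^ r ≤ (Real.exp ((k : ℝ) / r)) ^ r :=
          pow_le_pow_left₀ (by positivity) (Real.add_one_le_exp _) r
      _ = Real.exp k := by
          rw [← Real.exp_nat_mul]; congr 1; field_simp
  calc (fewSub r k : ℝ) ≤ ((r : ℝ) / k) ^ k * ((k : ℝ) / r + 1) ^ r := h1.trans h2.le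
    _ ≤ ((r : ℝ) / k) ^ k * Real.exp k := mul_le_mul_of_nonneg_left h3 (by positivity)
    _ = (Real.exp 1 * r / k) ^ k := by
        rw [mul_div_assoc, mul_pow, ← Real.exp_nat_mul, mul_one]; ring

theorem one_le_fewSub (r k : ℕ) : 1 ≤ fewSub r k := by
  unfold fewSub
  rw [Nat.one_le_iff_ne_zero, ← Nat.pos_iff_ne_zero, Finset.card_pos]
  exact ⟨∅, by simp⟩

theorem choose_ge (K k : ℕ) (hk : 1 ≤ k) (hkK : k ≤ K) : ((K : ℝ) / k) ^ k ≤ K.choose k := by
  have key : ∀ k K : ℕ, k ≤ K → ((K : ℝ) / k) ^ k ≤ K.choose k := by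
    intro k
    induction k with
    | zero => intro K _; simp
    | succ k ih =>
      intro K hK
      obtain ⟨K', rfl⟩ : ∃ K', K = K' + 1 := ⟨K - 1, by omega⟩
      have hK' : k ≤ K' := by omega
      have h1 := ih K' hK'
      have h2 : ((K' : ℝ) + 1) * (K'.choose k : ℝ) = ((K' + 1).choose (k + 1) : ℝ) * (k + 1) := by
        exact_mod_cast Nat.add_one_mul_choose_eq K' k
      have hkpos : (0 : ℝ) < (k : ℝ) + 1 := by positivity
      have h3 : (((K' : ℝ) + 1) / (k + 1)) ^ k ≤ K'.choose k := by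
        rcases Nat.eq_zero_or_pos k with h0 | h0
        · subst h0; simp
        · refine le_trans ?_ h1
          apply pow_le_pow_left₀ (by positivity)
          have hk0 : (0 : ℝ) < k := by exact_mod_cast h0
          rw [div_le_div_iff₀ hkpos hk0]
          have : (k : ℝ) ≤ K' := by exact_mod_cast hK'
          nlinarith
      push_cast
      calc (((K' : ℝ) + 1) / (k + 1)) ^ (k + 1)
          = (((K' : ℝ) + 1) / (k + 1)) ^ k * (((K' : ℝ) + 1) / (k + 1)) := pow_succ _ _
        _ ≤ (K'.choose k : ℝ) * (((K' : ℝ) + 1) / (k + 1)) :=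
            mul_le_mul_of_nonneg_right h3 (by positivity)
        _ = ((K' + 1).choose (k + 1) : ℝ) := by
            rw [mul_div_assoc', div_eq_iff hkpos.ne', mul_comm, h2]
  exact key k K hkK

end Vale.Agent.P346q
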