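import Vale.Agent.Lib.P346q.AnA
import Vale.Agent.Lib.P346q.AnB
import Vale.Agent.Lib.P346q.AnC
import Vale.Agent.Lib.P346q.AnD
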