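import Vale.Agent.Lib.P346q.Defs

/-!
# P346 over a finite field: affine forms (definition)
-/

open Finset

namespace Vale.Agent.P346q

/-- affine forms in `x` and `z`: constant, coefficients of `x`, coefficients of `z` -/
structure BF (F Z X : Type) where
  /-- constant -/
  c : F
  /-- coefficients of `x` -/
  m : X → F
  /-- coefficients of `z` -/
  w : Z → F

/-- value at a point `x`, as a polynomial in `z` -/
noncomputable def BF.val {F Z X : Type} [Field F] [Fintype X] [Fintype Z] (l : BF F Z X)
    (x : X → F) : MvPolynomial Z F :=
  MvPolynomial.C (l.c + ∑ i, l.m i * x i) + ∑ z, MvPolynomial.C (l.w z) * MvPolynomial.X z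

end Vale.Agent.P346q
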