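import Vale.Agent.Lib.P346q.Defs

/-!
# P346 over a finite field: three elementary facts (module BlockA)

Lucas, covering by averaging over `Fin m → G`, symmetry `a ↦ q - 1 - a`.
-/

open Finset

namespace Vale.Agent.P346q

theorem choose_prime_pow (p : ℕ) [Fact p.Prime] (j w : ℕ) : w.choose (p ^ j) ≡ w / p ^ j [MOD p] := by
  induction j generalizing w with
  | zero => simp [Nat.ModEq]
  | succ j ih =>
    have hp : 0 < p := (Fact.out : p.Prime).pos
    have h1 := Choose.choose_modEq_choose_mod_mul_choose_div_nat (n := w) (k := p ^ (j + 1)) (p := p)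
    have h2 : p ^ (j + 1) % p = 0 := by rw [pow_succ]; simp
    have h3 : p ^ (j + 1) / p = p ^ j := by rw [pow_succ]; exact Nat.mul_div_cancel _ hp
    rw [h2, h3, Nat.choose_zero_right, one_mul] at h1
    have h4 := ih (w / p)
    rw [Nat.div_div_eq_div_mul, ← pow_succ'] at h4
    exact h1.trans h4

/-- covering by translates -/
theorem cover {G : Type} [AddCommGroup G] [Fintype G] [DecidableEq G] (A : Finset G) (m : ℕ) :
    ∃ c : Fin m → G, (univ.filter fun x : G => ∀ i, x + c i ∉ A).card * Fintype.card G ^ m
      ≤ (Fintype.card G - A.card) ^ m * Fintype.card G := by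
  classical
  by_contra hcon
  push Not at hcon
  have h1 : ∑ c : Fin m → G, (univ.filter fun x : G => ∀ i, x + c i ∉ A).card =
      Fintype.card G * (Fintype.card G - A.card) ^ m := by
    simp only [Finset.card_filter]
    rw [Finset.sum_comm]
    have h2 : ∀ x : G, ∑ c : Fin m → G, (if ∀ i, x + c i ∉ A then 1 else 0) =
        (Fintype.card G - A.card) ^ m := by
      intro x
      rw [← Finset.card_filter]
      have h3 : (univ.filter fun c : Fin m → G => ∀ i, x + c i ∉ A) =
          Fintype.piFinset (fun _ : Fin m => univ.filter fun y : G => x + y ∉ A) := by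
        ext c
        simp [Fintype.mem_piFinset]
      rw [h3, Fintype.card_piFinset]
      have h4 : (univ.filter fun y : G => x + y ∉ A).card = Fintype.card G - A.card := by
        have h5 : (univ.filter fun y : G => x + y ∉ A).card = (univ \ A).card := by
          apply Finset.card_bij' (fun y _ => x + y) (fun y _ => y - x)
          · intro y hy
            simpa using hy
          · intro y hy
            simp only [Finset.mem_sdiff, mem_univ, true_and, mem_filter] at hy ⊢
            rwa [add_sub_cancel]
          · intro y _
            exact add_sub_cancel_left _ _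
          · intro y _
            exact add_sub_cancel _ _
        rw [h5, Finset.card_sdiff_of_subset (subset_univ A), card_univ]
      simp [h4]
    simp only [h2]
    rw [Finset.sum_const, card_univ, smul_eq_mul]
  have hpos : 0 < Fintype.card G := Fintype.card_pos
  have h2 : ∑ _c : Fin m → G, (Fintype.card G - A.card) ^ m * Fintype.card G <
      ∑ c : Fin m → G, (univ.filter fun x : G => ∀ i, x + c i ∉ A).card * Fintype.card G ^ m := by
    apply Finset.sum_lt_sum_of_nonempty
    · exact ⟨fun _ => 0, mem_univ _⟩
    · intro c _
      exact hcon c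
  rw [← Finset.sum_mul, ← Finset.sum_mul, h1, Finset.sum_const, card_univ, smul_eq_mul,
    Fintype.card_fun, Fintype.card_fin] at h2
  have h3 : Fintype.card G ^ m * (Fintype.card G - A.card) ^ m * Fintype.card G =
      Fintype.card G * (Fintype.card G - A.card) ^ m * Fintype.card G ^ m := by ring
  omega

theorem cnt_half (b q h : ℕ) (hh : 2 * h < (q - 1) * b) : 2 * cnt (Fin b) q h ≤ q ^ b := by
  classical
  unfold cnt
  set A := univ.filter fun a : Fin b → Fin q => ∑ i, (a i : ℕ) ≤ h with hA
  have hdisj : Disjoint A (A.map ⟨fun a i => Fin.rev (a i), fun a a' h => by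
      funext i
      exact Fin.rev_injective (congrFun h i)⟩) := by
    rw [Finset.disjoint_left]
    intro a ha ha'
    rw [mem_map] at ha'
    obtain ⟨a', h1, h2⟩ := ha'
    change (fun i => Fin.rev (a' i)) = a at h2
    rw [hA, mem_filter] at ha h1
    have h3 : ∑ i, ((a i : ℕ) + (a' i : ℕ)) = (q - 1) * b := by
      have : ∀ i, (a i : ℕ) + (a' i : ℕ) = q - 1 := by
        intro i
        rw [← h2]
        simp only [Fin.val_rev]
        have := (a' i).2
        omega
      simp only [this]
      simp [mul_comm]
    rw [Finset.sum_add_distrib] at h3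
    omega
  have h4 := Finset.card_le_card (subset_univ (A ∪ (A.map ⟨fun a i => Fin.rev (a i), fun a a' h => by
      funext i
      exact Fin.rev_injective (congrFun h i)⟩)))
  rw [Finset.card_union_of_disjoint hdisj, Finset.card_map, card_univ] at h4
  simp only [Fintype.card_pi, Fintype.card_fin, Finset.prod_const, card_univ] at h4
  omega

end Vale.Agent.P346q
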