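import Vale.Agent.Lib.P346q.RM
import Vale.Agent.Lib.P346q.BlockA

/-!
# P346 over a finite field: one block (module BLOCK)

With `D = p^j` and `l = D v - 1`: by Lucas `C(w, D) = ⌊w / D⌋` mod `p`, so `uu D v` equals `-1` at
points of weight in `[D (v-1), D v - 1]` and `0` at points of weight in `[D v, D (v+1) - 1]`.
Choose centres `c_i` such that the translated balls `{x | wt (x + c_i) ≤ l}` cover all but
`q^b / 8` points (greedy, or averaging over `(F^b)^m`). Let `B` be the set of covered points `x` with
`wt (x + c_i) ∈ [D (v-1), D (v+1) - 1]` for all `i`; `|B| ≥ 3 q^b / 4`. Restricted to `B` the space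
`WW Q l` contains all functions (`interp` on the ball). The reduced monomials of weight at most `h`
number at most `q^b / 2` (symmetry `a ↦ q - 1 - a`). Hence `H ≥ q^b / 4` elements of `WW Q l` are
linearly independent modulo their span.
-/

open Finset

namespace Vale.Agent.P346q

/-- values of `uu` in the window -/
theorem uu_val {F X : Type} [Field F] [Fintype F] [Fintype X] (p : ℕ) [Fact p.Prime] [CharP F p]
    (j v : ℕ) (hv : 1 ≤ v) (x : X → F) (h1 : p ^ j * (v - 1) ≤ wt x)
    (h2 : wt x < p ^ j * (v + 1)) :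
    (uu (p ^ j) v x : F) = if wt x ≤ p ^ j * v - 1 then -1 else 0 := by
  have hD : 0 < p ^ j := pow_pos (Fact.out : p.Prime).pos j
  have h3 : ((wt x).choose (p ^ j) : F) = ((wt x / p ^ j : ℕ) : F) :=
    (CharP.natCast_eq_natCast F p).mpr (choose_prime_pow p j (wt x))
  have hDv : 1 ≤ p ^ j * v := Nat.one_le_iff_ne_zero.mpr (Nat.mul_ne_zero hD.ne' (by omega))
  unfold uu
  rw [h3]
  split_ifs with h
  · have h4 : wt x / p ^ j = v - 1 := by
      apply Nat.div_eq_of_lt_le
      · rw [mul_comm]; exact h1
      · rw [Nat.sub_add_cancel hv, mul_comm]; omega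
    rw [h4, Nat.cast_sub hv]
    push_cast
    ring
  · have h4 : wt x / p ^ j = v := by
      apply Nat.div_eq_of_lt_le
      · rw [mul_comm]; omega
      · rw [mul_comm]; exact h2
    rw [h4, sub_self]

/-- the number of points with a translate of weight outside the window -/
theorem card_tail {F : Type} [Field F] [Fintype F] [DecidableEq F] (b D v : ℕ) (c : Fin b → F) :
    (univ.filter fun x : Fin b → F => wt (x + c) < D * (v - 1) ∨ D * (v + 1) ≤ wt (x + c)).card =
      tailCnt b (Fintype.card F) D v := by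
  unfold tailCnt
  apply Finset.card_bij' (fun x _ => fun i => Fintype.equivFin F (x i + c i))
    (fun a _ => fun i => (Fintype.equivFin F).symm (a i) - c i)
  · intro x hx
    simp only [mem_filter, mem_univ, true_and] at hx ⊢
    exact hx
  · intro a ha
    simp only [mem_filter, mem_univ, true_and] at ha ⊢
    have h1 : wt ((fun i => (Fintype.equivFin F).symm (a i) - c i) + c) = ∑ i, (a i : ℕ) := by
      unfold wt idx
      simp
    rw [h1]
    exact ha
  · intro x _
    funext i
    simp
  · intro a _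
    funext i
    simp

/-- all functions on the good set are in the span -/
theorem exists_WW {F : Type} [Field F] [Fintype F] [DecidableEq F] {b m : ℕ}
    (Q : Fin m → Fn F (Fin b)) (l : ℕ) (c : Fin m → Fin b → F) (B : Finset (Fin b → F))
    (hB1 : ∀ x ∈ B, ∃ i, wt (x + c i) ≤ l)
    (hB2 : ∀ x ∈ B, ∀ i, Q i x = if wt (x + c i) ≤ l then -1 else 0) (g : Fn F (Fin b)) :
    ∃ f ∈ WW Q l, ∀ x ∈ B, f x = g x := by
  classical
  -- one covering index for each point
  have hex : ∃ φ : (Fin b → F) → Option (Fin m), ∀ x ∈ B, ∃ i, φ x = some i ∧ wt (x + c i) ≤ l := by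
    refine ⟨fun x => if h : ∃ i, wt (x + c i) ≤ l then some h.choose else none, fun x hx => ?_⟩
    refine ⟨(hB1 x hx).choose, ?_, (hB1 x hx).choose_spec⟩
    exact dif_pos (hB1 x hx)
  obtain ⟨φ, hφ⟩ := hex
  have hint : ∀ i : Fin m, ∃ h ∈ RM F (Fin b) l, ∀ y : Fin b → F, wt y ≤ l →
      h y = if φ (y - c i) = some i then -g (y - c i) else 0 := fun i =>
    interp l fun y => if φ (y - c i) = some i then -g (y - c i) else 0
  choose h h1 h2 using hint
  refine ⟨∑ i, Q i * fun x => h i (x + c i), ?_, ?_⟩
  · apply Submodule.sum_mem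
    intro i _
    apply Submodule.subset_span
    refine ⟨i, fun x => h i (x + c i), ?_, rfl⟩
    exact comp_mem_RM (h1 i) (fun k => ((fun x => x k) + fun _ => c i k : Fn F (Fin b)))
      (fun k => Submodule.add_mem _ (coord_mem_RM k) (const_mem_RM _ _))
  · intro x hx
    obtain ⟨i₀, hi1, hi2⟩ := hφ x hx
    rw [Finset.sum_apply, Finset.sum_eq_single i₀]
    · rw [Pi.mul_apply, hB2 x hx i₀, if_pos hi2, h2 i₀ _ hi2, add_sub_cancel_right, if_pos hi1]
      ring
    · intro i _ hne
      rw [Pi.mul_apply, hB2 x hx i]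
      split_ifs with hw
      · rw [h2 i _ hw, add_sub_cancel_right, if_neg, mul_zero]
        intro heq
        rw [hi1] at heq
        exact hne (Option.some.inj heq).symm
      · rw [zero_mul]
    · intro h
      exact absurd (mem_univ i₀) h

/-- many elements of a big space are independent modulo a small one -/
theorem exists_indep {F M ι : Type} [Field F] [AddCommGroup M] [Module F M]
    [Module.Finite F M] (W U : Submodule F M) (f : ι → M) (hf : LinearIndependent F f)
    (hfU : ∀ i, f i ∈ U) :
    ∃ (H : ℕ) (w : Fin H → M), Module.finrank F W ≤ H + Module.finrank F U ∧ (∀ i, w i ∈ W) ∧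
      LinearIndependent F (Sum.elim f w) := by
  set ψ : W →ₗ[F] (M ⧸ U) := U.mkQ.comp W.subtype with hψ
  have h1 := LinearMap.finrank_range_add_finrank_ker ψ
  have h2 : Module.finrank F (LinearMap.ker ψ) ≤ Module.finrank F U := by
    have h3 : (LinearMap.ker ψ).map W.subtype ≤ U := by
      rintro _ ⟨x, hx, rfl⟩
      rw [SetLike.mem_coe, LinearMap.mem_ker] at hx
      exact (Submodule.Quotient.mk_eq_zero U).mp hx
    have h4 := Submodule.finrank_mono h3
    rwa [Submodule.finrank_map_subtype_eq] at h4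
  set bs := Module.finBasis F (LinearMap.range ψ) with hbs
  have h5 : ∀ i, ∃ x : W, ψ x = (bs i : M ⧸ U) := fun i => (bs i).2
  choose x hx using h5
  refine ⟨Module.finrank F (LinearMap.range ψ), fun i => (x i : M), by omega, fun i => (x i).2, ?_⟩
  have hf' : LinearIndependent F (fun i => (⟨f i, hfU i⟩ : U)) := by
    apply LinearIndependent.of_comp U.subtype
    exact hf
  have hg : LinearIndependent F (Submodule.Quotient.mk (p := U) ∘ fun i => (x i : M)) := by
    have h6 : (Submodule.Quotient.mk (p := U) ∘ fun i => (x i : M)) =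
        fun i => (bs i : M ⧸ U) := by
      funext i
      exact hx i
    rw [h6]
    exact bs.linearIndependent.map' (LinearMap.range ψ).subtype (Submodule.ker_subtype _)
  exact LinearIndependent.sumElim_of_quotient hf' _ hg

theorem block {F : Type} [Field F] [Fintype F] [DecidableEq F] (p : ℕ) [Fact p.Prime] [CharP F p]
    (j v b m h : ℕ) (hv : 1 ≤ v) (hh : 2 * h < (Fintype.card F - 1) * b)
    (hm : 8 * (Fintype.card F ^ b - cnt (Fin b) (Fintype.card F) (p ^ j * v - 1)) ^ m
      ≤ Fintype.card F ^ (b * m))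
    (hw : 8 * m * tailCnt b (Fintype.card F) (p ^ j) v ≤ Fintype.card F ^ b) :
    ∃ (c : Fin m → Fin b → F) (H : ℕ) (w : Fin H → Fn F (Fin b)),
      Fintype.card F ^ b ≤ 4 * H ∧
      (∀ i, w i ∈ WW (fun i x => uu (p ^ j) v (x + c i)) (p ^ j * v - 1)) ∧
      LinearIndependent F
        (Sum.elim (fun a : {a : Fin b → Fin (Fintype.card F) // ∑ j, (a j : ℕ) ≤ h} =>
          (mono fun j => (a.1 j : ℕ) : Fn F (Fin b))) w) := by
  classical
  set q := Fintype.card F with hq
  set l := p ^ j * v - 1 with hl
  have hqb : Fintype.card (Fin b → F) = q ^ b := by simp [hq]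
  set A := univ.filter fun x : Fin b → F => wt x ≤ l with hA
  have hAc : A.card = cnt (Fin b) q l := card_wt_le l
  obtain ⟨c, hc⟩ := cover A m
  rw [hqb, hAc] at hc
  -- uncovered points
  set N := (univ.filter fun x : Fin b → F => ∀ i, x + c i ∉ A).card with hN
  have hN8 : 8 * N ≤ q ^ b := by
    have hpos : 0 < q ^ (b * m) := pow_pos Fintype.card_pos _
    have h1 : 8 * N * q ^ (b * m) ≤ q ^ b * q ^ (b * m) := by
      calc 8 * N * q ^ (b * m) = 8 * (N * (q ^ b) ^ m) := by rw [← pow_mul]; ring
        _ ≤ 8 * ((q ^ b - cnt (Fin b) q l) ^ m * q ^ b) := by omega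
        _ = 8 * (q ^ b - cnt (Fin b) q l) ^ m * q ^ b := by ring
        _ ≤ q ^ (b * m) * q ^ b := Nat.mul_le_mul_right _ hm
        _ = q ^ b * q ^ (b * m) := by ring
    exact Nat.le_of_mul_le_mul_right h1 hpos
  -- the good set
  set B := univ.filter fun x : Fin b → F => (∃ i, wt (x + c i) ≤ l) ∧
    ∀ i, p ^ j * (v - 1) ≤ wt (x + c i) ∧ wt (x + c i) < p ^ j * (v + 1) with hB
  have hBc : 3 * q ^ b ≤ 4 * B.card := by
    have h1 : (univ : Finset (Fin b → F)) ⊆ B ∪ ((univ.filter fun x : Fin b → F =>
        ∀ i, x + c i ∉ A) ∪ univ.biUnion fun i => univ.filter fun x : Fin b → F =>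
          wt (x + c i) < p ^ j * (v - 1) ∨ p ^ j * (v + 1) ≤ wt (x + c i)) := by
      intro x _
      rw [mem_union, mem_union, mem_biUnion]
      by_cases hx1 : ∃ i, wt (x + c i) ≤ l
      · by_cases hx2 : ∀ i, p ^ j * (v - 1) ≤ wt (x + c i) ∧ wt (x + c i) < p ^ j * (v + 1)
        · left
          rw [hB, mem_filter]
          exact ⟨mem_univ _, hx1, hx2⟩
        · right; right
          push Not at hx2
          obtain ⟨i, hi⟩ := hx2
          refine ⟨i, mem_univ _, ?_⟩
          rw [mem_filter]
          refine ⟨mem_univ _, ?_⟩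
          by_contra hcon
          push Not at hcon
          have := hi hcon.1
          omega
      · right; left
        rw [mem_filter]
        refine ⟨mem_univ _, fun i hi => hx1 ⟨i, ?_⟩⟩
        rw [hA, mem_filter] at hi
        exact hi.2
    have h2 := Finset.card_le_card h1
    rw [card_univ, hqb] at h2
    have h3 := Finset.card_union_le B ((univ.filter fun x : Fin b → F =>
        ∀ i, x + c i ∉ A) ∪ univ.biUnion fun i => univ.filter fun x : Fin b → F =>
          wt (x + c i) < p ^ j * (v - 1) ∨ p ^ j * (v + 1) ≤ wt (x + c i))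
    have h4 := Finset.card_union_le (univ.filter fun x : Fin b → F =>
        ∀ i, x + c i ∉ A) (univ.biUnion fun i => univ.filter fun x : Fin b → F =>
          wt (x + c i) < p ^ j * (v - 1) ∨ p ^ j * (v + 1) ≤ wt (x + c i))
    have h5 : (univ.biUnion fun i => univ.filter fun x : Fin b → F =>
          wt (x + c i) < p ^ j * (v - 1) ∨ p ^ j * (v + 1) ≤ wt (x + c i)).card ≤
        m * tailCnt b q (p ^ j) v := by
      refine Finset.card_biUnion_le.trans ?_
      simp only [card_tail, Finset.sum_const, card_univ, Fintype.card_fin, smul_eq_mul]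
      exact le_rfl
    have h6 : 8 * (m * tailCnt b q (p ^ j) v) ≤ q ^ b := by rw [← mul_assoc]; exact hw
    omega
  have hBsub1 : ∀ x ∈ B, ∃ i, wt (x + c i) ≤ l := by
    intro x hx
    rw [hB, mem_filter] at hx
    exact hx.2.1
  have hBsub2 : ∀ x ∈ B, ∀ i, (fun i x => uu (p ^ j) v (x + c i) : Fin m → Fn F (Fin b)) i x =
      if wt (x + c i) ≤ l then -1 else 0 := by
    intro x hx i
    rw [hB, mem_filter] at hx
    obtain ⟨h1, h2⟩ := hx.2.2 i
    exact uu_val p j v hv (x + c i) h1 h2
  -- the dimension of the span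
  have hWdim : B.card ≤ Module.finrank F
      (WW (fun i x => uu (p ^ j) v (x + c i) : Fin m → Fn F (Fin b)) l) := by
    set W := WW (fun i x => uu (p ^ j) v (x + c i) : Fin m → Fn F (Fin b)) l with hW
    set Φ : W →ₗ[F] (B → F) :=
      (LinearMap.funLeft F F (fun x : B => (x.1 : Fin b → F))).comp W.subtype with hΦ
    have hsurj : Function.Surjective Φ := by
      intro g
      obtain ⟨f, hf1, hf2⟩ := exists_WW _ l c B hBsub1 hBsub2
        (fun x => if hx : x ∈ B then g ⟨x, hx⟩ else 0)
      refine ⟨⟨f, hf1⟩, ?_⟩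
      ext x
      change f x.1 = g x
      rw [hf2 x.1 x.2, dif_pos x.2]
    have h1 := LinearMap.finrank_le_finrank_of_surjective hsurj
    rwa [Module.finrank_fintype_fun_eq_card, Fintype.card_coe] at h1
  obtain ⟨H, w, hH, hwW, hli⟩ := exists_indep
    (WW (fun i x => uu (p ^ j) v (x + c i) : Fin m → Fn F (Fin b)) l) (RM F (Fin b) h)
    (fun a : {a : Fin b → Fin q // ∑ j, (a j : ℕ) ≤ h} =>
      (mono fun j => (a.1 j : ℕ) : Fn F (Fin b)))
    (linInd_mono.comp _ Subtype.val_injective)
    (fun a => mono_mem_RM a.2)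
  refine ⟨c, H, w, ?_, hwW, hli⟩
  rw [finrank_RM, ← hq] at hH
  have h7 := cnt_half b q h hh
  omega

end Vale.Agent.P346q
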