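import Vale.Agent.Lib.P346q.Defs
import Vale.Agent.Lib.P346.Exist

/-!
# P346 over a finite field: three facts on polynomials (module CombA)
-/

open Finset

namespace Vale.Agent.P346q

open Vale.Agent.P346

/-- `IMM` is homogeneous of degree `n` -/
theorem IMM_homogeneous {F : Type} [Field F] (n : ℕ) [NeZero n] :
    (IMM F n n).IsHomogeneous n := IMM_homog F n n

theorem IMM_ne_zero {F : Type} [Field F] (n : ℕ) [NeZero n] : IMM F n n ≠ 0 := by
  intro h
  let f : Var n n → F := fun v => if v.2.1 = v.2.2 then 1 else 0
  have h1 : ∀ l : Fin n, (MvPolynomial.eval f).mapMatrix (gmat F n n l) = 1 := by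
    intro l
    ext i j
    simp only [RingHom.mapMatrix_apply, Matrix.map_apply, gmat, Matrix.of_apply,
      MvPolynomial.eval_X, f, Matrix.one_apply]
  have h2 : (MvPolynomial.eval f).mapMatrix (List.ofFn (gmat F n n)).prod = 1 := by
    rw [map_list_prod, List.map_ofFn]
    apply List.prod_eq_one
    intro M hM
    rw [List.mem_ofFn] at hM
    obtain ⟨l, rfl⟩ := hM
    exact h1 l
  have h3 : MvPolynomial.eval f (IMM F n n) = 1 := by
    have := congrArg (fun M : Matrix (Fin n) (Fin n) F => M 0 0) h2
    simpa [IMM, RingHom.mapMatrix_apply, Matrix.map_apply] using this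
  rw [h, map_zero] at h3
  exact zero_ne_one h3

/-- coefficient of `∏_{c ∈ Λ} z_{c, i_c}` in `∏_c (1 + ∑_i a_{c,i} z_{c,i})` -/
theorem coeff_prod {F : Type} [Field F] {K m : ℕ} (a : Fin K → Fin m → F) (Λ : Finset (Fin K))
    (i : Fin K → Fin m) :
    (∏ k : Fin K, (1 + ∑ i : Fin m, MvPolynomial.C (a k i) * MvPolynomial.X (k, i)) :
      MvPolynomial (Fin K × Fin m) F).coeff (∑ c ∈ Λ, Finsupp.single (c, i c) 1)
      = ∏ c ∈ Λ, a c (i c) := by
  classical
  let ex : Fin K → Option (Fin m) → (Fin K × Fin m →₀ ℕ) := fun k o =>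
    o.elim 0 fun j => Finsupp.single (k, j) 1
  let co : Fin K → Option (Fin m) → F := fun k o => o.elim 1 (a k)
  have h1 : ∀ k : Fin K,
      (1 + ∑ i : Fin m, MvPolynomial.C (a k i) * MvPolynomial.X (k, i) :
        MvPolynomial (Fin K × Fin m) F)
        = ∑ o : Option (Fin m), MvPolynomial.monomial (ex k o) (co k o) := by
    intro k
    rw [Fintype.sum_option]
    simp only [ex, co, Option.elim_none, Option.elim_some]
    congr 1
    refine Finset.sum_congr rfl fun j _ => ?_
    rw [MvPolynomial.X, MvPolynomial.C_mul_monomial, mul_one]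
  have h2 : (∏ k : Fin K, (1 + ∑ i : Fin m, MvPolynomial.C (a k i) * MvPolynomial.X (k, i)) :
      MvPolynomial (Fin K × Fin m) F)
      = ∑ f : Fin K → Option (Fin m),
          MvPolynomial.monomial (∑ k, ex k (f k)) (∏ k, co k (f k)) := by
    simp only [h1]
    rw [Finset.prod_univ_sum, Fintype.piFinset_univ]
    refine Finset.sum_congr rfl fun f _ => ?_
    rw [MvPolynomial.monomial_sum_prod]
  rw [h2, MvPolynomial.coeff_sum]
  let f0 : Fin K → Option (Fin m) := fun k => if k ∈ Λ then some (i k) else none
  have hval : ∀ (f : Fin K → Option (Fin m)) (k : Fin K) (j : Fin m),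
      (∑ k, ex k (f k)) (k, j) = if f k = some j then 1 else 0 := by
    intro f k j
    rw [Finsupp.finsetSum_apply]
    rw [Finset.sum_eq_single k]
    · simp only [ex]
      rcases hf : f k with _ | j'
      · simp
      · simp only [Option.elim_some, Option.some.injEq, Finsupp.single_apply, Prod.mk.injEq,
          true_and]
    · intro k' _ hk'
      simp only [ex]
      rcases hf : f k' with _ | j'
      · simp
      · simp [hk']
    · intro h
      exact absurd (mem_univ k) h
  have hf0 : ∑ k, ex k (f0 k) = ∑ c ∈ Λ, Finsupp.single (c, i c) 1 := by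
    rw [← Finset.sum_subset (Finset.subset_univ Λ)]
    · refine Finset.sum_congr rfl fun c hc => ?_
      simp [ex, f0, hc]
    · intro c _ hc
      simp [ex, f0, hc]
  rw [Finset.sum_eq_single f0]
  · rw [MvPolynomial.coeff_monomial, if_pos hf0, ← Finset.prod_subset (Finset.subset_univ Λ)]
    · refine Finset.prod_congr rfl fun c hc => ?_
      simp [co, f0, hc]
    · intro c _ hc
      simp [co, f0, hc]
  · intro f _ hf
    rw [MvPolynomial.coeff_monomial, if_neg]
    intro he
    apply hf
    rw [← hf0] at he
    funext k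
    rcases hfk : f0 k with _ | j
    · rcases hfk' : f k with _ | j'
      · rfl
      · have := DFunLike.congr_fun he (k, j')
        rw [hval, hval, if_pos hfk', if_neg (by rw [hfk]; simp)] at this
        exact absurd this one_ne_zero
    · have := DFunLike.congr_fun he (k, j)
      rw [hval, hval, if_pos hfk] at this
      by_contra hne
      rw [if_neg hne] at this
      exact absurd this zero_ne_one
  · intro h
    exact absurd (mem_univ f0) h

end Vale.Agent.P346q
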