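import Vale.Agent.Lib.P346q.Defs

/-!
# P346 over a finite field: summation over the degree (module GEN)

Multiply the hypothesis by `exp (-s L')` and sum over `L' ∈ ℕ`:
`∑_L exp(-sL) #{a | f a ≤ L} = ∑_a exp(-s f a) / (1 - exp(-s))` and
`∑_L exp(-sL) #{a | f a ≤ L + T} ≤ exp(sT) ∑_a exp(-s f a) / (1 - exp(-s))`.
-/

open Finset

namespace Vale.Agent.P346q

private lemma gen_hasSum_ge {r : ℝ} (h0 : 0 ≤ r) (h1 : r < 1) (k : ℕ) :
    HasSum (fun L : ℕ => if k ≤ L then r ^ L else 0) (r ^ k / (1 - r)) := by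
  have h := (hasSum_geometric_of_lt_one h0 h1).mul_left (r ^ k)
  rw [← hasSum_nat_add_iff' k]
  have e1 : ∑ i ∈ range k, (if k ≤ i then r ^ i else 0) = 0 := by
    apply Finset.sum_eq_zero
    intro i hi
    rw [mem_range] at hi
    rw [if_neg (by omega)]
  rw [e1, sub_zero, div_eq_mul_inv]
  have e2 : (fun n : ℕ => if k ≤ n + k then r ^ (n + k) else 0) = fun n => r ^ k * r ^ n := by
    ext n
    rw [if_pos (by omega), pow_add, mul_comm]
  rw [e2]
  exact h

private lemma gen_hasSum_count {α : Type} (S : Finset α) (f : α → ℕ) (T : ℕ) {r : ℝ}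
    (h0 : 0 ≤ r) (h1 : r < 1) :
    HasSum (fun L : ℕ => r ^ L * ((S.filter fun a => f a ≤ L + T).card : ℝ))
      (∑ a ∈ S, r ^ (f a - T) / (1 - r)) := by
  have h := hasSum_sum (s := S) (f := fun a (L : ℕ) => if f a - T ≤ L then r ^ L else 0)
    (a := fun a => r ^ (f a - T) / (1 - r)) fun a _ => gen_hasSum_ge h0 h1 (f a - T)
  convert h using 1
  ext L
  rw [Finset.card_filter, Nat.cast_sum, Finset.mul_sum]
  refine Finset.sum_congr rfl fun a _ => ?_
  by_cases hc : f a ≤ L + T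
  · rw [if_pos hc, if_pos (by omega)]
    simp
  · rw [if_neg hc, if_neg (by omega)]
    simp

private lemma gen_pow_sub_le {r : ℝ} (h0 : 0 < r) (h1 : r ≤ 1) (k T : ℕ) :
    r ^ (k - T) ≤ (r ^ T)⁻¹ * r ^ k := by
  rw [inv_mul_eq_div, le_div_iff₀ (pow_pos h0 T), ← pow_add]
  exact pow_le_pow_of_le_one h0.le h1 (by omega)

theorem gen (q b K K₁ h T₁ T₂ : ℕ) (A B₁ B₂ s : ℝ) (hs : 0 < s) (hA : 0 ≤ A) (hB₁ : 0 ≤ B₁)
    (hB₂ : 0 ≤ B₂)
    (hyp : ∀ L : ℕ, A * low (K - K₁) b q h L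
      ≤ B₁ * cnt (Fin K × Fin b) q (L + T₁) + B₂ * cnt (Fin K × Fin b) q (L + T₂)) :
    A * Zl q b h s ^ (K - K₁)
      ≤ (B₁ * Real.exp (s * T₁) + B₂ * Real.exp (s * T₂)) * Zf q s ^ (K * b) := by
  obtain ⟨r, hr⟩ : ∃ r : ℝ, r = Real.exp (-s) := ⟨_, rfl⟩
  have r0 : 0 < r := hr ▸ Real.exp_pos _
  have r1 : r < 1 := by rw [hr, Real.exp_lt_one_iff]; linarith
  have hpow : ∀ n : ℕ, Real.exp (-s * n) = r ^ n := by
    intro n
    rw [hr, ← Real.exp_nat_mul]
    congr 1
    ring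
  have hinv : ∀ n : ℕ, Real.exp (s * n) = (r ^ n)⁻¹ := by
    intro n
    rw [← hpow, ← Real.exp_neg]
    congr 1
    ring
  -- the partition functions as sums over the exponent vectors
  have hZf : ∑ a : Fin K × Fin b → Fin q, r ^ (∑ i, (a i : ℕ)) = Zf q s ^ (K * b) := by
    have e := (Finset.prod_univ_sum (fun _ : Fin K × Fin b => (univ : Finset (Fin q)))
      (fun _ x => r ^ (x : ℕ))).symm
    rw [Fintype.piFinset_univ] at e
    rw [Finset.prod_const, Finset.card_univ, Fintype.card_prod, Fintype.card_fin,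
      Fintype.card_fin] at e
    have e3 : ∑ x : Fin q, r ^ (x : ℕ) = Zf q s := by
      unfold Zf
      rw [Finset.sum_range]
      exact Finset.sum_congr rfl fun x _ => (hpow _).symm
    rw [e3] at e
    rw [← e]
    exact Finset.sum_congr rfl fun a _ => (Finset.prod_pow_eq_pow_sum _ _ _).symm
  have hZl : ∑ a ∈ (univ : Finset (Fin (K - K₁) → Fin b → Fin q)).filter
      (fun a => ∀ c, ∑ j, (a c j : ℕ) ≤ h), r ^ (∑ c, ∑ j, (a c j : ℕ)) =
      Zl q b h s ^ (K - K₁) := by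
    have e := (Finset.prod_univ_sum (fun _ : Fin (K - K₁) =>
      (univ : Finset (Fin b → Fin q)).filter (fun a => ∑ j, (a j : ℕ) ≤ h))
      (fun _ x => r ^ (∑ j, (x j : ℕ)))).symm
    rw [Finset.prod_const, Finset.card_univ, Fintype.card_fin] at e
    have e3 : ∑ x ∈ (univ : Finset (Fin b → Fin q)).filter (fun a => ∑ j, (a j : ℕ) ≤ h),
        r ^ (∑ j, (x j : ℕ)) = Zl q b h s := by
      unfold Zl
      exact Finset.sum_congr rfl fun x _ => (hpow _).symm
    rw [e3] at e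
    rw [← e]
    refine Finset.sum_congr ?_ fun a _ => (Finset.prod_pow_eq_pow_sum _ _ _).symm
    ext a
    simp [Fintype.mem_piFinset]
  -- generating functions
  have s0 := gen_hasSum_count ((univ : Finset (Fin (K - K₁) → Fin b → Fin q)).filter
      (fun a => ∀ c, ∑ j, (a c j : ℕ) ≤ h)) (fun a => ∑ c, ∑ j, (a c j : ℕ)) 0 r0.le r1
  have s1 := gen_hasSum_count (univ : Finset (Fin K × Fin b → Fin q))
    (fun a => ∑ i, (a i : ℕ)) T₁ r0.le r1
  have s2 := gen_hasSum_count (univ : Finset (Fin K × Fin b → Fin q))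
    (fun a => ∑ i, (a i : ℕ)) T₂ r0.le r1
  have key := hasSum_le (fun L => ?_) (s0.mul_left A) ((s1.mul_left B₁).add (s2.mul_left B₂))
  · rw [← Finset.sum_div, ← Finset.sum_div, ← Finset.sum_div] at key
    simp only [Nat.sub_zero] at key
    rw [hZl] at key
    have h1r : 0 < 1 - r := by linarith
    have key2 : A * Zl q b h s ^ (K - K₁) ≤
        B₁ * ∑ a : Fin K × Fin b → Fin q, r ^ (∑ i, (a i : ℕ) - T₁) +
        B₂ * ∑ a : Fin K × Fin b → Fin q, r ^ (∑ i, (a i : ℕ) - T₂) := by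
      have := mul_le_mul_of_nonneg_right key h1r.le
      have e4 : ∀ x y : ℝ, x * (y / (1 - r)) * (1 - r) = x * y := by
        intro x y
        field_simp
      rw [add_mul, e4, e4, e4] at this
      exact this
    have hT : ∀ T : ℕ, ∑ a : Fin K × Fin b → Fin q, r ^ (∑ i, (a i : ℕ) - T) ≤
        Real.exp (s * T) * Zf q s ^ (K * b) := by
      intro T
      rw [hinv, ← hZf, Finset.mul_sum]
      exact Finset.sum_le_sum fun a _ => gen_pow_sub_le r0 r1.le _ _
    calc A * Zl q b h s ^ (K - K₁) ≤ _ := key2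
      _ ≤ B₁ * (Real.exp (s * T₁) * Zf q s ^ (K * b)) +
          B₂ * (Real.exp (s * T₂) * Zf q s ^ (K * b)) :=
          add_le_add (mul_le_mul_of_nonneg_left (hT T₁) hB₁)
            (mul_le_mul_of_nonneg_left (hT T₂) hB₂)
      _ = _ := by ring
  · have hL := hyp L
    have e5 : ((univ : Finset (Fin (K - K₁) → Fin b → Fin q)).filter
        (fun a => ∀ c, ∑ j, (a c j : ℕ) ≤ h)).filter
        (fun a => ∑ c, ∑ j, (a c j : ℕ) ≤ L + 0) =
        univ.filter fun a : Fin (K - K₁) → Fin b → Fin q =>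
          (∀ c, ∑ j, (a c j : ℕ) ≤ h) ∧ ∑ c, ∑ j, (a c j : ℕ) ≤ L := by
      rw [Finset.filter_filter, Nat.add_zero]
    rw [e5]
    have hr0 : 0 ≤ r ^ L := pow_nonneg r0.le _
    unfold low cnt at hL
    have := mul_le_mul_of_nonneg_left hL hr0
    calc _ = r ^ L * (A * _) := by rw [mul_left_comm]
      _ ≤ _ := this
      _ = _ := by ring

end Vale.Agent.P346q
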