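import Vale.Agent.Lib.P346q.RM

/-!
# P346 over a finite field: the hard polynomial is a projection of `IMM` (module SIM)

Block `c` uses `(q+1) D + 3` matrices. States: `0` (start / end), `idle`, `(i)` for `i < m`, and
`(i, u, y)` with a position `u = (j, a)`, `j < b`, `a < q` (ordered lexicographically), and a guessed
value `y ∈ F` of the coordinate `j`. Layer 1: `0 → (i)` with label `z_i`, `0 → idle` with label `1`.
Layer 2: `(i) → idle` with label `-v`, `(i) → (i)` and `idle → idle` with label `1`. Then `D` times:
one layer `(i) → (i, u', y')` with label `1` and `(i, u, y) → (i, u', y')` for `u < u'` with label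
`[a < idx y]`; `q` layers `(i, u, y) → (i, u, y)` with the affine labels whose product is `1` if
`x_j + c_{ij} = y` and `0` otherwise (Lagrange). Last layer: `idle → 0` with label `1` and
`(i, u, y) → 0` with label `[a < idx y]`. Every label is an affine form in `x`, a `z`-variable or a
constant. The block computes `1 + ∑_i z_i (e_D(T(x + c_i)) - v)` with thermometer variables
`T_{(j,a)}(x) = [a < idx (x_j)]`, and `e_D(T(x)) = C(wt x, D)`.
-/

open Finset

namespace Vale.Agent.P346q

open Vale.Agent.P346

section Embed

variable {F X Z S : Type} [Field F] [Fintype X] [Fintype Z] [Fintype S] [DecidableEq S]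

/-- affine labels -/
def sim_IsLab (f : (X → F) → MvPolynomial Z F) : Prop :=
  ∃ al ∈ RM F X 1, ∃ be : Z → F, ∀ x, f x =
    MvPolynomial.C (al x) + ∑ z, MvPolynomial.C (be z) * MvPolynomial.X z

lemma sim_lab_aff {al : Fn F X} (h : al ∈ RM F X 1) :
    sim_IsLab (Z := Z) (fun x => MvPolynomial.C (al x)) :=
  ⟨al, h, 0, fun x => by simp⟩

lemma sim_lab_const (c : F) : sim_IsLab (X := X) (Z := Z) (fun _ => MvPolynomial.C c) :=
  sim_lab_aff (const_mem_RM c 1)

lemma sim_lab_zero : sim_IsLab (F := F) (X := X) (Z := Z) (fun _ => 0) := by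
  simpa using sim_lab_const (F := F) (X := X) (Z := Z) 0

lemma sim_lab_one : sim_IsLab (F := F) (X := X) (Z := Z) (fun _ => 1) := by
  simpa using sim_lab_const (F := F) (X := X) (Z := Z) 1

lemma sim_lab_X [DecidableEq Z] (z : Z) :
    sim_IsLab (F := F) (X := X) (Z := Z) (fun _ => MvPolynomial.X z) :=
  ⟨0, Submodule.zero_mem _, fun w => if w = z then 1 else 0, fun x => by simp⟩

/-- A product of matrices with affine labels is a projection of `IMM`. -/
lemma sim_embed (n : ℕ) [NeZero n] (s0 : S) (hS : Fintype.card S ≤ n)
    (L : List ((X → F) → Matrix S S (MvPolynomial Z F))) (hL : L.length ≤ n)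
    (hlab : ∀ M ∈ L, ∀ s t, sim_IsLab (fun x => (M x : Matrix S S (MvPolynomial Z F)) s t)) :
    ∃ σ : Subst F (Var n n) Z X, ∀ x, σ.hom x (IMM F n n) =
      ((L.map (fun M : (X → F) → Matrix S S (MvPolynomial Z F) => M x)).prod) s0 s0 := by
  classical
  -- an equivalence with the indices
  obtain ⟨r, hr⟩ : ∃ r, r = n - Fintype.card S := ⟨_, rfl⟩
  have hcard : Fintype.card (S ⊕ Fin r) = Fintype.card (Fin n) := by
    rw [Fintype.card_sum, Fintype.card_fin, Fintype.card_fin]; omega
  obtain ⟨e, he⟩ : ∃ e : S ⊕ Fin r ≃ Fin n, e (Sum.inl s0) = 0 := by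
    refine ⟨(Fintype.equivOfCardEq hcard).trans
      (Equiv.swap (Fintype.equivOfCardEq hcard (Sum.inl s0)) 0), ?_⟩
    simp
  -- the padding map
  let φ : Matrix S S (MvPolynomial Z F) →* Matrix (Fin n) (Fin n) (MvPolynomial Z F) :=
    { toFun := fun M => Matrix.reindex e e (Matrix.fromBlocks M 0 0 1)
      map_one' := by
        rw [Matrix.fromBlocks_one]; simp
      map_mul' := fun M N => by
        have h1 : Matrix.fromBlocks (M * N) 0 0 1 = (Matrix.fromBlocks M 0 0 1 :
            Matrix (S ⊕ Fin r) (S ⊕ Fin r) (MvPolynomial Z F)) * Matrix.fromBlocks N 0 0 1 := by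
          rw [Matrix.fromBlocks_multiply]; simp
        rw [h1]
        simp [Matrix.reindex_apply, Matrix.submatrix_mul_equiv] }
  have hφ : ∀ (M : Matrix S S (MvPolynomial Z F)) (s t : S),
      φ M (e (Sum.inl s)) (e (Sum.inl t)) = M s t := by
    intro M s t
    show (Matrix.reindex e e (Matrix.fromBlocks M 0 0 1)) _ _ = _
    simp [Matrix.reindex_apply]
  -- extended list
  obtain ⟨L', hL'len, hL'lab, hL'prod⟩ : ∃ L' : List ((X → F) → Matrix S S (MvPolynomial Z F)),
      L'.length = n ∧ (∀ M ∈ L', ∀ s t, sim_IsLab (fun x => M x s t)) ∧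
      ∀ x, (L'.map (fun M => M x)).prod = (L.map (fun M => M x)).prod := by
    refine ⟨L ++ List.replicate (n - L.length) (fun _ => 1), ?_, ?_, ?_⟩
    · rw [List.length_append, List.length_replicate]; omega
    · intro M hM s t
      rw [List.mem_append] at hM
      rcases hM with hM | hM
      · exact hlab M hM s t
      · rw [List.mem_replicate] at hM
        rw [hM.2]
        by_cases hst : s = t
        · have e1 : (fun _ : X → F => (1 : Matrix S S (MvPolynomial Z F)) s t) = fun _ => 1 := by
            funext x; rw [hst, Matrix.one_apply_eq]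
          rw [e1]; exact sim_lab_one
        · have e1 : (fun _ : X → F => (1 : Matrix S S (MvPolynomial Z F)) s t) = fun _ => 0 := by
            funext x; rw [Matrix.one_apply_ne hst]
          rw [e1]; exact sim_lab_zero
    · intro x
      rw [List.map_append, List.prod_append, List.map_replicate, List.prod_replicate, one_pow,
        mul_one]
  have hlab2 : ∀ (l : Fin n) (i j : Fin n),
      sim_IsLab (fun x => φ (L'.get (l.cast hL'len.symm) x) i j) := by
    intro l i j
    have hM := hL'lab (L'.get (l.cast hL'len.symm)) (List.get_mem _ _)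
    have hi : ∀ x, φ (L'.get (l.cast hL'len.symm) x) i j =
        (Matrix.fromBlocks (L'.get (l.cast hL'len.symm) x) 0 0 1 :
          Matrix (S ⊕ Fin r) (S ⊕ Fin r) (MvPolynomial Z F)) (e.symm i) (e.symm j) := fun x => rfl
    simp only [hi]
    rcases e.symm i with s | s <;> rcases e.symm j with t | t
    · simpa using hM s t
    · simpa using (sim_lab_zero (F := F) (X := X) (Z := Z))
    · simpa using (sim_lab_zero (F := F) (X := X) (Z := Z))
    · by_cases hst : s = t
      · simpa [hst] using (sim_lab_one (F := F) (X := X) (Z := Z))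
      · simpa [Matrix.one_apply, hst] using (sim_lab_zero (F := F) (X := X) (Z := Z))
  choose al hal be hbe using hlab2
  refine ⟨⟨fun v => al v.1 v.2.1 v.2.2, fun v => hal _ _ _, fun v => be v.1 v.2.1 v.2.2⟩,
    fun x => ?_⟩
  set σ : Subst F (Var n n) Z X := ⟨fun v => al v.1 v.2.1 v.2.2, fun v => hal _ _ _,
    fun v => be v.1 v.2.1 v.2.2⟩ with hσ
  have h3 := map_list_prod ((σ.hom x).toRingHom.mapMatrix (m := Fin n)) (List.ofFn (gmat F n n))
  have h4 := congrFun (congrFun h3 0) 0
  rw [RingHom.mapMatrix_apply, Matrix.map_apply, List.map_ofFn] at h4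
  have h5 : ((σ.hom x).toRingHom.mapMatrix (m := Fin n) ∘ gmat F n n) =
      fun l : Fin n => φ (L'.get (l.cast hL'len.symm) x) := by
    funext l
    ext1 i j
    show (σ.hom x) (MvPolynomial.X (l, i, j)) = φ (L'.get (l.cast hL'len.symm) x) i j
    refine Eq.trans ?_ (hbe l i j x).symm
    unfold Subst.hom
    rw [MvPolynomial.aeval_X]
  have h6 : (σ.hom x) (IMM F n n) =
      (List.ofFn fun l : Fin n => φ (L'.get (l.cast hL'len.symm) x)).prod 0 0 := by
    rw [← h5]; exact h4
  have h7 : (List.ofFn fun l : Fin n => φ (L'.get (l.cast hL'len.symm) x)) =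
      (L'.map (fun M => M x)).map φ := by
    rw [List.map_map]
    apply List.ext_get
    · simp [hL'len]
    · intro k h1 h2
      simp
  rw [h6, h7, ← map_list_prod, ← he, hφ, hL'prod]

end Embed

section Count

variable {F : Type} [Field F] [Fintype F] {b : ℕ}

omit [Field F] in
lemma sim_idx_lt (y : F) : idx F y < Fintype.card F := (Fintype.equivFin F y).2

lemma sim_card_pos : 0 < Fintype.card F := Fintype.card_pos

/-- the thermometer variable with index `n` is `1` -/
def simP (z : Fin b → F) (n : ℕ) : Prop :=
  ∃ h : n < b * Fintype.card F,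
    n % Fintype.card F < idx F (z (⟨n, h⟩ : Fin (b * Fintype.card F)).divNat)

open Classical in
/-- number of thermometer variables with index below `n` that are `1` -/
noncomputable def simC (z : Fin b → F) (n : ℕ) : ℕ := ((range n).filter (simP z)).card

open Classical in
omit [Field F] in
lemma simC_succ (z : Fin b → F) (n : ℕ) :
    simC z (n + 1) = simC z n + if simP z n then 1 else 0 := by
  unfold simC
  rw [Finset.range_add_one, Finset.filter_insert]
  split_ifs with h
  · rw [Finset.card_insert_of_notMem (by simp)]
  · simp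

open Classical in
lemma sim_hockey (z : Fin b → F) (d n : ℕ) :
    ∑ m ∈ range n, (if simP z m then ((simC z m).choose d : F) else 0) =
      ((simC z n).choose (d + 1) : F) := by
  induction n with
  | zero => simp [simC]
  | succ n ih =>
    rw [Finset.sum_range_succ, ih, simC_succ]
    split_ifs with h
    · rw [Nat.choose_succ_succ']
      push_cast
      ring
    · simp

omit [Field F] in
lemma simC_total (z : Fin b → F) : simC z (b * Fintype.card F) = wt z := by
  classical
  unfold simC wt
  have h1 : ((range (b * Fintype.card F)).filter (simP z)).card =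
      ((univ : Finset (Fin b × Fin (Fintype.card F))).filter
        (fun p => (p.2 : ℕ) < idx F (z p.1))).card := by
    symm
    apply Finset.card_bij (fun p _ => ((finProdFinEquiv p : Fin (b * Fintype.card F)) : ℕ))
    · rintro ⟨j, a⟩ hp
      rw [mem_filter] at hp ⊢
      refine ⟨mem_range.mpr (Fin.is_lt _), Fin.is_lt _, ?_⟩
      have e1 : (finProdFinEquiv (j, a) : Fin (b * Fintype.card F)).divNat = j := by
        exact congrArg Prod.fst (finProdFinEquiv.symm_apply_apply (j, a))
      have e2 : ((finProdFinEquiv (j, a) : Fin (b * Fintype.card F)) : ℕ) % Fintype.card F =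
          (a : ℕ) := by
        exact congrArg Fin.val (congrArg Prod.snd (finProdFinEquiv.symm_apply_apply (j, a)))
      rw [Fin.eta, e1, e2]
      exact hp.2
    · rintro p _ p' _ h
      exact finProdFinEquiv.injective (Fin.ext h)
    · intro n hn
      rw [mem_filter] at hn
      obtain ⟨h, h'⟩ := hn.2
      refine ⟨finProdFinEquiv.symm ⟨n, h⟩, ?_, ?_⟩
      · rw [mem_filter]
        refine ⟨mem_univ _, ?_⟩
        simpa using h'
      · simp [Nat.mod_add_div]
  rw [h1, Finset.card_filter, Fintype.sum_prod_type]
  refine Finset.sum_congr rfl fun j _ => ?_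
  rw [← Finset.card_filter]
  have hlt := sim_idx_lt (z j)
  have e : (univ.filter fun a : Fin (Fintype.card F) => (a : ℕ) < idx F (z j)) =
      Finset.Iio ⟨idx F (z j), hlt⟩ := by
    ext a; simp [Fin.lt_def]
  rw [e, Fin.card_Iio]

end Count

section Auto

section Defs

variable (F : Type) [Field F] [Fintype F] (K m b : ℕ)

/-- states: `inl false` is the start and end, `inl true` is idle, `inr (inl i)` is the start of the
`i`-th part, `inr (inr (i, u, y))` means position `u` with guessed value `y` -/
abbrev SimSt := Bool ⊕ Fin m ⊕ (Fin m × Fin (b * Fintype.card F) × F)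

/-- labels in block `k` -/
abbrev SimR := MvPolynomial (Fin K × Fin m) F

variable {F K m b}

/-- indicator that the thermometer variable at `u` is `1` if the coordinate is `y` -/
noncomputable def simLab (u : Fin (b * Fintype.card F)) (y : F) : F :=
  if (u : ℕ) % Fintype.card F < idx F y then 1 else 0

/-- first layer -/
noncomputable def simA1 (k : Fin K) : Matrix (SimSt F m b) (SimSt F m b) (SimR F K m) :=
  Matrix.of fun s t => match s, t with
    | Sum.inl false, Sum.inl true => 1
    | Sum.inl false, Sum.inr (Sum.inl i) => MvPolynomial.X (k, i)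
    | _, _ => 0

/-- second layer -/
noncomputable def simA2 (v : ℕ) : Matrix (SimSt F m b) (SimSt F m b) (SimR F K m) :=
  Matrix.of fun s t => match s, t with
    | Sum.inl true, Sum.inl true => 1
    | Sum.inr (Sum.inl i), Sum.inr (Sum.inl i') => if i = i' then 1 else 0
    | Sum.inr (Sum.inl _), Sum.inl true => MvPolynomial.C (-(v : F))
    | _, _ => 0

/-- choice of the next position -/
noncomputable def simE : Matrix (SimSt F m b) (SimSt F m b) (SimR F K m) :=
  Matrix.of fun s t => match s, t with
    | Sum.inl true, Sum.inl true => 1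
    | Sum.inr (Sum.inl i), Sum.inr (Sum.inr p) => if i = p.1 then 1 else 0
    | Sum.inr (Sum.inr p), Sum.inr (Sum.inr p') =>
        if p.1 = p'.1 ∧ p.2.1 < p'.2.1 then MvPolynomial.C (simLab p.2.1 p.2.2) else 0
    | _, _ => 0

/-- the coordinate at position `u` of the point shifted by `c i` -/
def simZ (c : Fin m → Fin b → F) (k : Fin K) (x : Fin K × Fin b → F) (i : Fin m)
    (u : Fin (b * Fintype.card F)) : F := (blk x k + c i) u.divNat

open Classical in
/-- check of the guessed value -/
noncomputable def simLam (c : Fin m → Fin b → F) (k : Fin K) (x : Fin K × Fin b → F) (w : F) :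
    SimSt F m b → SimR F K m
  | Sum.inr (Sum.inr p) => if w = p.2.2 then 1 else
      MvPolynomial.C ((simZ c k x p.1 p.2.1 - w) / (p.2.2 - w))
  | _ => 1

/-- last layer -/
noncomputable def simO : Matrix (SimSt F m b) (SimSt F m b) (SimR F K m) :=
  Matrix.of fun s t => match s, t with
    | Sum.inl true, Sum.inl false => 1
    | Sum.inr (Sum.inr p), Sum.inl false => MvPolynomial.C (simLab p.2.1 p.2.2)
    | _, _ => 0

/-- start vector -/
noncomputable def simV0 : SimSt F m b → SimR F K m
  | Sum.inl false => 1
  | _ => 0

/-- row vector after the first layer -/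
noncomputable def simV1 (k : Fin K) : SimSt F m b → SimR F K m
  | Sum.inl true => 1
  | Sum.inr (Sum.inl i) => MvPolynomial.X (k, i)
  | _ => 0

/-- row vector after the second layer -/
noncomputable def simV2 (v : ℕ) (k : Fin K) : SimSt F m b → SimR F K m
  | Sum.inl true => 1 + ∑ i : Fin m, MvPolynomial.X (k, i) * MvPolynomial.C (-(v : F))
  | Sum.inr (Sum.inl i) => MvPolynomial.X (k, i)
  | _ => 0

open Classical in
/-- row vector after `d + 1` rounds -/
noncomputable def simV (v : ℕ) (c : Fin m → Fin b → F) (k : Fin K) (x : Fin K × Fin b → F)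
    (d : ℕ) : SimSt F m b → SimR F K m
  | Sum.inl true => 1 + ∑ i : Fin m, MvPolynomial.X (k, i) * MvPolynomial.C (-(v : F))
  | Sum.inr (Sum.inr p) => MvPolynomial.X (k, p.1) * MvPolynomial.C
      ((if simZ c k x p.1 p.2.1 = p.2.2 then 1 else 0) *
        ((simC (blk x k + c p.1) p.2.1).choose d : F))
  | _ => 0

end Defs

variable {F : Type} [Field F] [Fintype F] {K m b : ℕ}

lemma sim_step1 (k : Fin K) :
    Matrix.vecMul (simV0 : SimSt F m b → SimR F K m) (simA1 k) = simV1 k := by
  classical
  funext t
  rcases t with (_ | _) | i | ⟨i, u, y⟩ <;>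
    simp [Matrix.vecMul, dotProduct, Fintype.sum_sum_type, simV0, simA1, simV1]

lemma sim_step2 (v : ℕ) (k : Fin K) :
    Matrix.vecMul (simV1 k : SimSt F m b → SimR F K m) (simA2 v) = simV2 v k := by
  classical
  funext t
  rcases t with (_ | _) | i | ⟨i, u, y⟩ <;>
    simp [Matrix.vecMul, dotProduct, Fintype.sum_sum_type, simV1, simA2, simV2]

open Classical in
/-- the product of the checks is the indicator of a correct guess -/
lemma sim_lagrange (c : Fin m → Fin b → F) (k : Fin K) (x : Fin K × Fin b → F)
    (p : Fin m × Fin (b * Fintype.card F) × F) :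
    ∏ w : F, simLam c k x w (Sum.inr (Sum.inr p)) =
      MvPolynomial.C (if simZ c k x p.1 p.2.1 = p.2.2 then 1 else 0) := by
  set z := simZ c k x p.1 p.2.1 with hz
  have h1 : ∀ w : F, simLam c k x w (Sum.inr (Sum.inr p)) =
      MvPolynomial.C (if w = p.2.2 then 1 else (z - w) / (p.2.2 - w)) := by
    intro w
    have e : simLam c k x w (Sum.inr (Sum.inr p)) = if w = p.2.2 then (1 : SimR F K m) else
      MvPolynomial.C ((simZ c k x p.1 p.2.1 - w) / (p.2.2 - w)) := rfl
    rw [e]
    split_ifs with h
    · simp
    · rfl
  simp only [h1]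
  rw [← map_prod]
  congr 1
  by_cases h : z = p.2.2
  · rw [if_pos h]
    apply Finset.prod_eq_one
    intro w _
    split_ifs with hw
    · rfl
    · rw [h]
      exact div_self (sub_ne_zero.mpr (Ne.symm hw))
  · rw [if_neg h]
    apply Finset.prod_eq_zero (Finset.mem_univ z)
    rw [if_neg h, sub_self, zero_div]

lemma sim_lam_other (c : Fin m → Fin b → F) (k : Fin K) (x : Fin K × Fin b → F) (w : F) :
    simLam c k x w (Sum.inl true) = (1 : SimR F K m) ∧
    simLam c k x w (Sum.inl false) = (1 : SimR F K m) ∧
    ∀ i, simLam c k x w (Sum.inr (Sum.inl i)) = (1 : SimR F K m) := ⟨rfl, rfl, fun _ => rfl⟩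

open Classical in
/-- the sum over the guessed values -/
lemma sim_sum_y (z : Fin b → F) (u : Fin (b * Fintype.card F)) (e : F) :
    ∑ y : F, ((if z u.divNat = y then 1 else 0) * e) * simLab u y =
      (if simP z u then e else 0) := by
  have h1 : ∀ y : F, ((if z u.divNat = y then 1 else 0) * e) * simLab u y =
      if z u.divNat = y then e * simLab u y else 0 := by
    intro y; split_ifs <;> simp
  simp only [h1]
  rw [Finset.sum_ite_eq (Finset.univ) (z u.divNat) (fun y => e * simLab u y), if_pos (mem_univ _)]
  have h2 : simP z u ↔ (u : ℕ) % Fintype.card F < idx F (z u.divNat) := by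
    constructor
    · rintro ⟨_, h⟩; exact h
    · intro h; exact ⟨u.2, h⟩
  unfold simLab
  by_cases h : (u : ℕ) % Fintype.card F < idx F (z u.divNat)
  · rw [if_pos h, if_pos (h2.mpr h), mul_one]
  · rw [if_neg h, if_neg (fun h' => h (h2.mp h')), mul_zero]

/-- sum over positions below `N` -/
lemma sim_sum_u (z : Fin b → F) (d N : ℕ) (hN : N ≤ b * Fintype.card F) :
    ∑ u : Fin (b * Fintype.card F), (if (u : ℕ) < N then
      (open Classical in if simP z u then ((simC z u).choose d : F) else 0) else 0) =
      ((simC z N).choose (d + 1) : F) := by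
  classical
  rw [Fin.sum_univ_eq_sum_range (fun u => if u < N then
      (if simP z u then ((simC z u).choose d : F) else 0) else 0) (b * Fintype.card F),
    ← Finset.sum_filter]
  have e : (range (b * Fintype.card F)).filter (fun u => u < N) = range N := by
    ext u; simp only [mem_filter, mem_range]; omega
  rw [e]
  exact sim_hockey z d N

open Classical in
/-- product of the diagonal matrices -/
lemma sim_diag (c : Fin m → Fin b → F) (k : Fin K) (x : Fin K × Fin b → F) :
    (((univ : Finset F).toList.map fun w => Matrix.diagonal (simLam c k x w)).prod :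
      Matrix (SimSt F m b) (SimSt F m b) (SimR F K m)) =
      Matrix.diagonal fun s => ∏ w : F, simLam c k x w s := by
  have h1 : ((univ : Finset F).toList.map fun w => (Matrix.diagonal (simLam c k x w) :
      Matrix (SimSt F m b) (SimSt F m b) (SimR F K m))) =
      ((univ : Finset F).toList.map fun w => simLam c k x w).map
        (Matrix.diagonalRingHom (SimSt F m b) (SimR F K m)) := by
    rw [List.map_map]; rfl
  rw [h1, ← map_list_prod, Finset.prod_map_toList]
  show Matrix.diagonal _ = _
  congr 1
  funext s
  rw [Finset.prod_apply]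

open Classical in
/-- one round: from the row vector `V` to `V E Λ` -/
lemma sim_round0 (v : ℕ) (c : Fin m → Fin b → F) (k : Fin K) (x : Fin K × Fin b → F) :
    Matrix.vecMul (Matrix.vecMul (simV2 v k : SimSt F m b → SimR F K m) simE)
      (((univ : Finset F).toList.map fun w => Matrix.diagonal (simLam c k x w)).prod) =
      simV v c k x 0 := by
  rw [sim_diag]
  funext t
  rw [Matrix.vecMul_diagonal]
  rcases t with (_ | _) | i | ⟨i, u, y⟩
  · simp [Matrix.vecMul, dotProduct, Fintype.sum_sum_type, simV2, simE, simV]
  · simp [Matrix.vecMul, dotProduct, Fintype.sum_sum_type, simV2, simE, simV,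
      (sim_lam_other c k x _).1]
  · simp [Matrix.vecMul, dotProduct, Fintype.sum_sum_type, simV2, simE, simV]
  · rw [sim_lagrange]
    simp [Matrix.vecMul, dotProduct, Fintype.sum_sum_type, simV2, simE, simV]

open Classical in
lemma sim_round (v : ℕ) (c : Fin m → Fin b → F) (k : Fin K) (x : Fin K × Fin b → F) (d : ℕ) :
    Matrix.vecMul (Matrix.vecMul (simV v c k x d : SimSt F m b → SimR F K m) simE)
      (((univ : Finset F).toList.map fun w => Matrix.diagonal (simLam c k x w)).prod) =
      simV v c k x (d + 1) := by
  rw [sim_diag]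
  funext t
  rw [Matrix.vecMul_diagonal]
  rcases t with (_ | _) | i | ⟨i, u, y⟩
  · simp [Matrix.vecMul, dotProduct, Fintype.sum_sum_type, simE, simV]
  · simp [Matrix.vecMul, dotProduct, Fintype.sum_sum_type, simE, simV,
      (sim_lam_other c k x _).1]
  · simp [Matrix.vecMul, dotProduct, Fintype.sum_sum_type, simE, simV]
  · rw [sim_lagrange]
    have h1 : Matrix.vecMul (simV v c k x d : SimSt F m b → SimR F K m) simE
        (Sum.inr (Sum.inr (i, u, y))) = MvPolynomial.X (k, i) * MvPolynomial.C
          ((simC (blk x k + c i) u).choose (d + 1) : F) := by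
      have h2 : Matrix.vecMul (simV v c k x d : SimSt F m b → SimR F K m) simE
          (Sum.inr (Sum.inr (i, u, y))) =
          ∑ p : Fin m × Fin (b * Fintype.card F) × F, (MvPolynomial.X (k, p.1) * MvPolynomial.C
            ((if simZ c k x p.1 p.2.1 = p.2.2 then 1 else 0) *
            ((simC (blk x k + c p.1) p.2.1).choose d : F))) *
            (if p.1 = i ∧ p.2.1 < u then MvPolynomial.C (simLab p.2.1 p.2.2) else 0) := by
        simp [Matrix.vecMul, dotProduct, Fintype.sum_sum_type, simE, simV]
      rw [h2, Fintype.sum_prod_type, Finset.sum_eq_single i]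
      · rw [Fintype.sum_prod_type]
        have h3 : ∀ u' : Fin (b * Fintype.card F), ∑ y' : F,
            (MvPolynomial.X (k, i) * MvPolynomial.C
            ((if simZ c k x i u' = y' then 1 else 0) *
            ((simC (blk x k + c i) u').choose d : F))) *
            (if i = i ∧ u' < u then MvPolynomial.C (simLab u' y') else 0) =
            MvPolynomial.X (k, i) * MvPolynomial.C (if (u' : ℕ) < (u : ℕ) then
              (if simP (blk x k + c i) u' then ((simC (blk x k + c i) u').choose d : F) else 0)
              else 0) := by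
          intro u'
          by_cases hu : u' < u
          · have hu' : (u' : ℕ) < (u : ℕ) := hu
            simp only [hu, hu', and_self, if_true]
            rw [← sim_sum_y (blk x k + c i) u' ((simC (blk x k + c i) u').choose d : F), map_sum,
              Finset.mul_sum]
            refine Finset.sum_congr rfl fun y' _ => ?_
            rw [mul_assoc, ← map_mul]
            rfl
          · have hu' : ¬ (u' : ℕ) < (u : ℕ) := hu
            simp only [hu, hu', and_false, if_false, mul_zero, Finset.sum_const_zero, map_zero]
        rw [Finset.sum_congr rfl fun u' _ => h3 u', ← Finset.mul_sum, ← map_sum,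
          sim_sum_u _ d u u.2.le]
      · intro i' _ hi'
        apply Finset.sum_eq_zero
        intro p _
        simp [hi']
      · intro h; exact absurd (mem_univ _) h
    rw [h1]
    show _ = MvPolynomial.X (k, i) * MvPolynomial.C
      ((if simZ c k x i u = y then 1 else 0) *
        ((simC (blk x k + c i) u).choose (d + 1) : F))
    rw [map_mul]
    ring

open Classical in
lemma sim_last (v : ℕ) (c : Fin m → Fin b → F) (k : Fin K) (x : Fin K × Fin b → F) (d : ℕ) :
    Matrix.vecMul (simV v c k x d : SimSt F m b → SimR F K m) simO =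
      fun s => (1 + ∑ i : Fin m,
        MvPolynomial.C (uu (d + 1) v (blk x k + c i)) * MvPolynomial.X (k, i)) * simV0 s := by
  funext t
  rcases t with (_ | _) | i | ⟨i, u, y⟩
  · have h2 : Matrix.vecMul (simV v c k x d : SimSt F m b → SimR F K m) simO
          (Sum.inl false) = (1 + ∑ i : Fin m, MvPolynomial.X (k, i) *
            MvPolynomial.C (-(v : F))) +
          ∑ p : Fin m × Fin (b * Fintype.card F) × F, (MvPolynomial.X (k, p.1) * MvPolynomial.C
            ((if simZ c k x p.1 p.2.1 = p.2.2 then 1 else 0) *
            ((simC (blk x k + c p.1) p.2.1).choose d : F))) *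
            (MvPolynomial.C (simLab p.2.1 p.2.2)) := by
      simp [Matrix.vecMul, dotProduct, Fintype.sum_sum_type, simO, simV]
    have h3 : ∀ i : Fin m, ∑ q : Fin (b * Fintype.card F) × F,
        (MvPolynomial.X (k, i) * MvPolynomial.C
            ((if simZ c k x i q.1 = q.2 then 1 else 0) *
            ((simC (blk x k + c i) q.1).choose d : F))) *
            (MvPolynomial.C (simLab q.1 q.2) : SimR F K m) =
          MvPolynomial.X (k, i) * MvPolynomial.C ((wt (blk x k + c i)).choose (d + 1) : F) := by
      intro i
      rw [Fintype.sum_prod_type]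
      have h4 : ∀ u' : Fin (b * Fintype.card F), ∑ y' : F,
            (MvPolynomial.X (k, i) * MvPolynomial.C
            ((if simZ c k x i u' = y' then 1 else 0) *
            ((simC (blk x k + c i) u').choose d : F))) *
            (MvPolynomial.C (simLab u' y') : SimR F K m) =
            MvPolynomial.X (k, i) * MvPolynomial.C (if (u' : ℕ) < b * Fintype.card F then
              (if simP (blk x k + c i) u' then ((simC (blk x k + c i) u').choose d : F) else 0)
              else 0) := by
        intro u'
        rw [if_pos u'.2, ← sim_sum_y (blk x k + c i) u' ((simC (blk x k + c i) u').choose d : F),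
          map_sum, Finset.mul_sum]
        refine Finset.sum_congr rfl fun y' _ => ?_
        rw [mul_assoc, ← map_mul]
        rfl
      rw [Finset.sum_congr rfl fun u' _ => h4 u', ← Finset.mul_sum, ← map_sum,
          sim_sum_u _ d _ le_rfl, simC_total]
    rw [h2, Fintype.sum_prod_type, Finset.sum_congr rfl fun i _ => h3 i, add_assoc,
      ← Finset.sum_add_distrib]
    show _ = (1 + ∑ i : Fin m,
        MvPolynomial.C (uu (d + 1) v (blk x k + c i)) * MvPolynomial.X (k, i)) * 1
    rw [mul_one]
    congr 1
    refine Finset.sum_congr rfl fun i _ => ?_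
    unfold uu
    rw [map_sub, map_neg]
    ring
  · simp [Matrix.vecMul, dotProduct, Fintype.sum_sum_type, simO, simV, simV0]
  · simp [Matrix.vecMul, dotProduct, Fintype.sum_sum_type, simO, simV, simV0]
  · simp [Matrix.vecMul, dotProduct, Fintype.sum_sum_type, simO, simV, simV0]

end Auto

section Blocks

variable {F : Type} [Field F] [Fintype F] {K m b : ℕ}

/-- matrices depending on a point -/
abbrev SimM (F : Type) [Field F] [Fintype F] (K m b : ℕ) : Type :=
  (Fin K × Fin b → F) → Matrix (SimSt F m b) (SimSt F m b) (SimR F K m)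

open Classical in
/-- the layers of one round -/
noncomputable def simRd (c : Fin m → Fin b → F) (k : Fin K) : List (SimM F K m b) :=
  (fun _ => simE) :: (univ : Finset F).toList.map fun w => fun x => Matrix.diagonal (simLam c k x w)

/-- the layers of one block -/
noncomputable def simBlk (D v : ℕ) (c : Fin m → Fin b → F) (k : Fin K) : List (SimM F K m b) :=
  ((fun _ => simA1 k) :: (fun _ => simA2 v) :: (List.replicate D (simRd c k)).flatten) ++
    [fun _ => simO]

lemma simBlk_length (D v : ℕ) (c : Fin m → Fin b → F) (k : Fin K) :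
    (simBlk D v c k).length = (Fintype.card F + 1) * D + 3 := by
  unfold simBlk simRd
  simp [List.length_flatten]
  ring

open Classical in
lemma sim_rd_prod (c : Fin m → Fin b → F) (k : Fin K) (x : Fin K × Fin b → F)
    (V : SimSt F m b → SimR F K m) :
    Matrix.vecMul V ((simRd c k).map (fun M : SimM F K m b => M x)).prod =
      Matrix.vecMul (Matrix.vecMul V simE)
      (((univ : Finset F).toList.map fun w => Matrix.diagonal (simLam c k x w)).prod) := by
  unfold simRd
  rw [List.map_cons, List.prod_cons, Matrix.vecMul_vecMul, List.map_map]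
  rfl

open Classical in
lemma sim_rds (v : ℕ) (c : Fin m → Fin b → F) (k : Fin K) (x : Fin K × Fin b → F) (D : ℕ) :
    Matrix.vecMul (simV2 v k) (((List.replicate (D + 1) (simRd c k)).flatten.map
      (fun M : SimM F K m b => M x)).prod) = simV v c k x D := by
  induction D with
  | zero =>
    simp only [zero_add, List.replicate_one, List.flatten_cons, List.flatten_nil, List.append_nil]
    rw [sim_rd_prod, sim_round0]
  | succ D ih =>
    rw [List.replicate_succ', List.flatten_append, List.map_append, List.prod_append,
      ← Matrix.vecMul_vecMul, ih]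
    simp only [List.flatten_cons, List.flatten_nil, List.append_nil]
    rw [sim_rd_prod, sim_round]

open Classical in
lemma sim_block (D v : ℕ) (c : Fin m → Fin b → F) (k : Fin K) (x : Fin K × Fin b → F) :
    Matrix.vecMul simV0 (((simBlk (D + 1) v c k).map (fun M : SimM F K m b => M x)).prod) =
      fun s => (1 + ∑ i : Fin m,
        MvPolynomial.C (uu (D + 1) v (blk x k + c i)) * MvPolynomial.X (k, i)) * simV0 s := by
  unfold simBlk
  rw [List.map_append, List.prod_append, List.map_cons, List.map_cons, List.prod_cons,
    List.prod_cons, ← Matrix.vecMul_vecMul, ← Matrix.vecMul_vecMul, ← Matrix.vecMul_vecMul,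
    sim_step1, sim_step2, sim_rds]
  simp only [List.map_cons, List.map_nil, List.prod_cons, List.prod_nil, mul_one]
  rw [sim_last]

open Classical in
lemma sim_all (D v : ℕ) (c : Fin m → Fin b → F) (x : Fin K × Fin b → F) (l : List (Fin K)) :
    Matrix.vecMul simV0 (((l.map fun k => simBlk (D + 1) v c k).flatten.map
      (fun M : SimM F K m b => M x)).prod) =
      fun s => (l.map fun k => (1 + ∑ i : Fin m,
        MvPolynomial.C (uu (D + 1) v (blk x k + c i)) * MvPolynomial.X (k, i))).prod *
          simV0 s := by
  induction l with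
  | nil => funext s; simp
  | cons k l ih =>
    rw [List.map_cons, List.flatten_cons, List.map_append, List.prod_append,
      ← Matrix.vecMul_vecMul, sim_block]
    have h1 : (fun s => (1 + ∑ i : Fin m,
        MvPolynomial.C (uu (D + 1) v (blk x k + c i)) * MvPolynomial.X (k, i)) *
          (simV0 s : SimR F K m)) = (1 + ∑ i : Fin m,
        MvPolynomial.C (uu (D + 1) v (blk x k + c i)) * MvPolynomial.X (k, i)) •
          (simV0 : SimSt F m b → SimR F K m) := by
      funext s; rfl
    rw [h1, Matrix.smul_vecMul, ih]
    funext s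
    rw [List.map_cons, List.prod_cons]
    simp only [Pi.smul_apply, smul_eq_mul]
    ring

/-- labels are affine -/
lemma sim_blk_lab (D v : ℕ) (c : Fin m → Fin b → F) (k : Fin K) (M : SimM F K m b)
    (hM : M ∈ simBlk D v c k) (s t : SimSt F m b) : sim_IsLab (fun x => M x s t) := by
  classical
  unfold simBlk at hM
  simp only [List.cons_append, List.mem_cons, List.mem_append, List.not_mem_nil, or_false,
    List.mem_flatten, List.mem_replicate] at hM
  rcases hM with rfl | rfl | ⟨l, ⟨_, rfl⟩, hM⟩ | rfl
  · rcases s with (_ | _) | i | ⟨i, u, y⟩ <;> rcases t with (_ | _) | i' | ⟨i', u', y'⟩ <;>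
      first | exact sim_lab_zero | exact sim_lab_one | exact sim_lab_X _
  · rcases s with (_ | _) | i | ⟨i, u, y⟩ <;> rcases t with (_ | _) | i' | ⟨i', u', y'⟩ <;>
      first | exact sim_lab_zero | exact sim_lab_one | exact sim_lab_const _ | skip
    by_cases h : i = i'
    · simpa [simA2, h] using (sim_lab_one (F := F) (X := Fin K × Fin b) (Z := Fin K × Fin m))
    · simpa [simA2, h] using (sim_lab_zero (F := F) (X := Fin K × Fin b) (Z := Fin K × Fin m))
  · unfold simRd at hM
    simp only [List.mem_cons, List.mem_map] at hM
    rcases hM with rfl | ⟨w, _, rfl⟩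
    · rcases s with (_ | _) | i | ⟨i, u, y⟩ <;> rcases t with (_ | _) | i' | ⟨i', u', y'⟩ <;>
        first | exact sim_lab_zero | exact sim_lab_one | skip
      · by_cases h : i = i'
        · simpa [simE, h] using (sim_lab_one (F := F) (X := Fin K × Fin b) (Z := Fin K × Fin m))
        · simpa [simE, h] using (sim_lab_zero (F := F) (X := Fin K × Fin b) (Z := Fin K × Fin m))
      · by_cases h : i = i' ∧ u < u'
        · simpa [simE, h] using
            (sim_lab_const (X := Fin K × Fin b) (Z := Fin K × Fin m) (simLab u y))
        · simpa [simE, h] using (sim_lab_zero (F := F) (X := Fin K × Fin b) (Z := Fin K × Fin m))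
    · by_cases hst : s = t
      · subst hst
        have e1 : (fun x : Fin K × Fin b → F => (Matrix.diagonal (simLam c k x w) :
            Matrix (SimSt F m b) (SimSt F m b) (SimR F K m)) s s) =
            fun x => simLam c k x w s := by
          funext x; rw [Matrix.diagonal_apply_eq]
        rw [e1]
        rcases s with (_ | _) | i | p
        · exact sim_lab_one
        · exact sim_lab_one
        · exact sim_lab_one
        · by_cases h : w = p.2.2
          · have e2 : (fun x : Fin K × Fin b → F => simLam c k x w (Sum.inr (Sum.inr p))) =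
                fun _ => (1 : SimR F K m) := by
              funext x; exact if_pos h
            rw [e2]; exact sim_lab_one
          · have e2 : (fun x : Fin K × Fin b → F => simLam c k x w (Sum.inr (Sum.inr p))) =
                fun x => MvPolynomial.C ((simZ c k x p.1 p.2.1 - w) / (p.2.2 - w)) := by
              funext x; exact if_neg h
            rw [e2]
            apply sim_lab_aff (al := fun x => (simZ c k x p.1 p.2.1 - w) / (p.2.2 - w))
            have e3 : (fun x : Fin K × Fin b → F => (simZ c k x p.1 p.2.1 - w) / (p.2.2 - w)) =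
                (p.2.2 - w)⁻¹ • ((fun x : Fin K × Fin b → F => x (k, p.2.1.divNat)) +
                  fun _ => (c p.1 p.2.1.divNat - w)) := by
              funext x
              simp only [Pi.smul_apply, Pi.add_apply, smul_eq_mul]
              unfold simZ blk
              simp only [Pi.add_apply]
              rw [div_eq_mul_inv]
              ring
            rw [e3]
            exact Submodule.smul_mem _ _ (Submodule.add_mem _ (coord_mem_RM _)
              (const_mem_RM _ 1))
      · have e1 : (fun x : Fin K × Fin b → F => (Matrix.diagonal (simLam c k x w) :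
            Matrix (SimSt F m b) (SimSt F m b) (SimR F K m)) s t) = fun _ => 0 := by
          funext x; rw [Matrix.diagonal_apply_ne _ hst]
        rw [e1]; exact sim_lab_zero
  · rcases s with (_ | _) | i | ⟨i, u, y⟩ <;> rcases t with (_ | _) | i' | ⟨i', u', y'⟩ <;>
      first | exact sim_lab_zero | exact sim_lab_one | exact sim_lab_const _

end Blocks

theorem sim {F : Type} [Field F] [Fintype F] (n K D b m v : ℕ) [NeZero n] (c : Fin m → Fin b → F)
    (hD : 1 ≤ D) (h1 : K * ((Fintype.card F + 1) * D + 3) ≤ n)
    (h2 : 2 + 2 * m * b * Fintype.card F ^ 2 + m ≤ n) :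
    ∃ σ : Subst F (Var n n) (Fin K × Fin m) (Fin K × Fin b), ∀ x : Fin K × Fin b → F,
      σ.hom x (IMM F n n) = ∏ k : Fin K, (1 + ∑ i : Fin m,
        MvPolynomial.C (uu D v (blk x k + c i)) * MvPolynomial.X (k, i)) := by
  classical
  obtain ⟨D, rfl⟩ : ∃ D', D = D' + 1 := ⟨D - 1, by omega⟩
  have hS : Fintype.card (SimSt F m b) ≤ n := by
    simp only [SimSt, Fintype.card_sum, Fintype.card_prod, Fintype.card_bool, Fintype.card_fin]
    refine le_trans ?_ h2
    have : m * (b * Fintype.card F * Fintype.card F) = m * b * Fintype.card F ^ 2 := by ring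
    rw [this]
    have h3 : 2 * m * b * Fintype.card F ^ 2 = 2 * (m * b * Fintype.card F ^ 2) := by ring
    rw [h3]
    omega
  set L : List (SimM F K m b) := ((List.finRange K).map fun k => simBlk (D + 1) v c k).flatten
    with hL
  have hlen : L.length ≤ n := by
    refine le_trans (le_of_eq ?_) h1
    rw [hL, List.length_flatten, List.map_map]
    have : (List.length ∘ fun k => simBlk (D + 1) v c k) =
        fun _ : Fin K => (Fintype.card F + 1) * (D + 1) + 3 := by
      funext k; exact simBlk_length _ _ _ _
    rw [this]
    simp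
  obtain ⟨σ, hσ⟩ := sim_embed n (Sum.inl false : SimSt F m b) hS L hlen (by
    intro M hM s t
    rw [hL, List.mem_flatten] at hM
    obtain ⟨l, hl, hM⟩ := hM
    rw [List.mem_map] at hl
    obtain ⟨k, _, rfl⟩ := hl
    exact sim_blk_lab _ _ c k M hM s t)
  refine ⟨σ, fun x => ?_⟩
  rw [hσ x]
  have h3 := congrFun (sim_all D v c x (List.finRange K)) (Sum.inl false)
  have h4 : Matrix.vecMul (simV0 : SimSt F m b → SimR F K m)
      ((L.map (fun M : SimM F K m b => M x)).prod) (Sum.inl false) =
      ((L.map (fun M : SimM F K m b => M x)).prod) (Sum.inl false) (Sum.inl false) := by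
    simp [Matrix.vecMul, dotProduct, Fintype.sum_sum_type, simV0]
  rw [← h4, hL, h3]
  show _ * (1 : SimR F K m) = _
  rw [mul_one, ← List.ofFn_eq_map, List.prod_ofFn]

end Vale.Agent.P346q
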