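import Vale.Agent.Lib.P346q.RM

/-!
# P346 over a finite field: lower bound for the dimension (module TENSOR)

In every block the functions `mono a` (`∑ a ≤ h`) and `w_1, …, w_H` are linearly independent, so
their tensor products over the `K` blocks are linearly independent. Those with exactly `K₁` factors
`w` (positions `Λ`) and monomials of total weight at most `L'` at the other positions lie in
`VV Q K K₁ (K₁ l + L')`.
-/

open Finset

namespace Vale.Agent.P346q

/-- products of linearly independent functions in separate variables -/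
lemma tn_two {F X Y I J : Type} [Field F] (g : I → X → F) (h : J → Y → F)
    (hg : LinearIndependent F g) (hh : LinearIndependent F h) :
    LinearIndependent F (fun s : I × J => (fun z : X × Y => g s.1 z.1 * h s.2 z.2)) := by
  classical
  rw [linearIndependent_iff'] at hg hh ⊢
  intro s a hs
  have key : ∀ i ∈ s.image Prod.fst, ∀ j ∈ s.image Prod.snd,
      (if (i, j) ∈ s then a (i, j) else 0) = 0 := by
    intro i hi
    refine hh (s.image Prod.snd) (fun j => if (i, j) ∈ s then a (i, j) else 0) ?_
    funext y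
    have h1 := hg (s.image Prod.fst)
      (fun i => ∑ j ∈ s.image Prod.snd, (if (i, j) ∈ s then a (i, j) else 0) * h j y) (by
        funext x
        have h2 := congrFun hs (x, y)
        simp only [Finset.sum_apply, Pi.smul_apply, smul_eq_mul, Pi.zero_apply] at h2 ⊢
        refine Eq.trans ?_ h2
        have h3 : s ⊆ s.image Prod.fst ×ˢ s.image Prod.snd := by
          intro p hp
          rw [Finset.mem_product]
          exact ⟨Finset.mem_image_of_mem _ hp, Finset.mem_image_of_mem _ hp⟩
        calc ∑ i ∈ s.image Prod.fst, (∑ j ∈ s.image Prod.snd,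
                (if (i, j) ∈ s then a (i, j) else 0) * h j y) * g i x
            = ∑ i ∈ s.image Prod.fst, ∑ j ∈ s.image Prod.snd,
                (if (i, j) ∈ s then a (i, j) * (g i x * h j y) else 0) := by
              refine Finset.sum_congr rfl fun i _ => ?_
              rw [Finset.sum_mul]
              refine Finset.sum_congr rfl fun j _ => ?_
              split_ifs
              · ring
              · ring
          _ = ∑ p ∈ s.image Prod.fst ×ˢ s.image Prod.snd,
                (if p ∈ s then a p * (g p.1 x * h p.2 y) else 0) := by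
              rw [Finset.sum_product]
          _ = ∑ p ∈ s, (if p ∈ s then a p * (g p.1 x * h p.2 y) else 0) := by
              refine (Finset.sum_subset h3 fun p _ hp => ?_).symm
              rw [if_neg hp]
          _ = ∑ p ∈ s, a p * (g p.1 x * h p.2 y) := by
              refine Finset.sum_congr rfl fun p hp => ?_
              rw [if_pos hp]) i hi
    simpa only [Finset.sum_apply, Pi.smul_apply, smul_eq_mul, Pi.zero_apply] using h1
  intro p hp
  have h4 := key p.1 (Finset.mem_image_of_mem _ hp) p.2 (Finset.mem_image_of_mem _ hp)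
  rw [if_pos (show (p.1, p.2) ∈ s from hp)] at h4
  exact h4

/-- pulling back along a surjection and reindexing by an injection -/
lemma tn_pull {F X Y I J : Type} [Field F] (g : I → X → F) (hg : LinearIndependent F g)
    (φ : Y → X) (hφ : Function.Surjective φ) (e : J → I) (he : Function.Injective e)
    (g' : J → Y → F) (h : ∀ j y, g' j y = g (e j) (φ y)) : LinearIndependent F g' := by
  have h1 : LinearIndependent F (g ∘ e) := hg.comp e he
  have h2 : LinearIndependent F
      ((LinearMap.funLeft F F φ) ∘ (g ∘ e)) :=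
    h1.map' _ (LinearMap.ker_eq_bot.2 (LinearMap.funLeft_injective_of_surjective F F φ hφ))
  have h3 : g' = (LinearMap.funLeft F F φ) ∘ (g ∘ e) := by
    funext j y
    rw [h]
    rfl
  rw [h3]
  exact h2

/-- tensor products of linearly independent functions are linearly independent -/
theorem linInd_tensor {F : Type} [Field F] {K b : ℕ} {I : Type} (g : I → Fn F (Fin b))
    (hg : LinearIndependent F g) :
    LinearIndependent F fun s : Fin K → I =>
      (fun x : Fin K × Fin b → F => ∏ c, g (s c) (blk x c) : Fn F (Fin K × Fin b)) := by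
  induction K with
  | zero =>
    rw [linearIndependent_iff']
    intro s a hs i hi
    have h1 := congrFun hs (fun _ => 0)
    simp only [Finset.univ_eq_empty, Finset.prod_empty, Finset.sum_apply, Pi.smul_apply,
      smul_eq_mul, mul_one, Pi.zero_apply] at h1
    have h2 : s = {i} := by
      ext j
      rw [Finset.mem_singleton]
      constructor
      · intro _; exact Subsingleton.elim _ _
      · rintro rfl; exact hi
    rw [h2, Finset.sum_singleton] at h1
    exact h1
  | succ K ih =>
    have h2 := tn_two g _ hg ih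
    refine tn_pull _ h2 (fun x : Fin (K + 1) × Fin b → F =>
        ((blk x 0, fun p => x (p.1.succ, p.2)) : (Fin b → F) × (Fin K × Fin b → F))) ?_
      (fun s : Fin (K + 1) → I => (s 0, fun c => s c.succ)) ?_ _ ?_
    · rintro ⟨y, z⟩
      refine ⟨fun p => Fin.cases (y p.2) (fun c => z (c, p.2)) p.1, ?_⟩
      rfl
    · intro s s' h
      simp only [Prod.mk.injEq] at h
      funext c
      refine Fin.cases h.1 (fun c => congrFun h.2 c) c
    · intro s x
      rw [Fin.prod_univ_succ]
      rfl

/-- generators of `VV` with a fixed position set -/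
def tnU {F : Type} [Field F] {m b : ℕ} (Q : Fin m → Fn F (Fin b)) (K L : ℕ)
    (Λ : Finset (Fin K)) : Submodule F (Fn F (Fin K × Fin b)) :=
  Submodule.span F {f | ∃ (i : Fin K → Fin m) (g : Fn F (Fin K × Fin b)),
    g ∈ RM F (Fin K × Fin b) L ∧ f = fun x => (∏ c ∈ Λ, Q (i c) (blk x c)) * g x}

lemma tn_blk_mem {F : Type} [Field F] {K b l : ℕ} {g : Fn F (Fin b)} (hg : g ∈ RM F (Fin b) l)
    (c : Fin K) : (fun x : Fin K × Fin b → F => g (blk x c)) ∈ RM F (Fin K × Fin b) l :=
  comp_mem_RM hg (fun j => fun x : Fin K × Fin b → F => x (c, j)) fun j => coord_mem_RM (c, j)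

lemma tn_step {F : Type} [Field F] {m b : ℕ} (Q : Fin m → Fn F (Fin b)) {K l L : ℕ}
    {Λ : Finset (Fin K)} {c : Fin K} (hc : c ∉ Λ) {w : Fn F (Fin b)} (hw : w ∈ WW Q l)
    {f : Fn F (Fin K × Fin b)} (hf : f ∈ tnU Q K L Λ) :
    (fun x => w (blk x c) * f x) ∈ tnU Q K (l + L) (insert c Λ) := by
  classical
  unfold WW at hw
  induction hw using Submodule.span_induction with
  | mem w hw =>
    obtain ⟨i₀, g₀, hg₀, rfl⟩ := hw
    unfold tnU at hf
    induction hf using Submodule.span_induction with
    | mem f hf =>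
      obtain ⟨i, g, hg, rfl⟩ := hf
      refine Submodule.subset_span ⟨Function.update i c i₀,
        (fun x => g₀ (blk x c)) * g, mul_mem_RM (tn_blk_mem hg₀ c) hg, ?_⟩
      funext x
      rw [Finset.prod_insert hc]
      have h1 : ∏ c' ∈ Λ, Q (Function.update i c i₀ c') (blk x c') =
          ∏ c' ∈ Λ, Q (i c') (blk x c') := by
        refine Finset.prod_congr rfl fun c' hc' => ?_
        rw [Function.update_of_ne]
        rintro rfl
        exact hc hc'
      rw [h1, Function.update_self]
      simp only [Pi.mul_apply]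
      ring
    | zero =>
      have : (fun x : Fin K × Fin b → F => (Q i₀ * g₀) (blk x c) *
          (0 : Fn F (Fin K × Fin b)) x) = 0 := by
        funext x; simp
      rw [this]
      exact Submodule.zero_mem _
    | add f f' _ _ h1 h2 =>
      have : (fun x : Fin K × Fin b → F => (Q i₀ * g₀) (blk x c) * (f + f') x) =
          (fun x => (Q i₀ * g₀) (blk x c) * f x) + fun x => (Q i₀ * g₀) (blk x c) * f' x := by
        funext x; simp only [Pi.add_apply]; ring
      rw [this]
      exact Submodule.add_mem _ h1 h2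
    | smul a f _ h1 =>
      have : (fun x : Fin K × Fin b → F => (Q i₀ * g₀) (blk x c) * (a • f) x) =
          a • (fun x => (Q i₀ * g₀) (blk x c) * f x) := by
        funext x; simp only [Pi.smul_apply, smul_eq_mul]; ring
      rw [this]
      exact Submodule.smul_mem _ _ h1
  | zero =>
    have : (fun x : Fin K × Fin b → F => (0 : Fn F (Fin b)) (blk x c) * f x) = 0 := by
      funext x; simp
    rw [this]
    exact Submodule.zero_mem _
  | add w w' _ _ h1 h2 =>
    have : (fun x : Fin K × Fin b → F => (w + w') (blk x c) * f x) =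
        (fun x => w (blk x c) * f x) + fun x => w' (blk x c) * f x := by
      funext x; simp only [Pi.add_apply]; ring
    rw [this]
    exact Submodule.add_mem _ h1 h2
  | smul a w _ h1 =>
    have : (fun x : Fin K × Fin b → F => (a • w) (blk x c) * f x) =
        a • (fun x => w (blk x c) * f x) := by
      funext x; simp only [Pi.smul_apply, smul_eq_mul]; ring
    rw [this]
    exact Submodule.smul_mem _ _ h1

lemma tn_prod_mem {F : Type} [Field F] [Fintype F] {m b : ℕ} (Q : Fin m → Fn F (Fin b))
    {K l L : ℕ} (hm : K = 0 ∨ 0 < m) (Λ : Finset (Fin K)) (w : Fin K → Fn F (Fin b))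
    (hw : ∀ c ∈ Λ, w c ∈ WW Q l)
    {f : Fn F (Fin K × Fin b)} (hf : f ∈ RM F (Fin K × Fin b) L) :
    (fun x => (∏ c ∈ Λ, w c (blk x c)) * f x) ∈ tnU Q K (Λ.card * l + L) Λ := by
  classical
  induction Λ using Finset.induction_on with
  | empty =>
    have hi : ∃ i : Fin K → Fin m, True := by
      rcases hm with h | h
      · subst h; exact ⟨fun c => c.elim0, trivial⟩
      · exact ⟨fun _ => ⟨0, h⟩, trivial⟩
    obtain ⟨i, -⟩ := hi
    refine Submodule.subset_span ⟨i, f, ?_, ?_⟩
    · simpa using hf
    · simp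
  | insert c Λ hc ih =>
    have h1 := tn_step Q hc (hw c (by simp)) (ih fun c' hc' => hw c' (by simp [hc']))
    rw [Finset.card_insert_of_notMem hc]
    have h2 : (fun x : Fin K × Fin b → F => (∏ c' ∈ insert c Λ, w c' (blk x c')) * f x) =
        fun x => w c (blk x c) * ((∏ c ∈ Λ, w c (blk x c)) * f x) := by
      funext x
      rw [Finset.prod_insert hc, mul_assoc]
    rw [h2]
    have h3 : (Λ.card + 1) * l + L = l + (Λ.card * l + L) := by ring
    rw [h3]
    exact h1

/-- number of `K'`-tuples, as a type -/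
lemma tn_low_card (K' b q h L : ℕ) :
    Fintype.card {a : Fin K' → Fin b → Fin q //
      (∀ c, ∑ j, (a c j : ℕ) ≤ h) ∧ ∑ c, ∑ j, (a c j : ℕ) ≤ L} = low K' b q h L := by
  unfold low
  rw [Fintype.card_subtype]

theorem VV_lower {F : Type} [Field F] [Fintype F] {m b H : ℕ} (Q : Fin m → Fn F (Fin b))
    (K K₁ l h : ℕ) (hK : K₁ ≤ K) (hm : 0 < m) (w : Fin H → Fn F (Fin b))
    (hw : ∀ i, w i ∈ WW Q l) (hlin : LinearIndependent F
      (Sum.elim (fun a : {a : Fin b → Fin (Fintype.card F) // ∑ j, (a j : ℕ) ≤ h} =>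
        (mono fun j => (a.1 j : ℕ) : Fn F (Fin b))) w)) (L' : ℕ) :
    K.choose K₁ * H ^ K₁ * low (K - K₁) b (Fintype.card F) h L'
      ≤ Module.finrank F (VV Q K K₁ (K₁ * l + L')) := by
  classical
  set q := Fintype.card F with hq
  set I := {a : Fin b → Fin q // ∑ j, (a j : ℕ) ≤ h} ⊕ Fin H with hI
  set g : I → Fn F (Fin b) := Sum.elim (fun a : {a : Fin b → Fin q // ∑ j, (a j : ℕ) ≤ h} =>
        (mono fun j => (a.1 j : ℕ) : Fn F (Fin b))) w with hg
  set P := {Λ : Finset (Fin K) // Λ.card = K₁} with hP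
  set A := {a : Fin (K - K₁) → Fin b → Fin q //
      (∀ c, ∑ j, (a c j : ℕ) ≤ h) ∧ ∑ c, ∑ j, (a c j : ℕ) ≤ L'} with hA
  have e1 : ∀ Λ : P, Nonempty ({c // c ∈ Λ.1} ≃ Fin K₁) := fun Λ =>
    ⟨Fintype.equivFinOfCardEq (by rw [Fintype.card_coe]; exact Λ.2)⟩
  have e2 : ∀ Λ : P, Nonempty ({c // c ∉ Λ.1} ≃ Fin (K - K₁)) := fun Λ =>
    ⟨Fintype.equivFinOfCardEq (by
      rw [Fintype.card_subtype_compl, Fintype.card_fin]
      have h1 := Λ.2
      have h2 : Fintype.card {x // x ∈ Λ.1} = K₁ := by rw [Fintype.card_coe]; exact h1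
      rw [h2])⟩
  let E1 : ∀ Λ : P, {c // c ∈ Λ.1} ≃ Fin K₁ := fun Λ => (e1 Λ).some
  let E2 : ∀ Λ : P, {c // c ∉ Λ.1} ≃ Fin (K - K₁) := fun Λ => (e2 Λ).some
  let s : P × (Fin K₁ → Fin H) × A → (Fin K → I) := fun t c =>
    if hc : c ∈ t.1.1 then Sum.inr (t.2.1 (E1 t.1 ⟨c, hc⟩))
    else Sum.inl ⟨t.2.2.1 (E2 t.1 ⟨c, hc⟩), t.2.2.2.1 _⟩
  have hs : Function.Injective s := by
    rintro ⟨Λ, u, a⟩ ⟨Λ', u', a'⟩ hst
    have hΛ : Λ = Λ' := by
      apply Subtype.ext
      ext c
      have h1 := congrFun hst c
      by_cases hc : c ∈ Λ.1 <;> by_cases hc' : c ∈ Λ'.1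
      · exact ⟨fun _ => hc', fun _ => hc⟩
      · simp only [s, hc, hc', dif_pos, dif_neg, not_false_iff] at h1
        exact absurd h1 (by simp)
      · simp only [s, hc, hc', dif_pos, dif_neg, not_false_iff] at h1
        exact absurd h1 (by simp)
      · exact ⟨fun h => absurd h hc, fun h => absurd h hc'⟩
    subst hΛ
    have hu : u = u' := by
      funext k
      have h1 := congrFun hst ((E1 Λ).symm k).1
      have hc := ((E1 Λ).symm k).2
      simp only [s, hc, dif_pos, Subtype.coe_eta, Equiv.apply_symm_apply] at h1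
      exact Sum.inr_injective h1
    have ha : a = a' := by
      apply Subtype.ext
      funext k
      have h1 := congrFun hst ((E2 Λ).symm k).1
      have hc := ((E2 Λ).symm k).2
      simp only [s, hc, dif_neg, not_false_iff, Subtype.coe_eta,
        Equiv.apply_symm_apply] at h1
      exact congrArg Subtype.val (Sum.inl_injective h1)
    rw [hu, ha]
  have hmem : ∀ t, (fun x : Fin K × Fin b → F => ∏ c, g (s t c) (blk x c)) ∈
      VV Q K K₁ (K₁ * l + L') := by
    rintro ⟨Λ, u, a⟩
    have h1 : (fun x : Fin K × Fin b → F => ∏ c, g (s (Λ, u, a) c) (blk x c)) =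
        fun x => (∏ c ∈ Λ.1, g (s (Λ, u, a) c) (blk x c)) *
          (∏ c ∈ univ \ Λ.1, g (s (Λ, u, a) c) (blk x c)) := by
      funext x
      rw [mul_comm, Finset.prod_sdiff (Finset.subset_univ _)]
    have h2 : ∀ c ∈ Λ.1, g (s (Λ, u, a) c) ∈ WW Q l := by
      intro c hc
      simp only [s, hc, dif_pos, hg, Sum.elim_inr]
      exact hw _
    have h3 : (fun x : Fin K × Fin b → F =>
        ∏ c ∈ univ \ Λ.1, g (s (Λ, u, a) c) (blk x c)) ∈ RM F (Fin K × Fin b) L' := by
      have h4 := prod_mem_RM (univ \ Λ.1)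
        (fun c => fun x : Fin K × Fin b → F => g (s (Λ, u, a) c) (blk x c))
        (fun c => if hc : c ∈ Λ.1 then 0 else ∑ j, (a.1 (E2 Λ ⟨c, hc⟩) j : ℕ)) (by
          intro c hc
          rw [Finset.mem_sdiff] at hc
          simp only [hc.2, dif_neg, not_false_iff]
          refine tn_blk_mem (g := g (s (Λ, u, a) c)) ?_ c
          simp only [s, hc.2, dif_neg, not_false_iff, hg, Sum.elim_inl]
          exact Submodule.subset_span ⟨_, le_rfl, rfl⟩)
      have h5 : ∑ c ∈ univ \ Λ.1,
          (if hc : c ∈ Λ.1 then 0 else ∑ j, (a.1 (E2 Λ ⟨c, hc⟩) j : ℕ)) ≤ L' := by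
        refine le_trans (le_of_eq ?_) a.2.2
        rw [Finset.sum_subtype (univ \ Λ.1) (p := fun c => c ∉ Λ.1) (by simp)
          (fun c => if hc : c ∈ Λ.1 then 0 else ∑ j, (a.1 (E2 Λ ⟨c, hc⟩) j : ℕ)),
          ← Equiv.sum_comp (E2 Λ) (fun k => ∑ j, (a.1 k j : ℕ))]
        refine Finset.sum_congr rfl fun c _ => ?_
        simp only [c.2, dif_neg, not_false_iff, Subtype.coe_eta]
      refine RM_mono h5 ?_
      convert h4 using 1
      funext x
      rw [Finset.prod_apply]
    rw [h1]
    have h6 := tn_prod_mem Q (Or.inr hm) Λ.1 (fun c => g (s (Λ, u, a) c)) h2 h3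
    rw [Λ.2] at h6
    unfold tnU at h6
    unfold VV
    refine Submodule.span_mono ?_ h6
    rintro f ⟨i, g', hg', rfl⟩
    exact ⟨Λ.1, i, g', Λ.2, hg', rfl⟩
  have hli := (linInd_tensor (K := K) g hlin).comp s hs
  have hli2 : LinearIndependent F (fun t => (⟨_, hmem t⟩ : VV Q K K₁ (K₁ * l + L'))) := by
    refine LinearIndependent.of_comp (Submodule.subtype _) ?_
    exact hli
  have := hli2.fintype_card_le_finrank
  rw [Fintype.card_prod, Fintype.card_prod, Fintype.card_fun, Fintype.card_fin,
    Fintype.card_fin, tn_low_card] at this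
  have hPc : Fintype.card P = K.choose K₁ := by
    show Fintype.card {Λ : Finset (Fin K) // Λ.card = K₁} = K.choose K₁
    rw [Fintype.card_finset_len, Fintype.card_fin]
  rw [hPc] at this
  calc K.choose K₁ * H ^ K₁ * low (K - K₁) b q h L' =
      K.choose K₁ * (H ^ K₁ * low (K - K₁) b q h L') := by ring
    _ ≤ _ := this

end Vale.Agent.P346q
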