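import Vale.Agent.Lib.P346q.Ker

/-!
# P346 over a finite field: upper bound for the dimension (module UPPER)

Restrict `VV Q K K₁ L` to `Eᶜ`: the kernel is bounded by `ker_bound` (degree `L + K₁ dQ`), the image
is spanned by `B s * RM (L + T)`.
-/

open Finset

namespace Vale.Agent.P346q

lemma up_blk_mem {F : Type} [Field F] {K b l : ℕ} {g : Fn F (Fin b)} (hg : g ∈ RM F (Fin b) l)
    (c : Fin K) : (fun x : Fin K × Fin b → F => g (blk x c)) ∈ RM F (Fin K × Fin b) l :=
  comp_mem_RM hg (fun j => fun x : Fin K × Fin b → F => x (c, j)) fun j => coord_mem_RM (c, j)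

lemma up_VV_le {F : Type} [Field F] {m b : ℕ} (Q : Fin m → Fn F (Fin b)) (K K₁ L dQ : ℕ)
    (hQ : ∀ i, Q i ∈ RM F (Fin b) dQ) : VV Q K K₁ L ≤ RM F (Fin K × Fin b) (L + K₁ * dQ) := by
  unfold VV
  rw [Submodule.span_le]
  rintro f ⟨Λ, i, g, hΛ, hg, rfl⟩
  have h1 := prod_mem_RM Λ (fun c => fun x : Fin K × Fin b → F => Q (i c) (blk x c))
    (fun _ => dQ) (fun c _ => up_blk_mem (hQ (i c)) c)
  rw [Finset.sum_const, hΛ, smul_eq_mul] at h1
  have h2 := mul_mem_RM hg h1
  have h3 : (fun x : Fin K × Fin b → F => (∏ c ∈ Λ, Q (i c) (blk x c)) * g x) =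
      g * ∏ c ∈ Λ, fun x => Q (i c) (blk x c) := by
    funext x
    simp only [Pi.mul_apply, Finset.prod_apply]
    ring
  rw [SetLike.mem_coe, h3]
  exact h2

theorem VV_upper {F : Type} [Field F] [Fintype F] [DecidableEq F] {m b : ℕ}
    (Q : Fin m → Fn F (Fin b)) (K K₁ L T dQ : ℕ) (hQ : ∀ i, Q i ∈ RM F (Fin b) dQ)
    (E : Finset (Fin K × Fin b → F)) {S : Type} [Fintype S] (B : S → Fn F (Fin K × Fin b))
    (hB : ∀ (Λ : Finset (Fin K)) (i : Fin K → Fin m), Λ.card = K₁ →
      ∃ h : S → Fn F (Fin K × Fin b), (∀ s, h s ∈ RM F (Fin K × Fin b) T) ∧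
        ∀ x ∉ E, ∏ c ∈ Λ, Q (i c) (blk x c) = ∑ s, B s x * h s x) :
    Module.finrank F (VV Q K K₁ L) * Fintype.card F ^ (K * b)
      ≤ Fintype.card S * cnt (Fin K × Fin b) (Fintype.card F) (L + T) * Fintype.card F ^ (K * b)
        + E.card * cnt (Fin K × Fin b) (Fintype.card F) (L + K₁ * dQ) := by
  classical
  -- restriction to the complement of `E`
  let R : Fn F (Fin K × Fin b) →ₗ[F] ({x : Fin K × Fin b → F // x ∉ E} → F) := LinearMap.funLeft F F Subtype.val
  let RV : VV Q K K₁ L →ₗ[F] ({x : Fin K × Fin b → F // x ∉ E} → F) := R.comp (Submodule.subtype _)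
  have hrn := LinearMap.finrank_range_add_finrank_ker RV
  -- the kernel
  let N : Submodule F (Fn F (Fin K × Fin b)) := (LinearMap.ker RV).map (Submodule.subtype _)
  have hN : Module.finrank F N = Module.finrank F (LinearMap.ker RV) :=
    Submodule.finrank_map_subtype_eq _ _
  have hker : Module.finrank F N * Fintype.card F ^ Fintype.card (Fin K × Fin b) ≤
      E.card * cnt (Fin K × Fin b) (Fintype.card F) (L + K₁ * dQ) := by
    refine ker_bound (L + K₁ * dQ) E N ?_
    rintro f hf
    obtain ⟨g, hg, rfl⟩ := (Submodule.mem_map).1 hf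
    refine ⟨up_VV_le Q K K₁ L dQ hQ g.2, ?_⟩
    intro x hx
    rw [LinearMap.mem_ker] at hg
    exact congrFun hg ⟨x, hx⟩
  have hcard : Fintype.card (Fin K × Fin b) = K * b := by
    rw [Fintype.card_prod, Fintype.card_fin, Fintype.card_fin]
  rw [hcard, hN] at hker
  -- the range
  let Ψ : (S → RM F (Fin K × Fin b) (L + T)) →ₗ[F] ({x : Fin K × Fin b → F // x ∉ E} → F) :=
    { toFun := fun h => fun x => ∑ s, B s x.1 * (h s : Fn F (Fin K × Fin b)) x.1
      map_add' := by
        intro h h'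
        funext x
        simp only [Pi.add_apply, Submodule.coe_add, mul_add, Finset.sum_add_distrib]
      map_smul' := by
        intro a h
        funext x
        simp only [Pi.smul_apply, Submodule.coe_smul, smul_eq_mul, RingHom.id_apply,
          Finset.mul_sum]
        refine Finset.sum_congr rfl fun s _ => ?_
        ring }
  have hΨ : Module.finrank F (LinearMap.range Ψ) ≤
      Fintype.card S * cnt (Fin K × Fin b) (Fintype.card F) (L + T) := by
    refine (LinearMap.finrank_range_le Ψ).trans ?_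
    rw [Module.finrank_pi_fintype, Finset.sum_const, finrank_RM, smul_eq_mul, Finset.card_univ]
  have hsub : LinearMap.range RV ≤ LinearMap.range Ψ := by
    have h1 : VV Q K K₁ L ≤ (LinearMap.range Ψ).comap R := by
      unfold VV
      rw [Submodule.span_le]
      rintro f ⟨Λ, i, g, hΛ, hg, rfl⟩
      obtain ⟨h, hh, hh2⟩ := hB Λ i hΛ
      rw [SetLike.mem_coe, Submodule.mem_comap, LinearMap.mem_range]
      refine ⟨fun s => ⟨g * h s, mul_mem_RM hg (hh s)⟩, ?_⟩
      funext x
      show ∑ s, B s x.1 * (g * h s) x.1 = (∏ c ∈ Λ, Q (i c) (blk x.1 c)) * g x.1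
      rw [hh2 x.1 x.2, Finset.sum_mul]
      refine Finset.sum_congr rfl fun s _ => ?_
      simp only [Pi.mul_apply]
      ring
    rintro y ⟨f, rfl⟩
    exact h1 f.2
  have hrange : Module.finrank F (LinearMap.range RV) ≤
      Fintype.card S * cnt (Fin K × Fin b) (Fintype.card F) (L + T) :=
    (Submodule.finrank_mono hsub).trans hΨ
  rw [← hrn, add_mul]
  exact Nat.add_le_add (Nat.mul_le_mul_right _ hrange) hker

end Vale.Agent.P346q
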