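import Vale.Agent.Lib.P346q.Struct
import Vale.Agent.Lib.P346q.Sim
import Vale.Agent.Lib.P346q.Tensor
import Vale.Agent.Lib.P346q.Upper
import Vale.Agent.Lib.P346q.Block
import Vale.Agent.Lib.P346q.Gen
import Vale.Agent.Lib.P346q.CombA

/-!
# P346 over a finite field: combination (module COMBINE)
-/

open Finset

namespace Vale.Agent.P346q

open Vale.Agent.P346

theorem degree_sum_single {K m : ℕ} (Λ : Finset (Fin K)) (i : Fin K → Fin m) :
    (∑ c ∈ Λ, Finsupp.single (c, i c) 1 : Fin K × Fin m →₀ ℕ).degree = Λ.card := by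
  rw [map_sum]
  simp

theorem shift_mem_RM {F X : Type} [Field F] [Fintype F] [Fintype X] (D v : ℕ) (c : X → F) :
    (fun x => uu D v (x + c) : Fn F X) ∈ RM F X ((Fintype.card F - 1) * D) := by
  refine comp_mem_RM (uu_mem_RM D v) (fun i x => x i + c i) ?_
  intro i
  exact Submodule.add_mem _ (coord_mem_RM i) (const_mem_RM (c i) 1)

theorem combine {F : Type} [Field F] [Fintype F] [DecidableEq F] (p : ℕ) [Fact p.Prime]
    [CharP F p] (n : ℕ) [NeZero n] (C : Circuit F (Var n n)) (hC : C.Homogeneous)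
    (hval : C.value = IMM F n n) (j v b m h K K₁ τ t : ℕ) (s : ℝ) (hv : 1 ≤ v)
    (hh : 2 * h < (Fintype.card F - 1) * b)
    (hm : 8 * (Fintype.card F ^ b - cnt (Fin b) (Fintype.card F) (p ^ j * v - 1)) ^ m
      ≤ Fintype.card F ^ (b * m))
    (hw : 8 * m * tailCnt b (Fintype.card F) (p ^ j) v ≤ Fintype.card F ^ b)
    (h1 : K * ((Fintype.card F + 1) * p ^ j + 3) ≤ n)
    (h2 : 2 + 2 * m * b * Fintype.card F ^ 2 + m ≤ n) (hK : K₁ ≤ K) (ht : 1 ≤ t)
    (hτ : (Fintype.card F - 1) * τ ≤ t) (hs : 0 < s) :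
    (K.choose K₁ : ℝ) * ((Fintype.card F : ℝ) ^ b / 4) ^ K₁
        * Zl (Fintype.card F) b h s ^ (K - K₁)
      ≤ C.size * (fewSub (2 * n / t + 1) K₁
            * Real.exp (s * ((K₁ * (p ^ j * v - 1) + K₁ * t : ℕ) : ℝ))
          + fewZeros (Fintype.card F) τ K₁ / (Fintype.card F : ℝ) ^ (τ + 1)
            * Real.exp (s * ((K₁ * (p ^ j * v - 1) + K₁ * ((Fintype.card F - 1) * p ^ j) : ℕ) : ℝ)))
          * Zf (Fintype.card F) s ^ (K * b) := by
  have hq0 : 0 < Fintype.card F := Fintype.card_pos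
  have hqr : (0 : ℝ) < Fintype.card F := by exact_mod_cast hq0
  have hpj : 1 ≤ p ^ j := Nat.one_le_pow _ _ (Fact.out : p.Prime).pos
  have hm0 : 0 < m := by
    rcases Nat.eq_zero_or_pos m with h0 | h0
    · subst h0
      simp at hm
    · exact h0
  obtain ⟨c, H, w, hH, hwW, hlin⟩ := block (F := F) p j v b m h hv hh hm hw
  obtain ⟨σ, hσ⟩ := sim (F := F) n K (p ^ j) b m v c hpj h1 h2
  obtain ⟨E, B, hE, hcoef⟩ := struct_main σ C hC n (by rw [hval]; exact IMM_homogeneous n)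
    (by rw [hval]; exact IMM_ne_zero n) K₁ τ t ht hτ
  let Q : Fin m → Fn F (Fin b) := fun i x => uu (p ^ j) v (x + c i)
  have hQ : ∀ i, Q i ∈ RM F (Fin b) ((Fintype.card F - 1) * p ^ j) := fun i =>
    shift_mem_RM (p ^ j) v (c i)
  let S : Type := Fin C.n4 × {U : Finset (Fin (2 * n / t + 1)) // U.card ≤ K₁}
  have hS : Fintype.card S = C.n4 * fewSub (2 * n / t + 1) K₁ := by
    simp only [S, Fintype.card_prod, Fintype.card_fin, Fintype.card_subtype, fewSub]
  have hB : ∀ (Λ : Finset (Fin K)) (i : Fin K → Fin m), Λ.card = K₁ →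
      ∃ h : S → Fn F (Fin K × Fin b), (∀ s, h s ∈ RM F (Fin K × Fin b) (K₁ * t)) ∧
        ∀ x ∉ E, ∏ c ∈ Λ, Q (i c) (blk x c) = ∑ s : S, B s.1 s.2.1 x * h s x := by
    intro Λ i hΛ
    obtain ⟨h, hh1, hh2⟩ := hcoef (∑ c ∈ Λ, Finsupp.single (c, i c) 1)
      (by rw [degree_sum_single, hΛ])
    refine ⟨fun s => h s.1 s.2.1, fun s => hh1 s.1 s.2.1, ?_⟩
    intro x hx
    have h3 := hh2 x hx
    rw [hval, hσ x, coeff_prod (fun k i => uu (p ^ j) v (blk x k + c i)) Λ i] at h3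
    rw [h3, Fintype.sum_prod_type]
    refine Finset.sum_congr rfl fun j' _ => ?_
    exact Finset.sum_subtype (univ.filter fun U : Finset (Fin (2 * n / t + 1)) => U.card ≤ K₁)
      (fun U => by simp) (fun U => B j' U x * h j' U x)
  have key : ∀ L : ℕ, ((K.choose K₁ : ℝ) * ((Fintype.card F : ℝ) ^ b / 4) ^ K₁)
        * low (K - K₁) b (Fintype.card F) h L
      ≤ (C.size * fewSub (2 * n / t + 1) K₁ : ℝ)
          * cnt (Fin K × Fin b) (Fintype.card F) (L + (K₁ * (p ^ j * v - 1) + K₁ * t))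
        + (C.size * (fewZeros (Fintype.card F) τ K₁ / (Fintype.card F : ℝ) ^ (τ + 1)) : ℝ)
          * cnt (Fin K × Fin b) (Fintype.card F)
              (L + (K₁ * (p ^ j * v - 1) + K₁ * ((Fintype.card F - 1) * p ^ j))) := by
    intro L
    have hlow := VV_lower Q K K₁ (p ^ j * v - 1) h hK hm0 w hwW hlin L
    have hup := VV_upper Q K K₁ (K₁ * (p ^ j * v - 1) + L) (K₁ * t)
      ((Fintype.card F - 1) * p ^ j) hQ E (fun s : S => B s.1 s.2.1) hB
    rw [hS] at hup
    have e1 : K₁ * (p ^ j * v - 1) + L + K₁ * t = L + (K₁ * (p ^ j * v - 1) + K₁ * t) := by ring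
    have e2 : K₁ * (p ^ j * v - 1) + L + K₁ * ((Fintype.card F - 1) * p ^ j)
        = L + (K₁ * (p ^ j * v - 1) + K₁ * ((Fintype.card F - 1) * p ^ j)) := by ring
    rw [e1, e2] at hup
    have hE' : E.card * Fintype.card F ^ (τ + 1)
        ≤ C.n2 * (fewZeros (Fintype.card F) τ K₁ * Fintype.card F ^ (K * b)) := by
      have h3 : Fintype.card (Fin K × Fin b) = K * b := by
        rw [Fintype.card_prod, Fintype.card_fin, Fintype.card_fin]
      rw [← h3]
      exact hE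
    -- to the reals
    have hlowR : ((K.choose K₁ : ℝ) * (H : ℝ) ^ K₁) * low (K - K₁) b (Fintype.card F) h L
        ≤ Module.finrank F (VV Q K K₁ (K₁ * (p ^ j * v - 1) + L)) := by exact_mod_cast hlow
    have hupR : (Module.finrank F (VV Q K K₁ (K₁ * (p ^ j * v - 1) + L)) : ℝ)
          * (Fintype.card F : ℝ) ^ (K * b)
        ≤ (C.n4 * fewSub (2 * n / t + 1) K₁ : ℝ)
            * cnt (Fin K × Fin b) (Fintype.card F) (L + (K₁ * (p ^ j * v - 1) + K₁ * t))
            * (Fintype.card F : ℝ) ^ (K * b)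
          + (E.card : ℝ) * cnt (Fin K × Fin b) (Fintype.card F)
              (L + (K₁ * (p ^ j * v - 1) + K₁ * ((Fintype.card F - 1) * p ^ j))) := by
      exact_mod_cast hup
    have hER : (E.card : ℝ) * (Fintype.card F : ℝ) ^ (τ + 1)
        ≤ C.n2 * (fewZeros (Fintype.card F) τ K₁ * (Fintype.card F : ℝ) ^ (K * b)) := by
      exact_mod_cast hE'
    have hER' : (E.card : ℝ) ≤ C.n2 * (fewZeros (Fintype.card F) τ K₁
        / (Fintype.card F : ℝ) ^ (τ + 1)) * (Fintype.card F : ℝ) ^ (K * b) := by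
      have e3 : C.n2 * (fewZeros (Fintype.card F) τ K₁
          / (Fintype.card F : ℝ) ^ (τ + 1)) * (Fintype.card F : ℝ) ^ (K * b)
          = (C.n2 * (fewZeros (Fintype.card F) τ K₁ * (Fintype.card F : ℝ) ^ (K * b)))
            / (Fintype.card F : ℝ) ^ (τ + 1) := by ring
      rw [e3, le_div_iff₀ (pow_pos hqr _)]
      exact hER
    have hHR : (Fintype.card F : ℝ) ^ b / 4 ≤ H := by
      have h3 : (Fintype.card F : ℝ) ^ b ≤ 4 * (H : ℝ) := by exact_mod_cast hH
      linarith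
    have hn4 : (C.n4 : ℝ) ≤ C.size := by
      have : C.n4 ≤ C.size := by unfold Circuit.size; omega
      exact_mod_cast this
    have hn2 : (C.n2 : ℝ) ≤ C.size := by
      have : C.n2 ≤ C.size := by unfold Circuit.size; omega
      exact_mod_cast this
    set cn1 : ℝ := (cnt (Fin K × Fin b) (Fintype.card F)
      (L + (K₁ * (p ^ j * v - 1) + K₁ * t)) : ℝ) with hcn1
    set cn2 : ℝ := (cnt (Fin K × Fin b) (Fintype.card F)
      (L + (K₁ * (p ^ j * v - 1) + K₁ * ((Fintype.card F - 1) * p ^ j))) : ℝ) with hcn2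
    have hcn1' : 0 ≤ cn1 := Nat.cast_nonneg _
    have hcn2' : 0 ≤ cn2 := Nat.cast_nonneg _
    set P : ℝ := (Fintype.card F : ℝ) ^ (K * b) with hP
    have hPpos : 0 < P := pow_pos hqr _
    set fz : ℝ := (fewZeros (Fintype.card F) τ K₁ : ℝ) / (Fintype.card F : ℝ) ^ (τ + 1) with hfz
    have hfz0 : 0 ≤ fz := by positivity
    have hdim : (Module.finrank F (VV Q K K₁ (K₁ * (p ^ j * v - 1) + L)) : ℝ)
        ≤ (C.n4 * fewSub (2 * n / t + 1) K₁ : ℝ) * cn1 + (C.n2 * fz) * cn2 := by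
      have h3 : (Module.finrank F (VV Q K K₁ (K₁ * (p ^ j * v - 1) + L)) : ℝ) * P
          ≤ ((C.n4 * fewSub (2 * n / t + 1) K₁ : ℝ) * cn1 + (C.n2 * fz) * cn2) * P := by
        calc (Module.finrank F (VV Q K K₁ (K₁ * (p ^ j * v - 1) + L)) : ℝ) * P
            ≤ (C.n4 * fewSub (2 * n / t + 1) K₁ : ℝ) * cn1 * P + (E.card : ℝ) * cn2 := hupR
          _ ≤ (C.n4 * fewSub (2 * n / t + 1) K₁ : ℝ) * cn1 * P + (C.n2 * fz * P) * cn2 := by
              have := mul_le_mul_of_nonneg_right hER' hcn2'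
              linarith
          _ = _ := by ring
      exact le_of_mul_le_mul_right h3 hPpos
    calc ((K.choose K₁ : ℝ) * ((Fintype.card F : ℝ) ^ b / 4) ^ K₁)
          * low (K - K₁) b (Fintype.card F) h L
        ≤ ((K.choose K₁ : ℝ) * (H : ℝ) ^ K₁) * low (K - K₁) b (Fintype.card F) h L := by
          gcongr
      _ ≤ Module.finrank F (VV Q K K₁ (K₁ * (p ^ j * v - 1) + L)) := hlowR
      _ ≤ (C.n4 * fewSub (2 * n / t + 1) K₁ : ℝ) * cn1 + (C.n2 * fz) * cn2 := hdim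
      _ ≤ (C.size * fewSub (2 * n / t + 1) K₁ : ℝ) * cn1 + (C.size * fz) * cn2 := by
          gcongr
  have hgen := gen (Fintype.card F) b K K₁ h (K₁ * (p ^ j * v - 1) + K₁ * t)
    (K₁ * (p ^ j * v - 1) + K₁ * ((Fintype.card F - 1) * p ^ j))
    ((K.choose K₁ : ℝ) * ((Fintype.card F : ℝ) ^ b / 4) ^ K₁)
    (C.size * fewSub (2 * n / t + 1) K₁ : ℝ)
    (C.size * (fewZeros (Fintype.card F) τ K₁ / (Fintype.card F : ℝ) ^ (τ + 1)) : ℝ) s hs
    (by positivity) (by positivity) (by positivity) key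
  refine hgen.trans (le_of_eq ?_)
  ring

end Vale.Agent.P346q
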