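import Vale.Agent.Lib.P346.Defs

/-!
# P346 over a finite field: definitions
-/

open Finset

namespace Vale.Agent.P346q

/-- functions on `F^X` -/
abbrev Fn (F X : Type) := (X → F) → F

/-- monomial functions -/
def mono {F X : Type} [Field F] [Fintype X] (a : X → ℕ) : Fn F X := fun x => ∏ i, x i ^ a i

/-- functions of degree at most `D` -/
def RM (F X : Type) [Field F] [Fintype X] (D : ℕ) : Submodule F (Fn F X) :=
  Submodule.span F {f | ∃ a : X → ℕ, ∑ i, a i ≤ D ∧ f = mono a}

/-- number of exponent vectors with entries below `q` and sum at most `D` -/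
def cnt (X : Type) [Fintype X] [DecidableEq X] (q D : ℕ) : ℕ :=
  (univ.filter fun a : X → Fin q => ∑ i, (a i : ℕ) ≤ D).card

/-- index of a field element -/
noncomputable def idx (F : Type) [Fintype F] (x : F) : ℕ := (Fintype.equivFin F x : ℕ)

/-- weight of a point -/
noncomputable def wt {F X : Type} [Fintype F] [Fintype X] (x : X → F) : ℕ := ∑ i, idx F (x i)

/-- `C(wt x, D) - v` as an element of the field -/
noncomputable def uu {F X : Type} [Field F] [Fintype F] [Fintype X] (D v : ℕ) (x : X → F) : F :=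
  ((wt x).choose D : F) - (v : F)

/-- affine substitution of linear polynomials in the variables `Z` with coefficients depending on a
point of `F^X` -/
structure Subst (F V Z X : Type) [Field F] [Fintype X] where
  /-- constant term -/
  al : V → Fn F X
  /-- the constant term is affine -/
  hal : ∀ v, al v ∈ RM F X 1
  /-- linear coefficients -/
  be : V → Z → F

/-- the substitution at a point -/
noncomputable def Subst.hom {F V Z X : Type} [Field F] [Fintype X] [Fintype Z]
    (σ : Subst F V Z X) (x : X → F) : MvPolynomial V F →ₐ[F] MvPolynomial Z F :=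
  MvPolynomial.aeval fun v =>
    MvPolynomial.C (σ.al v x) + ∑ z, MvPolynomial.C (σ.be v z) * MvPolynomial.X z

/-- number of points of `F^(τ+1)` with at most `k` coordinates equal to a given value -/
def fewZeros (q τ k : ℕ) : ℕ := ∑ i ∈ range (k + 1), (τ + 1).choose i * (q - 1) ^ (τ + 1 - i)

/-- number of subsets of size at most `k` of a set with `r` elements -/
def fewSub (r k : ℕ) : ℕ := ((univ : Finset (Finset (Fin r))).filter fun U => U.card ≤ k).card

/-- the span of products `Q_i(x) g(x)`, `g` of degree at most `l` -/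
def WW {F X : Type} [Field F] [Fintype X] {m : ℕ} (Q : Fin m → Fn F X) (l : ℕ) :
    Submodule F (Fn F X) :=
  Submodule.span F {f | ∃ (i : Fin m) (g : Fn F X), g ∈ RM F X l ∧ f = Q i * g}

/-- the restriction of a point to block `c` -/
def blk {F : Type} {K b : ℕ} (x : Fin K × Fin b → F) (c : Fin K) : Fin b → F := fun j => x (c, j)

/-- the span of the functions `∏_{c ∈ Λ} Q_{i_c}(x^c) g(x)`, `|Λ| = K₁`, `g` of degree at most `L` -/
def VV {F : Type} [Field F] {m b : ℕ} (Q : Fin m → Fn F (Fin b)) (K K₁ L : ℕ) :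
    Submodule F (Fn F (Fin K × Fin b)) :=
  Submodule.span F {f | ∃ (Λ : Finset (Fin K)) (i : Fin K → Fin m) (g : Fn F (Fin K × Fin b)),
    Λ.card = K₁ ∧ g ∈ RM F (Fin K × Fin b) L ∧
      f = fun x => (∏ c ∈ Λ, Q (i c) (blk x c)) * g x}

/-- number of `K'`-tuples of exponent vectors, each of weight at most `h`, of total weight at most
`L` -/
def low (K' b q h L : ℕ) : ℕ :=
  (univ.filter fun a : Fin K' → Fin b → Fin q =>
    (∀ c, ∑ j, (a c j : ℕ) ≤ h) ∧ ∑ c, ∑ j, (a c j : ℕ) ≤ L).card

/-- exponent vectors whose weight is outside `[D (v-1), D (v+1) - 1]` -/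
def tailCnt (b q D v : ℕ) : ℕ :=
  (univ.filter fun a : Fin b → Fin q =>
    ∑ j, (a j : ℕ) < D * (v - 1) ∨ D * (v + 1) ≤ ∑ j, (a j : ℕ)).card

/-- partition function of one coordinate -/
noncomputable def Zf (q : ℕ) (s : ℝ) : ℝ := ∑ a ∈ range q, Real.exp (-s * a)

/-- partition function of the exponent vectors of a block of weight at most `h` -/
noncomputable def Zl (q b h : ℕ) (s : ℝ) : ℝ :=
  ∑ a ∈ (univ : Finset (Fin b → Fin q)).filter (fun a => ∑ j, (a j : ℕ) ≤ h),
    Real.exp (-s * ((∑ j, (a j : ℕ) : ℕ) : ℝ))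

/-- variance of the uniform distribution on `{0, …, q-1}` -/
noncomputable def sg (q : ℕ) : ℝ := (∑ a ∈ range q, ((a : ℝ) - ((q : ℝ) - 1) / 2) ^ 2) / q

end Vale.Agent.P346q
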