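import Vale.Agent.Lib.P346q.ParamD

/-!
# P346 over a finite field: choice of the parameters (module PARAM)

`D = p^j`, `A₀ = p^α₀ ≥ 4 (q-1)²/√sg`, `A₁ = p^α₁` large, `D ≥ A₁²`:
`b = 2 (D²/A₁ + D/A₀)`, `v = (q-1) D/A₁`, `h = (q-1) b/2 - 1`, so `(q-1) b / 2 = D v + (q-1) D/A₀`;
`m ≥ 12 exp (E)`, `E ≥ (f + √(2 sg b))² / (sg b)`, `f = (q-1) D/A₀ + 1`;
`w₁ = 16 m q²`, `j` maximal with `w₁ D² ≤ n`; `K = m D`; `K₁ = D/p^β`; `τ = B K₁`,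
`t = (q-1) B K₁`; `s = ϑ/D`, `ϑ = 1.7 (q-1) A₁ / (2 A₀ sg)`; `B ≥ 4 q (1 + ϑ (q-1))`,
`p^β ≥ ϑ (q-1) B + B`. See notes/P346q.md. Numerical lemmas: `ParamA`; ball and tails: `ParamB`;
main inequality: `ParamC`; conditions: `ParamD`.
-/

open Finset

namespace Vale.Agent.P346q

/-- the conditions for given `D = p^j` -/
theorem par_given (p q : ℕ) (hp : 2 ≤ p) (hq : 2 ≤ q) (α₀ α₁ β B m j n : ℕ) (R ϑ : ℝ)
    (hA : 16 * ((q : ℝ) - 1) ^ 4 ≤ ((p : ℝ) ^ α₀) ^ 2 * sg q)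
    (hR : R = ((q : ℝ) - 1) ^ 2 * (p : ℝ) ^ α₁ / (2 * ((p : ℝ) ^ α₀) ^ 2 * sg q))
    (hϑ : ϑ = 17 / 10 * ((q : ℝ) - 1) * (p : ℝ) ^ α₁ / (2 * (p : ℝ) ^ α₀ * sg q))
    (hR1 : 1 ≤ R) (hϑ0 : 0 < ϑ)
    (hm : 12 * Real.exp (R + 2 * √(2 * R) + 3) ≤ m)
    (hB : 4 * q * (1 + ϑ * ((q : ℝ) - 1)) ≤ B)
    (hP : (1 + ϑ * ((q : ℝ) - 1)) * B ≤ (p : ℝ) ^ β)
    (h16 : 16 * m * Real.exp (-(24 * R)) ≤ 1)
    (h4 : 4 * m * (p : ℝ) ^ β * Real.exp (-(36 / 25 * R)) ≤ 1)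
    (hg : 48 * Real.exp (9 / 2) * q ^ 2 * p ^ 2 * (p : ℝ) ^ β ≤
        (Real.exp (R / 4) / 4) * ((q : ℝ) - 1) * B)
    (hj₀ : α₀ ≤ j) (hj₁ : α₁ ≤ j) (hjβ : β ≤ j)
    (hn1 : (16 * m * q ^ 2) * p ^ (2 * j) ≤ n) (hn2 : n < (16 * m * q ^ 2) * p ^ (2 * (j + 1)))
    (t1 : (p : ℝ) ^ α₀ * (3 * R + 2 * √(2 * R) + 1) ≤ ((p ^ j : ℕ) : ℝ))
    (t2 : ((q : ℝ) - 1) ^ 2 * (R + 2 * √(2 * R) + 3) * (p : ℝ) ^ α₁ ≤
      8 * sg q * ((p ^ j : ℕ) : ℝ))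
    (t3 : 600 * (p : ℝ) ^ α₁ ≤ ((p ^ j : ℕ) : ℝ))
    (t4 : 600 * (ϑ ^ 2 * (((q : ℝ) - 1) ^ 2 / 4)) ≤ ((p ^ j : ℕ) : ℝ))
    (t5 : 150 * (sg q * ϑ ^ 2) ≤ ((p ^ j : ℕ) : ℝ)) :
      ∃ (v b h K K₁ τ t : ℕ) (s : ℝ), 1 ≤ v ∧ 2 * h < (q - 1) * b ∧
        8 * (q ^ b - cnt (Fin b) q (p ^ j * v - 1)) ^ m ≤ q ^ (b * m) ∧
        8 * m * tailCnt b q (p ^ j) v ≤ q ^ b ∧
        K * ((q + 1) * p ^ j + 3) ≤ n ∧ 2 + 2 * m * b * q ^ 2 + m ≤ n ∧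
        K₁ ≤ K ∧ 1 ≤ t ∧ (q - 1) * τ ≤ t ∧ 0 < s ∧
        ∀ S : ℝ, 0 ≤ S →
          (K.choose K₁ : ℝ) * ((q : ℝ) ^ b / 4) ^ K₁ * Zl q b h s ^ (K - K₁)
            ≤ S * (fewSub (2 * n / t + 1) K₁
                * Real.exp (s * ((K₁ * (p ^ j * v - 1) + K₁ * t : ℕ) : ℝ))
              + fewZeros q τ K₁ / (q : ℝ) ^ (τ + 1)
                * Real.exp (s * ((K₁ * (p ^ j * v - 1) + K₁ * ((q - 1) * p ^ j) : ℕ) : ℝ)))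
              * Zf q s ^ (K * b) →
          Real.exp (1 / (√((16 * m * q ^ 2 : ℕ) : ℝ) * p * (p ^ β : ℕ)) * √(n : ℝ)) ≤ S := by
  have hσ := sg_pos q hq
  have hq' : (2 : ℝ) ≤ q := by exact_mod_cast hq
  have hp' : (2 : ℝ) ≤ p := by exact_mod_cast hp
  have hQ : (1 : ℝ) ≤ (q : ℝ) - 1 := by linarith
  have hqQ : ((q - 1 : ℕ) : ℝ) = (q : ℝ) - 1 := by
    rw [Nat.cast_sub (by omega)]; simp
  have hA₀1 : (1 : ℝ) ≤ (p : ℝ) ^ α₀ := one_le_pow₀ (by linarith)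
  have hA₁1 : (1 : ℝ) ≤ (p : ℝ) ^ α₁ := one_le_pow₀ (by linarith)
  have hvn := par_cast p j α₁ hp hj₁
  have hx1 := par_cast p (2 * j) α₁ hp (by omega)
  have hx2 := par_cast p j α₀ hp hj₀
  have hDD : (((p ^ (2 * j) : ℕ)) : ℝ) = ((p ^ j : ℕ) : ℝ) ^ 2 := by
    push_cast
    rw [← pow_mul, mul_comm]
  rw [hDD] at hx1
  have hx1' : p ^ (2 * j - α₁) ≤ p ^ (2 * j) := Nat.pow_le_pow_right (by omega) (by omega)
  have hx2' : p ^ (j - α₀) ≤ p ^ (2 * j) := Nat.pow_le_pow_right (by omega) (by omega)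
  have hDK : p ^ j = p ^ β * p ^ (j - β) := by rw [← pow_add, Nat.add_sub_cancel' hjβ]
  have hD2 : p ^ (2 * j) = p ^ j * p ^ j := by rw [← pow_add]; congr 1; omega
  have hD3 : p ^ (2 * (j + 1)) = p ^ 2 * (p ^ j * p ^ j) := by
    rw [← pow_add, ← pow_add]; congr 1; omega
  have hX0 : 1 ≤ p ^ (2 * j - α₁) := Nat.one_le_pow _ _ (by omega)
  have hv0 : 1 ≤ p ^ (j - α₁) := Nat.one_le_pow _ _ (by omega)
  have hK0 : 1 ≤ p ^ (j - β) := Nat.one_le_pow _ _ (by omega)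
  have hP0 : 1 ≤ p ^ β := Nat.one_le_pow _ _ (by omega)
  have hPr : ((p ^ β : ℕ) : ℝ) = (p : ℝ) ^ β := by push_cast; rfl
  rw [← hPr] at hP h4 hg
  obtain ⟨D, hD⟩ : ∃ D : ℕ, D = p ^ j := ⟨_, rfl⟩
  obtain ⟨P, hPdef⟩ : ∃ P : ℕ, P = p ^ β := ⟨_, rfl⟩
  obtain ⟨K₁, hK₁⟩ : ∃ K₁ : ℕ, K₁ = p ^ (j - β) := ⟨_, rfl⟩
  obtain ⟨X, hX⟩ : ∃ X : ℕ, X = p ^ (2 * j - α₁) + p ^ (j - α₀) := ⟨_, rfl⟩
  obtain ⟨V, hV⟩ : ∃ V : ℕ, V = p ^ (j - α₁) := ⟨_, rfl⟩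
  obtain ⟨A₀, hA₀⟩ : ∃ A₀ : ℝ, A₀ = (p : ℝ) ^ α₀ := ⟨_, rfl⟩
  obtain ⟨A₁, hA₁⟩ : ∃ A₁ : ℝ, A₁ = (p : ℝ) ^ α₁ := ⟨_, rfl⟩
  have hXr : (X : ℝ) = (D : ℝ) ^ 2 / A₁ + D / A₀ := by
    rw [hX, Nat.cast_add, hx1, hx2, hA₀, hA₁, hD]
  have hX4 : X ≤ 2 * (D * D) := by
    rw [hX, hD, ← hD2]; omega
  have hX1 : 1 ≤ X := by omega
  rw [← hPdef] at hP h4 hg hDK hP0 ⊢
  rw [← hK₁] at hDK hK0
  rw [hD2, ← hD] at hn1
  rw [hD3, ← hD] at hn2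
  rw [← hD] at t1 t2 t3 t4 t5 hDK hvn ⊢
  rw [← hV] at hvn hv0
  rw [← hA₀] at hA hR hϑ t1 hA₀1
  rw [← hA₁] at hR hϑ t2 t3 hA₁1 hvn
  clear hx1 hx2 hDD hx1' hx2' hD2 hD3 hPr hX0 hD hPdef hK₁ hX hV hA₀ hA₁ hj₀ hj₁ hjβ
  -- now everything is abstract
  have hm1 : 1 ≤ m := by
    have h1 : (0 : ℝ) < m := lt_of_lt_of_le (by positivity) hm
    have h2 : 0 < m := by exact_mod_cast h1
    exact h2
  have hϑQ : 0 < ϑ * ((q : ℝ) - 1) := by positivity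
  have hB8 : (8 : ℝ) ≤ B := by
    have h1 : 4 * (q : ℝ) * 1 ≤ 4 * q * (1 + ϑ * ((q : ℝ) - 1)) :=
      mul_le_mul_of_nonneg_left (by linarith) (by linarith)
    linarith
  have hB1 : 1 ≤ B := by
    have h2 : 0 < B := by exact_mod_cast (by linarith : (0 : ℝ) < B)
    exact h2
  have hBP : B ≤ P := by
    have h1 : 1 * (B : ℝ) ≤ (1 + ϑ * ((q : ℝ) - 1)) * B :=
      mul_le_mul_of_nonneg_right (by linarith) (by linarith)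
    have h2 : (B : ℝ) ≤ P := by linarith
    exact_mod_cast h2
  have hD1 : 1 ≤ D := by
    rw [hDK]
    exact Nat.succ_le_of_lt (Nat.mul_pos hP0 hK0)
  have hDr : (1 : ℝ) ≤ D := by exact_mod_cast hD1
  have hq1 : 1 ≤ q - 1 := by omega
  have hv1 : 1 ≤ (q - 1) * V := Nat.succ_le_of_lt (Nat.mul_pos hq1 hv0)
  have hX2 : 1 ≤ (q - 1) * X := Nat.succ_le_of_lt (Nat.mul_pos hq1 hX1)
  have hl1 : 1 ≤ D * ((q - 1) * V) := Nat.succ_le_of_lt (Nat.mul_pos hD1 hv1)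
  have hb : ((2 * X : ℕ) : ℝ) = 2 * ((D : ℝ) ^ 2 / A₁ + D / A₀) := by
    push_cast
    rw [hXr]
  have hvr : (((q - 1) * V : ℕ) : ℝ) = ((q : ℝ) - 1) * (D / A₁) := by
    push_cast
    rw [hqQ, hvn]
  have hl : ((D * ((q - 1) * V) - 1 : ℕ) : ℝ) =
      ((q : ℝ) - 1) / 2 * ((2 * X : ℕ) : ℝ) - (((q : ℝ) - 1) * D / A₀ + 1) := by
    rw [Nat.cast_sub hl1, Nat.cast_mul, hvr, hb]
    push_cast
    ring
  have hh : (((q - 1) * X - 1 : ℕ) : ℝ) + 1 = ((q : ℝ) - 1) / 2 * ((2 * X : ℕ) : ℝ) := by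
    rw [Nat.cast_sub hX2]
    push_cast
    rw [hqQ]
    ring
  have t1' : A₀ * (3 * R + 2 * √(2 * R) + 1) ≤ ((q : ℝ) - 1) * D := by
    refine t1.trans ?_
    have := mul_le_mul_of_nonneg_right hQ (by linarith : (0 : ℝ) ≤ D)
    linarith
  have t3' : 600 * A₁ ≤ A₀ * D := by
    refine t3.trans ?_
    have := mul_le_mul_of_nonneg_right hA₀1 (by linarith : (0 : ℝ) ≤ D)
    linarith
  have hA₀0 : 0 < A₀ := by linarith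
  have hA₁0 : 0 < A₁ := by linarith
  have hqq : q * q ≥ 4 := Nat.mul_le_mul hq hq
  refine ⟨(q - 1) * V, 2 * X, (q - 1) * X - 1, m * D, K₁, B * K₁, (q - 1) * (B * K₁), ϑ / D,
    hv1, ?_, ?_, ?_, ?_, ?_, ?_, ?_, le_rfl, by positivity, ?_⟩
  · have : (q - 1) * (2 * X) = 2 * ((q - 1) * X) := by ring
    omega
  · exact par_condBall q (2 * X) (D * ((q - 1) * V) - 1) m hq hA₀0 hA₁0 hR hR1 hDr hb hl hm t1' t2
  · exact par_condTail q (2 * X) D ((q - 1) * V) m hq hA₀0 hA₁0 hA hR hD1 hv1 hb hvr h16 t3'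
  · refine le_trans ?_ hn1
    have h1 : (q + 1) * D + 3 ≤ 16 * q ^ 2 * D := by
      have h2 : (q + 1) * D + 3 * D ≤ 16 * q ^ 2 * D := by
        rw [← add_mul]
        apply Nat.mul_le_mul_right
        nlinarith
      omega
    calc m * D * ((q + 1) * D + 3) ≤ m * D * (16 * q ^ 2 * D) := Nat.mul_le_mul_left _ h1
      _ = _ := by ring
  · refine le_trans ?_ hn1
    have h1 : 1 ≤ m * q ^ 2 * (D * D) :=
      Nat.succ_le_of_lt (by positivity)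
    have h2 : m ≤ m * q ^ 2 * (D * D) := by
      calc m = m * 1 * (1 * 1) := by ring
        _ ≤ _ := by
          apply Nat.mul_le_mul
          · exact Nat.mul_le_mul_left _ (Nat.one_le_pow _ _ (by omega))
          · exact Nat.mul_le_mul hD1 hD1
    have h3 : 2 * m * (2 * X) * q ^ 2 ≤ 8 * (m * q ^ 2 * (D * D)) := by
      calc 2 * m * (2 * X) * q ^ 2 = 4 * m * q ^ 2 * X := by ring
        _ ≤ 4 * m * q ^ 2 * (2 * (D * D)) := Nat.mul_le_mul_left _ hX4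
        _ = _ := by ring
    calc 2 + 2 * m * (2 * X) * q ^ 2 + m ≤
        2 * (m * q ^ 2 * (D * D)) + 8 * (m * q ^ 2 * (D * D)) + m * q ^ 2 * (D * D) := by omega
      _ = 11 * (m * q ^ 2 * (D * D)) := by ring
      _ ≤ 16 * (m * q ^ 2 * (D * D)) := Nat.mul_le_mul_right _ (by norm_num)
      _ = _ := by ring
  · rw [hDK]
    calc K₁ = 1 * (1 * K₁) := by ring
      _ ≤ m * (P * K₁) := Nat.mul_le_mul hm1 (Nat.mul_le_mul_right _ hP0)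
  · exact Nat.succ_le_of_lt (Nat.mul_pos hq1 (Nat.mul_pos hB1 hK0))
  · intro S hS hmain
    have hn3 : (n : ℝ) ≤ 16 * m * q ^ 2 * (p : ℝ) ^ 2 * (D : ℝ) ^ 2 := by
      have : n ≤ 16 * m * q ^ 2 * p ^ 2 * D ^ 2 := by
        refine hn2.le.trans (le_of_eq ?_)
        ring
      exact_mod_cast this
    have hn4 : (q - 1) * (B * K₁) * K₁ ≤ 2 * n := by
      calc (q - 1) * (B * K₁) * K₁ ≤ q * (P * K₁) * (P * K₁) := by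
            apply Nat.mul_le_mul
            · exact Nat.mul_le_mul (Nat.sub_le _ _) (Nat.mul_le_mul_right _ hBP)
            · exact Nat.le_mul_of_pos_left _ hP0
        _ = q * (D * D) := by rw [hDK]; ring
        _ ≤ 2 * (16 * m * q ^ 2 * (D * D)) := by
          calc q * (D * D) = 1 * 1 * (q * 1) * (D * D) := by ring
            _ ≤ 32 * m * (q * q) * (D * D) := by
              apply Nat.mul_le_mul_right
              apply Nat.mul_le_mul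
              · exact Nat.mul_le_mul (by norm_num) hm1
              · exact Nat.mul_le_mul_left _ (by omega)
            _ = _ := by ring
        _ ≤ _ := Nat.mul_le_mul_left _ hn1
    have key := par_condMain q (2 * X) ((q - 1) * X - 1) n (m * D) K₁ (D * ((q - 1) * V) - 1)
      (B * K₁) ((q - 1) * (B * K₁)) B m P D hq hm1 (by linarith : (1 : ℝ) ≤ (p : ℝ)) hK0 hDK rfl
      hP0 rfl rfl rfl hϑ0 hA₀0 hA₁0 hR hR1 hϑ hb hl hh hB hP h4 hg hn3 hn4 t3' t4 t5 S hS hmain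
    refine le_trans (Real.exp_le_exp.2 ?_) key
    apply par_sqrtn (16 * m * q ^ 2) p D P K₁ n (by omega)
      (Nat.succ_le_of_lt (by positivity)) hP0 hDK
    refine hn2.trans_le (le_of_eq ?_)
    ring

theorem param_aux (p q : ℕ) (hp : 2 ≤ p) (hq : 2 ≤ q) :
    ∃ c : ℝ, 0 < c ∧ ∃ n₀ : ℕ, ∀ n : ℕ, n₀ ≤ n →
      ∃ (j v b m h K K₁ τ t : ℕ) (s : ℝ), 1 ≤ v ∧ 2 * h < (q - 1) * b ∧
        8 * (q ^ b - cnt (Fin b) q (p ^ j * v - 1)) ^ m ≤ q ^ (b * m) ∧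
        8 * m * tailCnt b q (p ^ j) v ≤ q ^ b ∧
        K * ((q + 1) * p ^ j + 3) ≤ n ∧ 2 + 2 * m * b * q ^ 2 + m ≤ n ∧
        K₁ ≤ K ∧ 1 ≤ t ∧ (q - 1) * τ ≤ t ∧ 0 < s ∧
        ∀ S : ℝ, 0 ≤ S →
          (K.choose K₁ : ℝ) * ((q : ℝ) ^ b / 4) ^ K₁ * Zl q b h s ^ (K - K₁)
            ≤ S * (fewSub (2 * n / t + 1) K₁
                * Real.exp (s * ((K₁ * (p ^ j * v - 1) + K₁ * t : ℕ) : ℝ))
              + fewZeros q τ K₁ / (q : ℝ) ^ (τ + 1)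
                * Real.exp (s * ((K₁ * (p ^ j * v - 1) + K₁ * ((q - 1) * p ^ j) : ℕ) : ℝ)))
              * Zf q s ^ (K * b) →
          Real.exp (c * Real.sqrt n) ≤ S := by
  obtain ⟨α₀, α₁, β, B, m, R, ϑ, hA, hR, hϑ, hR1, hϑ0, hm, hB, hP, h16, h4, hg⟩ :=
    par_consts p q hp hq (sg q) (sg_pos q hq)
  have hσ := sg_pos q hq
  have hp' : (2 : ℝ) ≤ p := by exact_mod_cast hp
  have hp0 : (0 : ℝ) < p := by linarith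
  have hm1 : 1 ≤ m := by
    have h1 : (0 : ℝ) < m := lt_of_lt_of_le (by positivity) hm
    have h2 : 0 < m := by exact_mod_cast h1
    exact h2
  have hm0 : 0 < m := hm1
  have hq0 : 0 < q := by omega
  have hpn : 0 < p := by omega
  have hsR : 0 ≤ √(2 * R) := Real.sqrt_nonneg _
  obtain ⟨jM, hjM⟩ := par_pow p hp ((p : ℝ) ^ α₀ * (3 * R + 2 * √(2 * R) + 1) +
    ((q : ℝ) - 1) ^ 2 * (R + 2 * √(2 * R) + 3) * (p : ℝ) ^ α₁ / (8 * sg q) +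
    600 * (p : ℝ) ^ α₁ + 600 * (ϑ ^ 2 * (((q : ℝ) - 1) ^ 2 / 4)) + 150 * (sg q * ϑ ^ 2))
  refine ⟨1 / (√((16 * m * q ^ 2 : ℕ) : ℝ) * p * (p ^ β : ℕ)), ?_,
    (16 * m * q ^ 2) * p ^ (2 * (jM + α₀ + α₁ + β)), fun n hn => ?_⟩
  · apply one_div_pos.2
    have h1 : (0 : ℝ) < ((16 * m * q ^ 2 : ℕ) : ℝ) := by
      exact_mod_cast (by positivity : 0 < 16 * m * q ^ 2)
    have h2 := Real.sqrt_pos.2 h1
    have h3 : (0 : ℝ) < ((p ^ β : ℕ) : ℝ) := by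
      exact_mod_cast (by positivity : 0 < p ^ β)
    positivity
  obtain ⟨j, hj0, hj1, hj2⟩ := par_j p (16 * m * q ^ 2) (jM + α₀ + α₁ + β) n hp
    (Nat.succ_le_of_lt (by positivity)) hn
  have hDM : (p : ℝ) ^ jM ≤ ((p ^ j : ℕ) : ℝ) := by
    push_cast
    exact pow_le_pow_right₀ (by linarith) (by omega)
  have n1 : 0 ≤ (p : ℝ) ^ α₀ * (3 * R + 2 * √(2 * R) + 1) := by
    apply mul_nonneg (by positivity)
    linarith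
  have n2 : 0 ≤ ((q : ℝ) - 1) ^ 2 * (R + 2 * √(2 * R) + 3) * (p : ℝ) ^ α₁ / (8 * sg q) := by
    apply div_nonneg _ (by positivity)
    apply mul_nonneg _ (by positivity)
    apply mul_nonneg (sq_nonneg _)
    linarith
  have n3 : 0 ≤ 600 * (p : ℝ) ^ α₁ := by positivity
  have n4 : 0 ≤ 600 * (ϑ ^ 2 * (((q : ℝ) - 1) ^ 2 / 4)) := by positivity
  have n5 : 0 ≤ 150 * (sg q * ϑ ^ 2) := by positivity
  obtain ⟨v, b, h, K, K₁, τ, t, s, hall⟩ := par_given p q hp hq α₀ α₁ β B m j n R ϑ hA hR hϑ hR1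
    hϑ0 hm hB hP h16 h4 hg (by omega) (by omega) (by omega) hj1 hj2 (by linarith)
    (by
      have h1 : ((q : ℝ) - 1) ^ 2 * (R + 2 * √(2 * R) + 3) * (p : ℝ) ^ α₁ / (8 * sg q) ≤
          ((p ^ j : ℕ) : ℝ) := by linarith
      rw [div_le_iff₀ (by positivity)] at h1
      linarith) (by linarith) (by linarith) (by linarith)
  exact ⟨j, v, b, m, h, K, K₁, τ, t, s, hall⟩

theorem param (p e : ℕ) (hp : p.Prime) (he : 1 ≤ e) :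
    ∃ c : ℝ, 0 < c ∧ ∃ n₀ : ℕ, ∀ n : ℕ, n₀ ≤ n →
      ∃ (j v b m h K K₁ τ t : ℕ) (s : ℝ), 1 ≤ v ∧ 2 * h < (p ^ e - 1) * b ∧
        8 * ((p ^ e) ^ b - cnt (Fin b) (p ^ e) (p ^ j * v - 1)) ^ m ≤ (p ^ e) ^ (b * m) ∧
        8 * m * tailCnt b (p ^ e) (p ^ j) v ≤ (p ^ e) ^ b ∧
        K * ((p ^ e + 1) * p ^ j + 3) ≤ n ∧ 2 + 2 * m * b * (p ^ e) ^ 2 + m ≤ n ∧
        K₁ ≤ K ∧ 1 ≤ t ∧ (p ^ e - 1) * τ ≤ t ∧ 0 < s ∧
        ∀ S : ℝ, 0 ≤ S →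
          (K.choose K₁ : ℝ) * ((p ^ e : ℝ) ^ b / 4) ^ K₁ * Zl (p ^ e) b h s ^ (K - K₁)
            ≤ S * (fewSub (2 * n / t + 1) K₁
                * Real.exp (s * ((K₁ * (p ^ j * v - 1) + K₁ * t : ℕ) : ℝ))
              + fewZeros (p ^ e) τ K₁ / (p ^ e : ℝ) ^ (τ + 1)
                * Real.exp (s * ((K₁ * (p ^ j * v - 1) + K₁ * ((p ^ e - 1) * p ^ j) : ℕ) : ℝ)))
              * Zf (p ^ e) s ^ (K * b) →
          Real.exp (c * Real.sqrt n) ≤ S := by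
  have hq : 2 ≤ p ^ e := hp.two_le.trans (Nat.le_self_pow (by omega) p)
  have h := param_aux p (p ^ e) hp.two_le hq
  have e1 : ((p ^ e : ℕ) : ℝ) = (p : ℝ) ^ e := Nat.cast_pow p e
  rw [e1] at h
  exact h

end Vale.Agent.P346q
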