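import Vale.Agent.Lib.P346q.Combine
import Vale.Agent.Lib.P346q.Param
import Vale.Agent.Lib.P346.Exist

/-!
# P346 over a finite field: the lower bound
-/

open Finset

namespace Vale.Agent.P346q

open Vale.Agent.P346

theorem size_ge_two {F : Type} [Field F] (n : ℕ) [NeZero n] (C : Circuit F (Var n n))
    (hval : C.value = IMM F n n) : 2 ≤ C.size := by
  have h1 : 1 ≤ C.n4 := by
    by_contra h
    have h0 : C.n4 = 0 := by omega
    have h2 : C.value = 0 := by
      unfold Circuit.value
      apply Finset.sum_eq_zero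
      intro j _
      exact absurd j.2 (by omega)
    exact IMM_ne_zero n (hval ▸ h2)
  unfold Circuit.size
  omega

theorem lower (F : Type) [Field F] [Fintype F] : ∃ c : ℝ, 0 < c ∧ ∀ (n : ℕ) [NeZero n]
    (C : Circuit F (Var n n)), C.Homogeneous → C.value = IMM F n n →
      (2 : ℝ) ^ (c * Real.sqrt n) ≤ C.size := by
  classical
  obtain ⟨p, hpF⟩ := CharP.exists F
  haveI := hpF
  have hp : p.Prime := by
    rcases CharP.char_is_prime_or_zero F p with h | h
    · exact h
    · subst h
      exact absurd (CharP.charP_to_charZero F) (by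
        intro h0
        haveI := h0
        exact (not_injective_infinite_finite (fun n : ℕ => (n : F))) Nat.cast_injective)
  haveI : Fact p.Prime := ⟨hp⟩
  obtain ⟨e, hp', hcard⟩ := FiniteField.card F p
  obtain ⟨c, hc, n₀, hn₀⟩ := param p e hp e.pos
  have hlarge : ∀ (n : ℕ) [NeZero n] (C : Circuit F (Var n n)), n₀ ≤ n → C.Homogeneous →
      C.value = IMM F n n → Real.exp (c * Real.sqrt n) ≤ C.size := by
    intro n _ C hn hC hval
    obtain ⟨j, v, b, m, h, K, K₁, τ, t, s, hv, hh, hm, hw, h1, h2, hK, ht, hτ, hs, hfin⟩ :=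
      hn₀ n hn
    apply hfin (C.size : ℝ) (Nat.cast_nonneg _)
    have := combine p n C hC hval j v b m h K K₁ τ t s hv (by rw [hcard]; exact hh)
      (by rw [hcard]; exact hm) (by rw [hcard]; exact hw) (by rw [hcard]; exact h1)
      (by rw [hcard]; exact h2) hK ht (by rw [hcard]; exact hτ) hs
    rw [hcard] at this
    exact_mod_cast this
  refine ⟨min c (1 / Real.sqrt (n₀ + 1)), lt_min hc (by positivity), ?_⟩
  intro n _ C hC hval
  have hlog : Real.log 2 ≤ 1 := by
    have := Real.log_two_lt_d9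
    linarith
  have hlog0 : 0 ≤ Real.log 2 := Real.log_nonneg (by norm_num)
  by_cases hn : n₀ ≤ n
  · refine le_trans ?_ (hlarge n C hn hC hval)
    rw [Real.rpow_def_of_pos (by norm_num : (0 : ℝ) < 2)]
    apply Real.exp_le_exp.mpr
    have h1 : min c (1 / Real.sqrt (n₀ + 1)) * Real.sqrt n ≤ c * Real.sqrt n :=
      mul_le_mul_of_nonneg_right (min_le_left _ _) (Real.sqrt_nonneg _)
    have h2 : 0 ≤ min c (1 / Real.sqrt (n₀ + 1)) * Real.sqrt n := by positivity
    nlinarith
  · have h3 : (2 : ℝ) ≤ C.size := by exact_mod_cast size_ge_two n C hval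
    refine le_trans ?_ h3
    have h4 : min c (1 / Real.sqrt (n₀ + 1)) * Real.sqrt n ≤ 1 := by
      have h5 : min c (1 / Real.sqrt (n₀ + 1)) * Real.sqrt n
          ≤ (1 / Real.sqrt (n₀ + 1)) * Real.sqrt n :=
        mul_le_mul_of_nonneg_right (min_le_right _ _) (Real.sqrt_nonneg _)
      refine h5.trans ?_
      have h6 : Real.sqrt n ≤ Real.sqrt (n₀ + 1) := by
        apply Real.sqrt_le_sqrt
        have : n ≤ n₀ + 1 := by omega
        exact_mod_cast this
      rw [one_div, inv_mul_le_iff₀ (by positivity), mul_one]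
      exact h6
    calc (2 : ℝ) ^ (min c (1 / Real.sqrt (n₀ + 1)) * Real.sqrt n) ≤ (2 : ℝ) ^ (1 : ℝ) :=
          Real.rpow_le_rpow_of_exponent_le (by norm_num) h4
      _ = 2 := Real.rpow_one 2

end Vale.Agent.P346q
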