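import Vale.Agent.Lib.P346q.Defs

/-!
# P346 over a finite field: grouping (module GROUP)

Keep one designated group with `2 w < t` and normal groups with `2 w ≥ t`; insert the elements one
by one.
-/

open Finset

namespace Vale.Agent.P346q

/-- grouping with lists: a designated group `R` with `2 w(R) < t` and a list `L` of normal groups -/
theorem grouping_aux {ι : Type} (M₀ : Multiset ι) (d : ι → ℕ) (t : ℕ) (ht : 1 ≤ t)
    (M : Multiset ι) (hM : ∀ i ∈ M, i ∈ M₀) :
    ∃ (L : List (Multiset ι)) (R : Multiset ι), M = L.sum + R ∧ 2 * (R.map d).sum < t ∧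
      (∀ g ∈ L, t ≤ 2 * (g.map d).sum) ∧
      (∀ g ∈ L, (g.map d).sum ≤ t ∨ ∃ i ∈ M₀, g = {i}) := by
  induction M using Multiset.induction_on with
  | empty =>
    exact ⟨[], 0, by simp, by simp; omega, by simp, by simp⟩
  | cons a M ih =>
    obtain ⟨L, R, h1, h2, h3, h4⟩ := ih fun i hi => hM i (Multiset.mem_cons_of_mem hi)
    by_cases ha : t ≤ 2 * d a
    · refine ⟨{a} :: L, R, ?_, h2, ?_, ?_⟩
      · rw [List.sum_cons, h1, ← Multiset.singleton_add, add_assoc]
      · intro g hg
        rcases List.mem_cons.mp hg with rfl | hg
        · simpa using ha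
        · exact h3 g hg
      · intro g hg
        rcases List.mem_cons.mp hg with rfl | hg
        · exact Or.inr ⟨a, hM a (Multiset.mem_cons_self a M), rfl⟩
        · exact h4 g hg
    · by_cases hb : 2 * ((a ::ₘ R).map d).sum < t
      · refine ⟨L, a ::ₘ R, ?_, hb, h3, h4⟩
        rw [h1, Multiset.add_cons]
      · refine ⟨(a ::ₘ R) :: L, 0, ?_, by simp; omega, ?_, ?_⟩
        · rw [List.sum_cons, h1, add_zero, Multiset.cons_add, add_comm]
        · intro g hg
          rcases List.mem_cons.mp hg with rfl | hg
          · exact not_lt.mp hb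
          · exact h3 g hg
        · intro g hg
          rcases List.mem_cons.mp hg with rfl | hg
          · left
            rw [Multiset.map_cons, Multiset.sum_cons]
            omega
          · exact h4 g hg

theorem grouping {ι : Type} (M : Multiset ι) (d : ι → ℕ) (t : ℕ) (ht : 1 ≤ t) :
    ∃ G : Fin (2 * (M.map d).sum / t + 1) → Multiset ι, M = ∑ g, G g ∧
      ∀ g, ((G g).map d).sum ≤ t ∨ ∃ i ∈ M, G g = {i} := by
  obtain ⟨L, R, h1, h2, h3, h4⟩ := grouping_aux M d t ht M fun _ h => h
  have hlen : L.length * t ≤ 2 * (L.sum.map d).sum := by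
    clear h1 h2 h4
    induction L with
    | nil => simp
    | cons g L ih =>
      have ih' := ih fun g' hg' => h3 g' (List.mem_cons_of_mem _ hg')
      have hg := h3 g List.mem_cons_self
      rw [List.length_cons, List.sum_cons, Multiset.map_add, Multiset.sum_add]
      nlinarith
  have hsum : (M.map d).sum = (L.sum.map d).sum + (R.map d).sum := by
    conv_lhs => rw [h1]
    rw [Multiset.map_add, Multiset.sum_add]
  have hlen2 : L.length ≤ 2 * (M.map d).sum / t := by
    rw [Nat.le_div_iff_mul_le ht]
    omega
  let r := 2 * (M.map d).sum / t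
  let L' : List (Multiset ι) := R :: L
  let G : Fin (r + 1) → Multiset ι := fun g => L'.getD g 0
  refine ⟨G, ?_, ?_⟩
  · have h5 : ∀ (L : List (Multiset ι)) (n : ℕ), L.length ≤ n →
        ∑ g : Fin n, L.getD g 0 = L.sum := by
      intro L
      induction L with
      | nil => intro n _; simp
      | cons a L ih =>
        intro n hn
        rcases n with _ | n
        · simp at hn
        · rw [Fin.sum_univ_succ, List.sum_cons]
          have := ih n (by simpa using hn)
          simp only [Fin.val_zero, List.getD_cons_zero, Fin.val_succ, List.getD_cons_succ]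
          rw [this]
    have h6 := h5 L' (r + 1) (by simp only [L', List.length_cons]; omega)
    simp only [G]
    rw [h6, List.sum_cons, add_comm]
    exact h1
  · intro g
    by_cases hg : (g : ℕ) < L'.length
    · have h7 : G g = L'[(g : ℕ)] := by
        simp only [G]
        rw [List.getD_eq_getElem _ _ hg]
      have h8 : G g ∈ L' := by
        rw [h7]
        exact List.getElem_mem hg
      rcases List.mem_cons.mp h8 with h | h
      · left
        rw [h]
        omega
      · exact h4 _ h
    · left
      have h7 : G g = 0 := by
        simp only [G]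
        rw [List.getD_eq_default _ _ (not_lt.mp hg)]
      rw [h7]
      simp

end Vale.Agent.P346q
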