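import Vale.Agent.Lib.P346q.RM

/-!
# P346 over a finite field: few functions of low degree vanish off a small set (module KER)

Proof: `S = Eᶜ`. For a translation vector `v` restrict `RM D` to `S + v`; the rank does not depend on
`v` (translation invariance, `comp_mem_RM`), and by `interp` it is at least
`#{x ∈ S + v | wt x ≤ D}`. Averaging over `v`: rank ≥ `cnt D * |S| / q^|X|`.
-/

open Finset

namespace Vale.Agent.P346q

/-- one translation -/
theorem ker_bound_aux {F X : Type} [Field F] [Fintype F] [DecidableEq F] [Fintype X] [DecidableEq X]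
    (D : ℕ) (E : Finset (X → F)) (N : Submodule F (Fn F X))
    (hN : ∀ f ∈ N, f ∈ RM F X D ∧ ∀ x ∉ E, f x = 0) (v : X → F) :
    ((univ : Finset (X → F)).filter (fun x => x ∉ E ∧ wt (x + v) ≤ D)).card +
      Module.finrank F N ≤ cnt X (Fintype.card F) D := by
  set Sv := (univ : Finset (X → F)).filter (fun x => x ∉ E ∧ wt (x + v) ≤ D) with hSv
  have hmem : ∀ y, y ∈ Sv → y ∉ E ∧ wt (y + v) ≤ D := by
    intro y hy
    rw [hSv, mem_filter] at hy
    exact hy.2
  set Φ : RM F X D →ₗ[F] (Sv → F) :=
    (LinearMap.funLeft F F (fun x : Sv => (x.1 + v : X → F))).comp (RM F X D).subtype with hΦ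
  have hsurj : Function.Surjective Φ := by
    intro g
    obtain ⟨h, h1, h2⟩ := interp (F := F) (X := X) D
      (fun y => if hy : y - v ∈ Sv then g ⟨y - v, hy⟩ else 0)
    refine ⟨⟨h, h1⟩, ?_⟩
    ext x
    have hx := x.2
    have hx' : x.1 + v - v = x.1 := add_sub_cancel_right _ _
    have hxs : wt (x.1 + v) ≤ D := (hmem _ hx).2
    change h (x.1 + v) = g x
    rw [h2 _ hxs, dif_pos (by rw [hx']; exact hx)]
    congr 1
    exact Subtype.ext hx'
  have h1 := LinearMap.finrank_range_add_finrank_ker Φ
  rw [LinearMap.range_eq_top.mpr hsurj, finrank_top, Module.finrank_fintype_fun_eq_card,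
    Fintype.card_coe, finrank_RM] at h1
  set T : Fn F X ≃ₗ[F] Fn F X := LinearEquiv.funCongrLeft F F (Equiv.subRight v) with hT
  have hTa : ∀ (f : Fn F X) (y : X → F), T f y = f (y - v) := fun f y => rfl
  have h2 : N.map (T : Fn F X →ₗ[F] Fn F X) ≤ (LinearMap.ker Φ).map (RM F X D).subtype := by
    rintro _ ⟨f, hf, rfl⟩
    obtain ⟨hf1, hf2⟩ := hN f hf
    have hfT : T f ∈ RM F X D := by
      have h3 := comp_mem_RM hf1 (fun i => ((fun y => y i) + fun _ => -v i : Fn F X))
        (fun i => Submodule.add_mem _ (coord_mem_RM i) (const_mem_RM _ _))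
      have h4 : T f = fun y => f fun i => ((fun y => y i) + fun _ => -v i : Fn F X) y := by
        ext y
        rw [hTa]
        congr 1
        ext i
        simp [sub_eq_add_neg]
      rw [h4]
      exact h3
    refine ⟨⟨T f, hfT⟩, ?_, rfl⟩
    rw [SetLike.mem_coe, LinearMap.mem_ker]
    ext x
    change T f (x.1 + v) = 0
    rw [hTa, add_sub_cancel_right]
    exact hf2 _ (hmem _ x.2).1
  have h3 := Submodule.finrank_mono h2
  rw [LinearEquiv.finrank_map_eq, Submodule.finrank_map_subtype_eq] at h3
  omega

theorem ker_bound {F X : Type} [Field F] [Fintype F] [DecidableEq F] [Fintype X] [DecidableEq X]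
    (D : ℕ) (E : Finset (X → F)) (N : Submodule F (Fn F X))
    (hN : ∀ f ∈ N, f ∈ RM F X D ∧ ∀ x ∉ E, f x = 0) :
    Module.finrank F N * Fintype.card F ^ Fintype.card X ≤ E.card * cnt X (Fintype.card F) D := by
  set q := Fintype.card F with hq
  set n := Fintype.card X with hn
  have hcard : Fintype.card (X → F) = q ^ n := by simp [hq, hn]
  have h1 : ∑ v : X → F, (((univ : Finset (X → F)).filter
      (fun x => x ∉ E ∧ wt (x + v) ≤ D)).card + Module.finrank F N) ≤
      ∑ _v : X → F, cnt X q D := Finset.sum_le_sum fun v _ => ker_bound_aux D E N hN v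
  rw [Finset.sum_add_distrib, Finset.sum_const, Finset.sum_const, card_univ, hcard, smul_eq_mul,
    smul_eq_mul] at h1
  have h2 : ∑ v : X → F, ((univ : Finset (X → F)).filter
      (fun x => x ∉ E ∧ wt (x + v) ≤ D)).card = (q ^ n - E.card) * cnt X q D := by
    simp only [Finset.card_filter]
    rw [Finset.sum_comm]
    have h3 : ∀ x : X → F, ∑ v : X → F, (if x ∉ E ∧ wt (x + v) ≤ D then 1 else 0) =
        if x ∉ E then cnt X q D else 0 := by
      intro x
      by_cases hx : x ∈ E
      · simp [hx]
      · simp only [hx, not_false_eq_true, true_and, if_true]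
        rw [← Finset.card_filter, ← card_wt_le (F := F) D]
        apply Finset.card_bij' (fun v _ => x + v) (fun y _ => y - x)
        · intro v hv
          simpa using hv
        · intro y hy
          simp only [mem_filter, mem_univ, true_and] at hy ⊢
          rwa [add_sub_cancel]
        · intro v _
          exact add_sub_cancel_left _ _
        · intro y _
          exact add_sub_cancel _ _
    simp only [h3]
    rw [← Finset.sum_filter, Finset.sum_const, smul_eq_mul]
    congr 1
    have h4 : (univ.filter fun x : X → F => x ∉ E) = univ \ E := by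
      ext x; simp
    rw [h4, Finset.card_sdiff_of_subset (subset_univ E), card_univ, hcard]
  rw [h2] at h1
  have hE : E.card ≤ q ^ n := by
    rw [← hcard, ← card_univ]
    exact Finset.card_le_card (subset_univ E)
  obtain ⟨k, hk⟩ := Nat.exists_eq_add_of_le hE
  rw [hk] at h1 ⊢
  rw [Nat.add_sub_cancel_left] at h1
  nlinarith

end Vale.Agent.P346q
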