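import Vale.Agent.Lib.P346q.LDa

/-!
# P346 over a finite field: expansion around the constant coefficients (module LDb)

The coefficient of `z^α` in a product is a sum over the ways of writing `α = ∑ α_g`; group by
`U = {g | α_g ≠ 0}`, which has at most `k` elements.
-/

open Finset

namespace Vale.Agent.P346q

variable {F Z X : Type} [Field F] [Fintype X]

theorem coeff_prod_univ [DecidableEq Z] {r : ℕ} (P : Fin r → MvPolynomial Z F) (α : Z →₀ ℕ) :
    (∏ g, P g).coeff α
      = ∑ l ∈ finsuppAntidiag (univ : Finset (Fin r)) α, ∏ g, (P g).coeff (l g) := by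
  have h := MvPowerSeries.coeff_prod (fun g => (P g : MvPowerSeries Z F)) α univ
  simp only [MvPolynomial.coeff_coe] at h
  rw [← h, ← MvPolynomial.coeff_coe]
  congr 1
  exact map_prod (MvPolynomial.coeToMvPowerSeries.ringHom (R := F) (σ := Z)) P univ

/-- expansion of a product of `r` families around their constant coefficients -/
theorem top_expand {E : Finset (X → F)} {k t r : ℕ} (G : Fin r → (X → F) → MvPolynomial Z F)
    (hG : ∀ g, LD E k t (G g)) (α : Z →₀ ℕ) (hα : α.degree ≤ k) :
    ∃ h : Finset (Fin r) → Fn F X, (∀ U, h U ∈ RM F X (k * t)) ∧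
      ∀ x ∉ E, (∏ g, G g x).coeff α
        = ∑ U ∈ univ.filter (fun U : Finset (Fin r) => U.card ≤ k),
            (∏ g ∈ univ \ U, (G g x).coeff 0) * h U x := by
  classical
  unfold LD at hG
  choose! H Hm Hx using hG
  have hdeg : ∀ l ∈ finsuppAntidiag (univ : Finset (Fin r)) α,
      (∀ g, (l g).degree ≤ k) ∧ l.support.card ≤ k := by
    intro l hl
    rw [mem_finsuppAntidiag] at hl
    have h1 : ∑ g, (l g).degree = α.degree := by
      rw [← map_sum, hl.1]
    constructor
    · intro g
      have h2 : (l g).degree ≤ ∑ g, (l g).degree :=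
        Finset.single_le_sum (f := fun g => (l g).degree) (fun _ _ => Nat.zero_le _) (mem_univ g)
      omega
    · have h3 : l.support.card ≤ ∑ g ∈ l.support, (l g).degree := by
        rw [Finset.card_eq_sum_ones]
        refine Finset.sum_le_sum fun g hg => ?_
        rw [Finsupp.mem_support_iff] at hg
        have : (l g).degree ≠ 0 := by
          intro h0
          exact hg ((Finsupp.degree_eq_zero_iff _).mp h0)
        omega
      have h4 : ∑ g ∈ l.support, (l g).degree ≤ ∑ g, (l g).degree :=
        Finset.sum_le_sum_of_subset (Finset.subset_univ _)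
      omega
  refine ⟨fun U => ∑ l ∈ (finsuppAntidiag (univ : Finset (Fin r)) α).filter
    (fun l => l.support = U), ∏ g ∈ U, H g (l g), ?_, ?_⟩
  · intro U
    apply Submodule.sum_mem
    intro l hl
    rw [Finset.mem_filter] at hl
    obtain ⟨h1, h2⟩ := hdeg l hl.1
    have h3 := prod_mem_RM U (fun g => H g (l g)) (fun _ => t) (fun g _ => Hm g _ (h1 g))
    refine RM_mono ?_ h3
    rw [Finset.sum_const, smul_eq_mul, ← hl.2]
    exact Nat.mul_le_mul_right _ h2
  · intro x hx
    rw [coeff_prod_univ]
    rw [← Finset.sum_fiberwise_of_maps_to (s := finsuppAntidiag (univ : Finset (Fin r)) α)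
      (t := univ.filter (fun U : Finset (Fin r) => U.card ≤ k)) (g := fun l => l.support)]
    · refine Finset.sum_congr rfl fun U _ => ?_
      change _ = _ * (∑ l ∈ (finsuppAntidiag (univ : Finset (Fin r)) α).filter
        (fun l => l.support = U), ∏ g ∈ U, H g (l g)) x
      rw [Finset.sum_apply, Finset.mul_sum]
      refine Finset.sum_congr rfl fun l hl => ?_
      rw [Finset.mem_filter] at hl
      obtain ⟨h1, _⟩ := hdeg l hl.1
      rw [← Finset.prod_sdiff (Finset.subset_univ U), Finset.prod_apply]
      congr 1
      · refine Finset.prod_congr rfl fun g hg => ?_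
        rw [Finset.mem_sdiff, ← hl.2, Finsupp.mem_support_iff, not_not] at hg
        rw [hg.2]
      · refine Finset.prod_congr rfl fun g _ => ?_
        exact Hx g _ (h1 g) x hx
    · intro l hl
      rw [Finset.mem_filter]
      exact ⟨mem_univ _, (hdeg l hl).2⟩

end Vale.Agent.P346q
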