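import Vale.Agent.Lib.P346q.RM

/-!
# P346 over a finite field: families of polynomials whose low coefficients have low degree
(module LDa)
-/

open Finset

namespace Vale.Agent.P346q

/-- off `E`, all coefficients of order at most `k` of the family `g` agree with functions of degree
at most `t` -/
def LD {F Z X : Type} [Field F] [Fintype X] (E : Finset (X → F)) (k t : ℕ)
    (g : (X → F) → MvPolynomial Z F) : Prop :=
  ∀ α : Z →₀ ℕ, α.degree ≤ k → ∃ h ∈ RM F X t, ∀ x ∉ E, (g x).coeff α = h x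

variable {F V Z X : Type} [Field F] [Fintype X]

theorem LD.mono {E E' : Finset (X → F)} {k t t' : ℕ} {g : (X → F) → MvPolynomial Z F}
    (h : LD E k t g) (hE : E ⊆ E') (ht : t ≤ t') : LD E' k t' g := by
  intro α hα
  obtain ⟨f, hf, hx⟩ := h α hα
  exact ⟨f, RM_mono ht hf, fun x hx' => hx x fun hxE => hx' (hE hxE)⟩

theorem LD.const {E : Finset (X → F)} {k : ℕ} (P : MvPolynomial Z F) (t : ℕ) :
    LD E k t (fun _ : X → F => P) := by
  intro α _
  exact ⟨fun _ => P.coeff α, const_mem_RM _ _, fun _ _ => rfl⟩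

theorem LD.mul {E : Finset (X → F)} {k t₁ t₂ : ℕ} {g₁ g₂ : (X → F) → MvPolynomial Z F}
    (h₁ : LD E k t₁ g₁) (h₂ : LD E k t₂ g₂) : LD E k (t₁ + t₂) (fun x => g₁ x * g₂ x) := by
  classical
  intro α hα
  choose! H₁ H₁m H₁x using h₁
  choose! H₂ H₂m H₂x using h₂
  have hdeg : ∀ y ∈ antidiagonal α, y.1.degree ≤ k ∧ y.2.degree ≤ k := by
    intro y hy
    rw [Finset.HasAntidiagonal.mem_antidiagonal] at hy
    have := congrArg Finsupp.degree hy
    rw [map_add] at this
    constructor <;> omega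
  refine ⟨∑ y ∈ antidiagonal α, H₁ y.1 * H₂ y.2, ?_, ?_⟩
  · apply Submodule.sum_mem
    intro y hy
    exact mul_mem_RM (H₁m _ (hdeg y hy).1) (H₂m _ (hdeg y hy).2)
  · intro x hx
    rw [MvPolynomial.coeff_mul, Finset.sum_apply]
    refine Finset.sum_congr rfl fun y hy => ?_
    rw [H₁x _ (hdeg y hy).1 x hx, H₂x _ (hdeg y hy).2 x hx, Pi.mul_apply]

theorem LD.multiset_prod {ι : Type} {E : Finset (X → F)} {k : ℕ} (M : Multiset ι) (d : ι → ℕ)
    (g : ι → (X → F) → MvPolynomial Z F) (h : ∀ i ∈ M, LD E k (d i) (g i)) :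
    LD E k (M.map d).sum (fun x => (M.map fun i => g i x).prod) := by
  induction M using Multiset.induction_on with
  | empty =>
    simp only [Multiset.map_zero, Multiset.prod_zero, Multiset.sum_zero]
    exact LD.const 1 0
  | cons a M ih =>
    simp only [Multiset.map_cons, Multiset.prod_cons, Multiset.sum_cons]
    exact (h a (Multiset.mem_cons_self a M)).mul
      (ih fun i hi => h i (Multiset.mem_cons_of_mem hi))

theorem LD.linComb {ι : Type} {E : Finset (X → F)} {k t : ℕ} (s : Finset ι) (c : ι → F)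
    (g : ι → (X → F) → MvPolynomial Z F) (h : ∀ i ∈ s, LD E k t (g i)) :
    LD E k t (fun x => ∑ i ∈ s, MvPolynomial.C (c i) * g i x) := by
  intro α hα
  have h' : ∀ i ∈ s, ∃ h ∈ RM F X t, ∀ x ∉ E, (g i x).coeff α = h x := fun i hi => h i hi α hα
  choose! H Hm Hx using h'
  refine ⟨∑ i ∈ s, c i • H i, ?_, ?_⟩
  · exact Submodule.sum_mem _ fun i hi => Submodule.smul_mem _ _ (Hm i hi)
  · intro x hx
    rw [MvPolynomial.coeff_sum, Finset.sum_apply]
    refine Finset.sum_congr rfl fun i hi => ?_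
    rw [MvPolynomial.coeff_C_mul, Hx i hi x hx, Pi.smul_apply, smul_eq_mul]

theorem LD.pow {E : Finset (X → F)} {k t : ℕ} {g : (X → F) → MvPolynomial Z F}
    (h : LD E k t g) (e : ℕ) : LD E k (e * t) (fun x => g x ^ e) := by
  induction e with
  | zero => simpa using LD.const (E := E) (k := k) (1 : MvPolynomial Z F) 0
  | succ e ih =>
    simp only [pow_succ]
    have := ih.mul h
    rwa [← Nat.succ_mul] at this

theorem LD.finset_prod {ι : Type} {E : Finset (X → F)} {k : ℕ} (s : Finset ι) (d : ι → ℕ)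
    (g : ι → (X → F) → MvPolynomial Z F) (h : ∀ i ∈ s, LD E k (d i) (g i)) :
    LD E k (∑ i ∈ s, d i) (fun x => ∏ i ∈ s, g i x) :=
  LD.multiset_prod s.val d g h

theorem LD.hom_X [Fintype Z] (σ : Subst F V Z X) (k : ℕ) (v : V) :
    LD (∅ : Finset (X → F)) k 1 (fun x => σ.hom x (MvPolynomial.X v)) := by
  classical
  intro α _
  have e : ∀ x : X → F, (σ.hom x (MvPolynomial.X v)).coeff α
      = (if 0 = α then σ.al v x else 0)
        + (∑ z, MvPolynomial.C (σ.be v z) * MvPolynomial.X z : MvPolynomial Z F).coeff α := by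
    intro x
    unfold Subst.hom
    rw [MvPolynomial.aeval_X, MvPolynomial.coeff_add, MvPolynomial.coeff_C]
  by_cases hα : 0 = α
  · refine ⟨σ.al v + fun _ => (∑ z, MvPolynomial.C (σ.be v z) * MvPolynomial.X z :
      MvPolynomial Z F).coeff α, Submodule.add_mem _ (σ.hal v) (const_mem_RM _ _), ?_⟩
    intro x _
    rw [e x, if_pos hα, Pi.add_apply]
  · refine ⟨fun _ => (∑ z, MvPolynomial.C (σ.be v z) * MvPolynomial.X z :
      MvPolynomial Z F).coeff α, const_mem_RM _ _, ?_⟩
    intro x _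
    rw [e x, if_neg hα, zero_add]

/-- polynomials of degree at most `d` -/
theorem LD.of_totalDegree [Fintype Z] (σ : Subst F V Z X) (P : MvPolynomial V F) (d k : ℕ)
    (hP : P.totalDegree ≤ d) : LD (∅ : Finset (X → F)) k d (fun x => σ.hom x P) := by
  classical
  have h : ∀ v ∈ P.support, LD (∅ : Finset (X → F)) k d
      (fun x => ∏ i ∈ v.support, (σ.hom x (MvPolynomial.X i)) ^ (v i)) := by
    intro v hv
    have h1 := LD.finset_prod (E := (∅ : Finset (X → F))) (k := k) v.support (fun i => v i * 1)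
      (fun i x => (σ.hom x (MvPolynomial.X i)) ^ (v i)) (fun i _ => (LD.hom_X σ k i).pow (v i))
    refine h1.mono (Finset.Subset.refl _) ?_
    have h2 : ∑ i ∈ v.support, v i ≤ P.totalDegree := MvPolynomial.le_totalDegree hv
    simp only [mul_one]
    omega
  have h2 := LD.linComb (E := (∅ : Finset (X → F))) (k := k) (t := d) P.support
    (fun v => P.coeff v) (fun v x => ∏ i ∈ v.support, (σ.hom x (MvPolynomial.X i)) ^ (v i)) h
  have e : (fun x => σ.hom x P) = fun x => ∑ v ∈ P.support, MvPolynomial.C (P.coeff v)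
      * ∏ i ∈ v.support, (σ.hom x (MvPolynomial.X i)) ^ (v i) := by
    funext x
    conv_lhs => rw [P.as_sum]
    rw [map_sum]
    refine Finset.sum_congr rfl fun v _ => ?_
    unfold Subst.hom
    rw [MvPolynomial.aeval_monomial, MvPolynomial.algebraMap_eq]
    unfold Finsupp.prod
    simp only [MvPolynomial.aeval_X]
  rw [e]
  exact h2

end Vale.Agent.P346q
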