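import Vale.Agent.Lib.P346q.Analytic

/-!
# P346 over a finite field: choice of the parameters, numerical lemmas (module PARAM)

`D = p^j`, `A₀ = p^α₀ ≥ 4 (q-1)²/√sg`, `A₁ = p^α₁` large, `D ≥ A₁²`:
`b = 2 (D²/A₁ + D/A₀)`, `v = (q-1) D/A₁`, `h = (q-1) b/2 - 1`, so `(q-1) b / 2 = D v + (q-1) D/A₀`;
`m ≥ 12 exp (E)`, `E ≥ (f + √(2 sg b))² / (sg b)`, `f = (q-1) D/A₀ + 1`;
`w₁ = 16 m q²`, `j` maximal with `w₁ D² ≤ n`; `K = m D`; `K₁ = D/p^β`; `τ = B K₁`,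
`t = (q-1) B K₁`; `s = ϑ/D`, `ϑ = 1.7 (q-1) A₁ / (2 A₀ sg)`; `B ≥ 4 q (1 + ϑ (q-1))`,
`p^β ≥ ϑ (q-1) B + B`. See notes/P346q.md.
-/

open Finset

namespace Vale.Agent.P346q

/-! ### Constants -/

theorem par_sg_le (q : ℕ) (hq : 2 ≤ q) : sg q ≤ ((q : ℝ) - 1) ^ 2 / 4 := by
  have hq0 : (0 : ℝ) < q := by exact_mod_cast (by omega : 0 < q)
  unfold sg
  rw [div_le_iff₀ hq0]
  calc ∑ a ∈ range q, ((a : ℝ) - ((q : ℝ) - 1) / 2) ^ 2
      ≤ ∑ _a ∈ range q, ((q : ℝ) - 1) ^ 2 / 4 := by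
        refine sum_le_sum fun a ha => ?_
        rw [mem_range] at ha
        have h1 : (a : ℝ) + 1 ≤ q := by exact_mod_cast ha
        have h0 : (0 : ℝ) ≤ a := Nat.cast_nonneg a
        nlinarith
    _ = _ := by
        rw [sum_const, card_range, nsmul_eq_mul]
        ring

/-- a power of `p` above a given real -/
theorem par_pow (p : ℕ) (hp : 2 ≤ p) (M : ℝ) : ∃ a : ℕ, M ≤ (p : ℝ) ^ a := by
  obtain ⟨a, ha⟩ := pow_unbounded_of_one_lt M (show (1 : ℝ) < p by exact_mod_cast (by omega))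
  exact ⟨a, ha.le⟩

/-- exponentials beat squares -/
theorem par_exp_large (C κ ρ : ℝ) (hC : 0 < C) (hκ : 0 ≤ κ) (hρ : 0 < ρ) :
    ∃ M : ℝ, ∀ A : ℝ, M ≤ A → C * (1 + κ * A) ^ 2 ≤ Real.exp (ρ * A) := by
  refine ⟨max 1 (6 * C * (1 + κ) ^ 2 / ρ ^ 3), fun A hA => ?_⟩
  have hA1 : 1 ≤ A := (le_max_left _ _).trans hA
  have hA2 : 6 * C * (1 + κ) ^ 2 / ρ ^ 3 ≤ A := (le_max_right _ _).trans hA
  rw [div_le_iff₀ (by positivity)] at hA2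
  have h1 : (1 + κ * A) ^ 2 ≤ (1 + κ) ^ 2 * A ^ 2 := by
    rw [← mul_pow]
    apply pow_le_pow_left₀ (by positivity)
    nlinarith
  have h2 : (ρ * A) ^ 3 / 6 ≤ Real.exp (ρ * A) := by
    have h3 := Real.pow_div_factorial_le_exp (ρ * A) (by positivity) 3
    have e : ((Nat.factorial 3 : ℕ) : ℝ) = 6 := by norm_num [Nat.factorial]
    rwa [e] at h3
  calc C * (1 + κ * A) ^ 2 ≤ C * ((1 + κ) ^ 2 * A ^ 2) := mul_le_mul_of_nonneg_left h1 hC.le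
    _ = (6 * C * (1 + κ) ^ 2) * A ^ 2 / 6 := by ring
    _ ≤ (A * ρ ^ 3) * A ^ 2 / 6 := by
        apply div_le_div_of_nonneg_right _ (by norm_num)
        exact mul_le_mul_of_nonneg_right hA2 (by positivity)
    _ = (ρ * A) ^ 3 / 6 := by ring
    _ ≤ _ := h2

theorem par_sqrt {R : ℝ} (hR : 0 ≤ R) : 2 * √(2 * R) ≤ R / 25 + 50 := by
  have h1 : √(2 * R) ^ 2 = 2 * R := Real.sq_sqrt (by linarith)
  nlinarith [sq_nonneg (√(2 * R) - 50)]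

theorem par_m {R : ℝ} (hR : 0 ≤ R) {m : ℝ} (hm : m ≤ 13 * Real.exp (R + 2 * √(2 * R) + 3)) :
    m ≤ 13 * Real.exp 53 * Real.exp (26 / 25 * R) := by
  refine hm.trans ?_
  rw [mul_assoc, ← Real.exp_add]
  apply mul_le_mul_of_nonneg_left _ (by norm_num)
  apply Real.exp_le_exp.2
  have := par_sqrt hR
  linarith

theorem par_four {p q X R m P : ℝ} (hp : 2 ≤ p) (hq : 2 ≤ q) (hX : 1 ≤ X) (hR : 1 ≤ R)
    (_hm0 : 0 ≤ m) (hP0 : 0 ≤ P) (hm : m ≤ 13 * Real.exp 53 * Real.exp (26 / 25 * R))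
    (hP : P ≤ 5 * q * p * X ^ 2)
    (hbig : 260 * q ^ 2 * p ^ 3 * Real.exp 53 * X ^ 2 ≤ Real.exp (R / 4)) :
    4 * m * P * Real.exp (-(36 / 25 * R)) ≤ 1 := by
  have h1 : 4 * m * P ≤ (260 * q * p * Real.exp 53 * X ^ 2) * Real.exp (26 / 25 * R) := by
    calc 4 * m * P ≤
        4 * (13 * Real.exp 53 * Real.exp (26 / 25 * R)) * (5 * q * p * X ^ 2) := by
          apply mul_le_mul _ hP (by positivity) (by positivity)
          exact mul_le_mul_of_nonneg_left hm (by norm_num)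
      _ = _ := by ring
  have h2 : 260 * q * p * Real.exp 53 * X ^ 2 ≤ Real.exp (R / 4) := by
    refine le_trans ?_ hbig
    have h3 : q * p ≤ q ^ 2 * p ^ 3 := by
      have h4 : (1 : ℝ) ≤ q * p ^ 2 := by nlinarith
      calc q * p = q * p * 1 := by ring
        _ ≤ q * p * (q * p ^ 2) := mul_le_mul_of_nonneg_left h4 (by positivity)
        _ = _ := by ring
    calc 260 * q * p * Real.exp 53 * X ^ 2 =
        (q * p) * (260 * Real.exp 53 * X ^ 2) := by ring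
      _ ≤ (q ^ 2 * p ^ 3) * (260 * Real.exp 53 * X ^ 2) :=
        mul_le_mul_of_nonneg_right h3 (by positivity)
      _ = _ := by ring
  calc 4 * m * P * Real.exp (-(36 / 25 * R)) ≤
      (Real.exp (R / 4) * Real.exp (26 / 25 * R)) * Real.exp (-(36 / 25 * R)) := by
        apply mul_le_mul_of_nonneg_right _ (Real.exp_pos _).le
        exact h1.trans (mul_le_mul_of_nonneg_right h2 (Real.exp_pos _).le)
    _ = Real.exp (R / 4 + 26 / 25 * R + -(36 / 25 * R)) := by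
        rw [← Real.exp_add, ← Real.exp_add]
    _ ≤ 1 := by
        apply Real.exp_le_one_iff.2
        linarith

theorem par_tail {R m P : ℝ} (hR : 1 ≤ R) (hm0 : 0 ≤ m) (hP : 1 ≤ P)
    (h4 : 4 * m * P * Real.exp (-(36 / 25 * R)) ≤ 1) : 16 * m * Real.exp (-(24 * R)) ≤ 1 := by
  have h2 : 4 * m * Real.exp (-(36 / 25 * R)) ≤ 1 := by
    refine le_trans ?_ h4
    calc 4 * m * Real.exp (-(36 / 25 * R)) =
        4 * m * 1 * Real.exp (-(36 / 25 * R)) := by ring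
      _ ≤ _ := by
        apply mul_le_mul_of_nonneg_right _ (Real.exp_pos _).le
        exact mul_le_mul_of_nonneg_left hP (by positivity)
  have h3 : Real.exp (-(24 * R)) ≤ 1 / 4 * Real.exp (-(36 / 25 * R)) := by
    have h4 : Real.exp (-(24 * R)) = Real.exp (-(564 / 25 * R)) * Real.exp (-(36 / 25 * R)) := by
      rw [← Real.exp_add]
      congr 1
      ring
    rw [h4]
    apply mul_le_mul_of_nonneg_right _ (Real.exp_pos _).le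
    rw [Real.exp_neg, inv_le_comm₀ (Real.exp_pos _) (by norm_num)]
    have := Real.add_one_le_exp (564 / 25 * R)
    norm_num
    linarith
  calc 16 * m * Real.exp (-(24 * R)) ≤
      16 * m * (1 / 4 * Real.exp (-(36 / 25 * R))) :=
        mul_le_mul_of_nonneg_left h3 (by positivity)
    _ = 4 * m * Real.exp (-(36 / 25 * R)) := by ring
    _ ≤ 1 := h2

theorem par_gain {p q X R Q B P : ℝ} (hp : 2 ≤ p) (hq : 2 ≤ q) (hX : 1 ≤ X)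
    (hQ : 1 ≤ Q) (hB : 0 < B) (hP : P ≤ p * (X * B))
    (hbig : 260 * q ^ 2 * p ^ 3 * Real.exp 53 * X ^ 2 ≤ Real.exp (R / 4)) :
    48 * Real.exp (9 / 2) * q ^ 2 * p ^ 2 * P ≤ (Real.exp (R / 4) / 4) * Q * B := by
  calc 48 * Real.exp (9 / 2) * q ^ 2 * p ^ 2 * P ≤
      48 * Real.exp (9 / 2) * q ^ 2 * p ^ 2 * (p * (X * B)) :=
        mul_le_mul_of_nonneg_left hP (by positivity)
    _ = (48 * Real.exp (9 / 2) * q ^ 2 * p ^ 3 * X) * B := by ring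
    _ ≤ (Real.exp (R / 4) / 4 * Q) * B := by
        apply mul_le_mul_of_nonneg_right _ hB.le
        have h1 : 48 * Real.exp (9 / 2) * q ^ 2 * p ^ 3 * X ≤
            (260 * q ^ 2 * p ^ 3 * Real.exp 53 * X ^ 2) / 4 := by
          have h2 : Real.exp (9 / 2) ≤ Real.exp 53 := Real.exp_le_exp.2 (by norm_num)
          have h3 : X ≤ X ^ 2 := by nlinarith
          calc 48 * Real.exp (9 / 2) * q ^ 2 * p ^ 3 * X =
              (48 * q ^ 2 * p ^ 3) * (Real.exp (9 / 2) * X) := by ring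
            _ ≤ (65 * q ^ 2 * p ^ 3) * (Real.exp 53 * X ^ 2) := by
              apply mul_le_mul _ (mul_le_mul h2 h3 (by positivity) (by positivity))
                (by positivity) (by positivity)
              apply mul_le_mul_of_nonneg_right _ (by positivity)
              apply mul_le_mul_of_nonneg_right _ (by positivity)
              norm_num
            _ = _ := by ring
        calc _ ≤ _ := h1
          _ ≤ Real.exp (R / 4) / 4 := div_le_div_of_nonneg_right hbig (by norm_num)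
          _ = Real.exp (R / 4) / 4 * 1 := by ring
          _ ≤ _ := mul_le_mul_of_nonneg_left hQ (by positivity)

/-- the exponent `β` -/
theorem par_beta (p : ℕ) (hp : 2 ≤ p) {M : ℝ} (hM : 1 < M) :
    ∃ β : ℕ, M ≤ (p : ℝ) ^ β ∧ (p : ℝ) ^ β ≤ p * M := by
  classical
  have hex : ∃ β : ℕ, M ≤ (p : ℝ) ^ β := par_pow p hp _
  refine ⟨Nat.find hex, Nat.find_spec hex, ?_⟩
  have h0 : Nat.find hex ≠ 0 := by
    intro h0
    have := Nat.find_spec hex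
    rw [h0, pow_zero] at this
    linarith
  obtain ⟨β', hβ'⟩ := Nat.exists_eq_succ_of_ne_zero h0
  have h1 := Nat.find_min hex (m := β') (by rw [hβ']; exact Nat.lt_succ_self _)
  rw [not_le] at h1
  rw [hβ', pow_succ, mul_comm]
  exact mul_le_mul_of_nonneg_left h1.le (Nat.cast_nonneg p)

theorem par_consts (p q : ℕ) (hp : 2 ≤ p) (hq : 2 ≤ q) (σ : ℝ) (hσ : 0 < σ) :
    ∃ (α₀ α₁ β B m : ℕ) (R ϑ : ℝ),
      16 * ((q : ℝ) - 1) ^ 4 ≤ ((p : ℝ) ^ α₀) ^ 2 * σ ∧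
      R = ((q : ℝ) - 1) ^ 2 * (p : ℝ) ^ α₁ / (2 * ((p : ℝ) ^ α₀) ^ 2 * σ) ∧
      ϑ = 17 / 10 * ((q : ℝ) - 1) * (p : ℝ) ^ α₁ / (2 * (p : ℝ) ^ α₀ * σ) ∧ 1 ≤ R ∧ 0 < ϑ ∧
      12 * Real.exp (R + 2 * √(2 * R) + 3) ≤ m ∧
      4 * q * (1 + ϑ * ((q : ℝ) - 1)) ≤ B ∧
      (1 + ϑ * ((q : ℝ) - 1)) * B ≤ (p : ℝ) ^ β ∧
      16 * m * Real.exp (-(24 * R)) ≤ 1 ∧
      4 * m * (p : ℝ) ^ β * Real.exp (-(36 / 25 * R)) ≤ 1 ∧
      48 * Real.exp (9 / 2) * q ^ 2 * p ^ 2 * (p : ℝ) ^ β ≤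
        (Real.exp (R / 4) / 4) * ((q : ℝ) - 1) * B := by
  have hp' : (2 : ℝ) ≤ p := by exact_mod_cast hp
  have hq' : (2 : ℝ) ≤ q := by exact_mod_cast hq
  obtain ⟨Q, hQ⟩ : ∃ Q : ℝ, Q = (q : ℝ) - 1 := ⟨_, rfl⟩
  rw [← hQ]
  have hQ1 : 1 ≤ Q := by linarith
  obtain ⟨α₀, hα₀⟩ := par_pow p hp (4 * Q ^ 2 / √σ)
  have hsq : 0 < √σ := Real.sqrt_pos.2 hσ
  rw [div_le_iff₀ hsq] at hα₀
  have hA₀p : 0 < (p : ℝ) ^ α₀ := by positivity
  have hA₀2 : 16 * Q ^ 4 ≤ ((p : ℝ) ^ α₀) ^ 2 * σ := by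
    have h1 := pow_le_pow_left₀ (by positivity : (0 : ℝ) ≤ 4 * Q ^ 2) hα₀ 2
    rw [mul_pow, mul_pow, Real.sq_sqrt hσ.le] at h1
    calc 16 * Q ^ 4 = 4 ^ 2 * (Q ^ 2) ^ 2 := by ring
      _ ≤ _ := h1
  have hρ0 : 0 < Q ^ 2 / (2 * ((p : ℝ) ^ α₀) ^ 2 * σ) := by positivity
  have hκ0 : 0 < 17 / 10 * Q / (2 * (p : ℝ) ^ α₀ * σ) := by positivity
  obtain ⟨M, hM⟩ := par_exp_large (260 * q ^ 2 * p ^ 3 * Real.exp 53)
    (17 / 10 * Q / (2 * (p : ℝ) ^ α₀ * σ) * Q) (Q ^ 2 / (2 * ((p : ℝ) ^ α₀) ^ 2 * σ) / 4)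
    (by positivity) (by positivity) (by positivity)
  obtain ⟨α₁, hα₁⟩ := par_pow p hp (max M (1 / (Q ^ 2 / (2 * ((p : ℝ) ^ α₀) ^ 2 * σ))))
  have hbig := hM _ ((le_max_left _ _).trans hα₁)
  have hρA : 1 ≤ Q ^ 2 / (2 * ((p : ℝ) ^ α₀) ^ 2 * σ) * (p : ℝ) ^ α₁ := by
    have := (le_max_right M (1 / (Q ^ 2 / (2 * ((p : ℝ) ^ α₀) ^ 2 * σ)))).trans hα₁
    rw [div_le_iff₀ hρ0] at this
    linarith
  obtain ⟨R, hR⟩ : ∃ R : ℝ, R = Q ^ 2 * (p : ℝ) ^ α₁ / (2 * ((p : ℝ) ^ α₀) ^ 2 * σ) := ⟨_, rfl⟩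
  obtain ⟨ϑ, hϑ⟩ : ∃ ϑ : ℝ, ϑ = 17 / 10 * Q * (p : ℝ) ^ α₁ / (2 * (p : ℝ) ^ α₀ * σ) := ⟨_, rfl⟩
  have hR1 : 1 ≤ R := by
    refine hρA.trans (le_of_eq ?_)
    rw [hR]; ring
  have hϑ0 : 0 < ϑ := by rw [hϑ]; positivity
  have hbig' : 260 * q ^ 2 * p ^ 3 * Real.exp 53 * (1 + ϑ * Q) ^ 2 ≤ Real.exp (R / 4) := by
    have e1 : 17 / 10 * Q / (2 * (p : ℝ) ^ α₀ * σ) * Q * (p : ℝ) ^ α₁ = ϑ * Q := by
      rw [hϑ]; ring
    have e2 : Q ^ 2 / (2 * ((p : ℝ) ^ α₀) ^ 2 * σ) / 4 * (p : ℝ) ^ α₁ = R / 4 := by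
      rw [hR]; ring
    rw [e1, e2] at hbig
    exact hbig
  have hX0 : 0 < ϑ * Q := by positivity
  obtain ⟨X, hX⟩ : ∃ X : ℝ, X = 1 + ϑ * Q := ⟨_, rfl⟩
  have hX1 : 1 ≤ X := by linarith
  rw [← hX] at hbig'
  obtain ⟨B, hB⟩ : ∃ B : ℕ, B = ⌈4 * q * X⌉₊ := ⟨_, rfl⟩
  have hB1 : 4 * q * X ≤ B := by rw [hB]; exact Nat.le_ceil _
  have hB2 : (B : ℝ) ≤ 5 * q * X := by
    have h1 : (B : ℝ) < 4 * q * X + 1 := by
      rw [hB]; exact Nat.ceil_lt_add_one (by positivity)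
    have h2 : 1 ≤ q * X := by nlinarith
    linarith
  have hB8 : (8 : ℝ) ≤ B := by nlinarith
  have hXB : 1 < X * B := by nlinarith
  obtain ⟨β, hβ1, hβ2⟩ := par_beta p hp hXB
  have hβ3 : (p : ℝ) ^ β ≤ 5 * q * p * X ^ 2 := by
    refine hβ2.trans ?_
    calc (p : ℝ) * (X * B) ≤ p * (X * (5 * q * X)) := by
          apply mul_le_mul_of_nonneg_left _ (by positivity)
          exact mul_le_mul_of_nonneg_left hB2 (by positivity)
      _ = _ := by ring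
  obtain ⟨m, hm⟩ : ∃ m : ℕ, m = ⌈12 * Real.exp (R + 2 * √(2 * R) + 3)⌉₊ := ⟨_, rfl⟩
  have hm1 : 12 * Real.exp (R + 2 * √(2 * R) + 3) ≤ m := by rw [hm]; exact Nat.le_ceil _
  have hm2 : (m : ℝ) ≤ 13 * Real.exp (R + 2 * √(2 * R) + 3) := by
    have h1 : (m : ℝ) < 12 * Real.exp (R + 2 * √(2 * R) + 3) + 1 := by
      rw [hm]; exact Nat.ceil_lt_add_one (by positivity)
    have hsR : 0 ≤ √(2 * R) := Real.sqrt_nonneg _
    have h2 : 1 ≤ Real.exp (R + 2 * √(2 * R) + 3) := Real.one_le_exp (by linarith)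
    linarith
  have hm3 := par_m (by linarith : (0 : ℝ) ≤ R) hm2
  have hfour := par_four hp' hq' hX1 hR1 (Nat.cast_nonneg m) (by positivity) hm3 hβ3 hbig'
  have hone : (1 : ℝ) ≤ (p : ℝ) ^ β := one_le_pow₀ (by linarith)
  exact ⟨α₀, α₁, β, B, m, R, ϑ, hA₀2, hR, hϑ, hR1, hϑ0, hm1, by rw [← hX]; exact hB1,
    by rw [← hX]; exact hβ1, par_tail hR1 (Nat.cast_nonneg m) hone hfour, hfour,
    par_gain hp' hq' hX1 hQ1 (by linarith) hβ2 hbig'⟩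

/-! ### Large `D` -/

theorem par_f1 {Q σ A₀ A₁ R D b : ℝ} (hQ : 1 ≤ Q) (hσ : 0 < σ) (hA₀ : 0 < A₀) (hA₁ : 0 < A₁)
    (hR : R = Q ^ 2 * A₁ / (2 * A₀ ^ 2 * σ)) (hR1 : 1 ≤ R) (hD : 1 ≤ D)
    (hb : b = 2 * (D ^ 2 / A₁ + D / A₀)) (h1 : A₀ * (3 * R + 2 * √(2 * R) + 1) ≤ Q * D) :
    (Q * D / A₀ + 1 + √(2 * σ * b)) ^ 2 ≤ (R + 2 * √(2 * R) + 3) * (σ * b) := by
  have hD0 : 0 < D := by linarith
  have hb0 : 0 < b := by rw [hb]; positivity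
  obtain ⟨δ, hδ⟩ : ∃ δ : ℝ, δ = A₀ / (Q * D) := ⟨_, rfl⟩
  have hδ0 : 0 < δ := by rw [hδ]; positivity
  have hr0 : 0 ≤ √(2 * R) := Real.sqrt_nonneg _
  have hr2 : √(2 * R) ^ 2 = 2 * R := Real.sq_sqrt (by linarith)
  have hδ1 : δ * (3 * R + 2 * √(2 * R) + 1) ≤ 1 := by
    rw [hδ, div_mul_eq_mul_div, div_le_one (by positivity)]
    exact h1
  have hδ2 : δ ≤ 1 := by nlinarith
  have hy0 : 0 ≤ √(2 * σ * b) := Real.sqrt_nonneg _
  have hy2 : √(2 * σ * b) ^ 2 = 2 * σ * b := Real.sq_sqrt (by positivity)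
  have hf : Q * D / A₀ + 1 = Q * D / A₀ * (1 + δ) := by
    rw [hδ]; field_simp
  have hf2 : Q * D / A₀ + 1 ≤ (1 + δ) * √(2 * R) * √(2 * σ * b) / 2 := by
    apply le_of_sq_le_sq _ (by positivity)
    have e1 : ((1 + δ) * √(2 * R) * √(2 * σ * b) / 2) ^ 2 = (1 + δ) ^ 2 * R * (σ * b) := by
      rw [div_pow, mul_pow, mul_pow, hr2, hy2]; ring
    rw [e1, hf, mul_pow]
    have e2 : (Q * D / A₀) ^ 2 = R * (σ * (2 * (D ^ 2 / A₁))) := by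
      rw [hR]; field_simp
    rw [e2]
    have h3 : 2 * (D ^ 2 / A₁) ≤ b := by
      rw [hb]
      have : 0 < D / A₀ := by positivity
      linarith
    calc R * (σ * (2 * (D ^ 2 / A₁))) * (1 + δ) ^ 2 ≤ R * (σ * b) * (1 + δ) ^ 2 := by
          apply mul_le_mul_of_nonneg_right _ (sq_nonneg _)
          apply mul_le_mul_of_nonneg_left _ (by linarith)
          exact mul_le_mul_of_nonneg_left h3 hσ.le
      _ = _ := by ring
  have h4 : (Q * D / A₀ + 1 + √(2 * σ * b)) ^ 2 ≤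
      ((1 + δ) * √(2 * R) * √(2 * σ * b) / 2 + √(2 * σ * b)) ^ 2 := by
    apply pow_le_pow_left₀ (by positivity)
    linarith
  refine h4.trans ?_
  have e3 : ((1 + δ) * √(2 * R) * √(2 * σ * b) / 2 + √(2 * σ * b)) ^ 2 =
      (σ * b) * (R * (1 + δ) ^ 2 + 2 * √(2 * R) * (1 + δ) + 2) := by
    have : ((1 + δ) * √(2 * R) * √(2 * σ * b) / 2 + √(2 * σ * b)) ^ 2 =
      √(2 * σ * b) ^ 2 * ((1 + δ) ^ 2 * √(2 * R) ^ 2 / 4 + (1 + δ) * √(2 * R) + 1) := by ring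
    rw [this, hr2, hy2]; ring
  rw [e3, mul_comm]
  apply mul_le_mul_of_nonneg_right _ (by positivity)
  have h5 : δ ^ 2 * R ≤ δ * R := by
    apply mul_le_mul_of_nonneg_right _ (by linarith)
    nlinarith
  nlinarith

theorem par_f2 {Q σ A₁ E D b g : ℝ} (hQ : 1 ≤ Q) (hσ : 0 < σ) (hA₁ : 0 < A₁)
    (hD : 1 ≤ D) (hb : 2 * (D ^ 2 / A₁) ≤ b) (_hg0 : 0 ≤ g) (hg : g ^ 2 ≤ E * (σ * b))
    (h2 : Q ^ 2 * E * A₁ ≤ 8 * σ * D) : g / (σ * b) * Q ≤ 2 := by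
  have hD0 : 0 < D := by linarith
  have hb0 : 0 < b := lt_of_lt_of_le (by positivity) hb
  have hσb : 0 < σ * b := by positivity
  apply le_of_sq_le_sq _ (by norm_num)
  rw [mul_pow, div_pow]
  have h3 : E * Q ^ 2 ≤ 4 * (σ * b) := by
    have h4 : Q ^ 2 * E * A₁ ≤ 8 * σ * D ^ 2 := by
      have : 8 * σ * D ≤ 8 * σ * D ^ 2 := by
        apply mul_le_mul_of_nonneg_left _ (by positivity)
        nlinarith
      linarith
    have h5 : E * Q ^ 2 ≤ 8 * σ * D ^ 2 / A₁ := by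
      rw [le_div_iff₀ hA₁]
      linarith
    have h6 : 8 * σ * D ^ 2 / A₁ = 4 * (σ * (2 * (D ^ 2 / A₁))) := by ring
    have h7 := mul_le_mul_of_nonneg_left hb hσ.le
    linarith
  calc g ^ 2 / (σ * b) ^ 2 * Q ^ 2 ≤ (E * (σ * b)) / (σ * b) ^ 2 * Q ^ 2 := by
        apply mul_le_mul_of_nonneg_right _ (sq_nonneg _)
        exact div_le_div_of_nonneg_right hg (sq_nonneg _)
    _ = E * Q ^ 2 / (σ * b) := by
        field_simp
    _ ≤ 2 ^ 2 := by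
        rw [div_le_iff₀ hσb]
        linarith

theorem par_f3 {Q σ A₀ A₁ R D b : ℝ} (hQ : 1 ≤ Q) (hσ : 0 < σ) (hA₀ : 0 < A₀) (hA₁ : 0 < A₁)
    (hA : 16 * Q ^ 4 ≤ A₀ ^ 2 * σ)
    (hR : R = Q ^ 2 * A₁ / (2 * A₀ ^ 2 * σ)) (hD : 1 ≤ D)
    (hb : b = 2 * (D ^ 2 / A₁ + D / A₀)) (h3 : 600 * A₁ ≤ A₀ * D) :
    24 * R ≤ 2 * (7 * D / 8) ^ 2 / (b * Q ^ 2) := by
  have hD0 : 0 < D := by linarith
  have hb0 : 0 < b := by rw [hb]; positivity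
  rw [le_div_iff₀ (by positivity)]
  have h4 : R * (32 * Q ^ 2) ≤ A₁ := by
    rw [hR, div_mul_eq_mul_div, div_le_iff₀ (by positivity)]
    have := mul_le_mul_of_nonneg_right hA hA₁.le
    nlinarith
  have h5 : b * A₁ ≤ 2 * D ^ 2 * (601 / 600) := by
    have e : b * A₁ = 2 * D ^ 2 + 2 * D * A₁ / A₀ := by
      rw [hb]; field_simp
    have h6 : 2 * D * A₁ / A₀ ≤ 2 * D ^ 2 / 600 := by
      rw [div_le_iff₀ hA₀]
      have := mul_le_mul_of_nonneg_left h3 hD0.le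
      nlinarith
    rw [e]
    linarith
  have h7 : 24 * R * (b * Q ^ 2) = 24 / 32 * (R * (32 * Q ^ 2)) * b := by ring
  rw [h7]
  have h8 : 24 / 32 * (R * (32 * Q ^ 2)) * b ≤ 24 / 32 * A₁ * b := by
    apply mul_le_mul_of_nonneg_right _ hb0.le
    linarith
  have h9 : 24 / 32 * A₁ * b = 24 / 32 * (b * A₁) := by ring
  rw [h9] at h8
  nlinarith [sq_nonneg D]

theorem par_cosh {x : ℝ} (hx : x ^ 2 ≤ 1 / 600) : Real.cosh x ≤ 1 + 1 / 600 := by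
  have h1 := Real.cosh_le_exp_half_sq x
  have hx0 := sq_nonneg x
  have h2 : Real.exp (x ^ 2 / 2) ≤ 1 + x ^ 2 := by
    have h3 := Real.add_one_le_exp (-(x ^ 2 / 2))
    have h4 : Real.exp (x ^ 2 / 2) * Real.exp (-(x ^ 2 / 2)) = 1 := by
      rw [← Real.exp_add]; simp
    have h5 := Real.exp_pos (x ^ 2 / 2)
    have h6 : Real.exp (x ^ 2 / 2) * (1 - x ^ 2 / 2) ≤ 1 := by
      calc _ ≤ Real.exp (x ^ 2 / 2) * Real.exp (-(x ^ 2 / 2)) :=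
            mul_le_mul_of_nonneg_left (by linarith) h5.le
        _ = 1 := h4
    have h7 : 1 ≤ (1 + x ^ 2) * (1 - x ^ 2 / 2) := by nlinarith
    by_contra hc
    rw [not_le] at hc
    have h8 : 0 < 1 - x ^ 2 / 2 := by linarith
    have := mul_lt_mul_of_pos_right hc h8
    linarith
  linarith

theorem par_f4 {Q σ A₀ A₁ R ϑ D b : ℝ} (hQ : 1 ≤ Q) (hσ : 0 < σ) (hA₀ : 0 < A₀) (hA₁ : 0 < A₁)
    (hR : R = Q ^ 2 * A₁ / (2 * A₀ ^ 2 * σ)) (hR1 : 1 ≤ R)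
    (hϑ : ϑ = 17 / 10 * Q * A₁ / (2 * A₀ * σ)) (hD : 1 ≤ D)
    (hb : b = 2 * (D ^ 2 / A₁ + D / A₀)) (h3 : 600 * A₁ ≤ A₀ * D)
    (h4 : 600 * (ϑ ^ 2 * (Q ^ 2 / 4)) ≤ D) :
    R / 4 ≤ ϑ / D * (Q * D / A₀ + 1) -
      σ * (ϑ / D) ^ 2 * b / 2 * Real.cosh (ϑ / D * (Q / 2)) ∧
    289 / 200 * R ≤ σ * (ϑ / D) ^ 2 * b / 2 := by
  have hD0 : 0 < D := by linarith
  have hϑ0 : 0 < ϑ := by rw [hϑ]; positivity
  have hb0 : 0 < b := by rw [hb]; positivity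
  have e1 : ϑ / D * (Q * D / A₀ + 1) = 17 / 10 * R + ϑ / D := by
    have : ϑ / D * (Q * D / A₀ + 1) = ϑ * Q / A₀ + ϑ / D := by field_simp
    rw [this, hR]
    congr 1
    rw [hϑ]
    field_simp
  have e2 : σ * (ϑ / D) ^ 2 * b / 2 = 289 / 200 * R * (1 + A₁ / (A₀ * D)) := by
    have : σ * (ϑ / D) ^ 2 * b / 2 = σ * ϑ ^ 2 / A₁ * (1 + A₁ / (A₀ * D)) := by
      rw [hb]; field_simp
    rw [this]
    congr 1
    rw [hR, hϑ]
    field_simp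
    ring
  have h5 : A₁ / (A₀ * D) ≤ 1 / 600 := by
    rw [div_le_iff₀ (by positivity)]
    linarith
  have h5' : 0 < A₁ / (A₀ * D) := by positivity
  have h6 : Real.cosh (ϑ / D * (Q / 2)) ≤ 1 + 1 / 600 := by
    apply par_cosh
    have e3 : (ϑ / D * (Q / 2)) ^ 2 = ϑ ^ 2 * (Q ^ 2 / 4) / D ^ 2 := by
      field_simp
      ring
    rw [e3, div_le_iff₀ (by positivity)]
    have h7 : D ≤ D ^ 2 := by nlinarith
    linarith
  have h7 : 0 < Real.cosh (ϑ / D * (Q / 2)) := Real.cosh_pos _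
  constructor
  · rw [e1, e2]
    have h8 : 289 / 200 * R * (1 + A₁ / (A₀ * D)) ≤ 289 / 200 * R * (1 + 1 / 600) := by
      apply mul_le_mul_of_nonneg_left _ (by positivity)
      linarith
    have h9 : 289 / 200 * R * (1 + A₁ / (A₀ * D)) * Real.cosh (ϑ / D * (Q / 2)) ≤
        289 / 200 * R * (1 + 1 / 600) * (1 + 1 / 600) :=
      mul_le_mul h8 h6 h7.le (by positivity)
    have h10 : 0 < ϑ / D := by positivity
    nlinarith
  · rw [e2]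
    have : 0 < R * (A₁ / (A₀ * D)) := by positivity
    nlinarith

theorem par_f5 {σ R s : ℝ} {b : ℕ} (hσ : 0 < σ) (hR : 1 ≤ R)
    (hx : σ * s ^ 2 / 2 ≤ 1 / 300) (h : 289 / 200 * R ≤ σ * s ^ 2 * b / 2) :
    Real.exp (36 / 25 * R) ≤ (1 + σ * s ^ 2 / 2) ^ b := by
  obtain ⟨x, hxdef⟩ : ∃ x : ℝ, x = σ * s ^ 2 / 2 := ⟨_, rfl⟩
  have hx0 : 0 ≤ x := by rw [hxdef]; positivity
  rw [← hxdef] at hx ⊢
  have h1 : Real.exp (x / (1 + x)) ≤ 1 + x := by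
    have h2 := Real.add_one_le_exp (-(x / (1 + x)))
    have h3 : -(x / (1 + x)) + 1 = (1 + x)⁻¹ := by
      have : (1 : ℝ) + x ≠ 0 := by positivity
      field_simp
      ring
    rw [h3, Real.exp_neg] at h2
    exact (inv_le_inv₀ (by positivity) (Real.exp_pos _)).1 h2
  calc Real.exp (36 / 25 * R) ≤ Real.exp (b * (x / (1 + x))) := by
        apply Real.exp_le_exp.2
        have h4 : (b : ℝ) * x = σ * s ^ 2 * b / 2 := by rw [hxdef]; ring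
        have h5 : (b : ℝ) * (x / (1 + x)) = (b * x) / (1 + x) := by ring
        rw [h5, le_div_iff₀ (by positivity), h4]
        nlinarith
    _ = Real.exp (x / (1 + x)) ^ b := by rw [Real.exp_nat_mul]
    _ ≤ (1 + x) ^ b := pow_le_pow_left₀ (Real.exp_pos _).le h1 b

end Vale.Agent.P346q
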