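import Vale.Agent.Lib.P346q.ParamA

/-!
# P346 over a finite field: ball, tails and the main inequality (module PARAM)
-/

open Finset

namespace Vale.Agent.P346q

theorem par_cnt_le (q b l : ℕ) : cnt (Fin b) q l ≤ q ^ b := by
  unfold cnt
  refine (card_le_univ _).trans ?_
  simp

theorem par_exp3 : Real.exp (-3) ≤ 1 / 8 := by
  rw [Real.exp_neg, inv_le_comm₀ (Real.exp_pos _) (by norm_num)]
  have h1 : (2 : ℝ) ≤ Real.exp 1 := by
    have := Real.add_one_le_exp (1 : ℝ)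
    linarith
  have h2 : Real.exp 3 = Real.exp 1 ^ 3 := by
    rw [← Real.exp_nat_mul]; norm_num
  rw [h2]
  calc (1 / 8 : ℝ)⁻¹ = 2 ^ 3 := by norm_num
    _ ≤ _ := pow_le_pow_left₀ (by norm_num) h1 3

/-- the ball condition -/
theorem par_ball (q b l m : ℕ) (hq : 2 ≤ q) (hb : 1 ≤ b) {E g : ℝ} (hg : 0 < g)
    (hE : g ^ 2 ≤ E * (sg q * b)) (h2 : g / (sg q * b) * ((q : ℝ) - 1) ≤ 2)
    (hl : (b : ℝ) * (((q : ℝ) - 1) / 2) - g + √(2 * sg q * b) ≤ l)
    (hm : 12 * Real.exp E ≤ m) :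
    8 * (q ^ b - cnt (Fin b) q l) ^ m ≤ q ^ (b * m) := by
  have hσ := sg_pos q hq
  have hb' : (0 : ℝ) < b := by exact_mod_cast hb
  have hq' : (0 : ℝ) < q := by exact_mod_cast (by omega : 0 < q)
  have hσb : 0 < sg q * b := by positivity
  have h3 := cnt_lower q b l hq hb (g / (sg q * b)) (by positivity) h2 (by
    have : g / (sg q * b) * sg q * b = g := by field_simp
    rw [this]; exact hl)
  have h4 : (g / (sg q * b)) ^ 2 * sg q * b ≤ E := by
    have : (g / (sg q * b)) ^ 2 * sg q * b = g ^ 2 / (sg q * b) := by field_simp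
    rw [this, div_le_iff₀ hσb]; exact hE
  have hqb : (0 : ℝ) < (q : ℝ) ^ b := by positivity
  have h5 : (q : ℝ) ^ b / 4 * Real.exp (-E) ≤ cnt (Fin b) q l := by
    refine le_trans ?_ h3
    apply mul_le_mul_of_nonneg_left _ (by positivity)
    exact Real.exp_le_exp.2 (by linarith)
  have h6 := par_cnt_le q b l
  obtain ⟨d, hd⟩ : ∃ d : ℝ, d = (cnt (Fin b) q l : ℝ) / (q : ℝ) ^ b := ⟨_, rfl⟩
  have hcd : (cnt (Fin b) q l : ℝ) = (q : ℝ) ^ b * d := by rw [hd]; field_simp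
  have hd1 : Real.exp (-E) / 4 ≤ d := by
    rw [hd, le_div_iff₀ hqb]
    linarith
  have h7 : (((q ^ b - cnt (Fin b) q l : ℕ)) : ℝ) ≤ (q : ℝ) ^ b * Real.exp (-d) := by
    rw [Nat.cast_sub h6, Nat.cast_pow, hcd]
    have := Real.add_one_le_exp (-d)
    have h8 := mul_le_mul_of_nonneg_left this hqb.le
    linarith
  have h8 : (8 : ℝ) * (((q ^ b - cnt (Fin b) q l : ℕ)) : ℝ) ^ m ≤ (q : ℝ) ^ (b * m) := by
    calc (8 : ℝ) * (((q ^ b - cnt (Fin b) q l : ℕ)) : ℝ) ^ m ≤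
        8 * ((q : ℝ) ^ b * Real.exp (-d)) ^ m := by
          apply mul_le_mul_of_nonneg_left _ (by norm_num)
          exact pow_le_pow_left₀ (Nat.cast_nonneg _) h7 m
      _ = (q : ℝ) ^ (b * m) * (8 * Real.exp (m * -d)) := by
          rw [mul_pow, ← Real.exp_nat_mul, pow_mul]; ring
      _ ≤ (q : ℝ) ^ (b * m) * 1 := by
          apply mul_le_mul_of_nonneg_left _ (by positivity)
          have h9 : Real.exp (m * -d) ≤ Real.exp (-3) := by
            apply Real.exp_le_exp.2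
            have h10 : 3 ≤ m * d := by
              calc (3 : ℝ) = 12 * Real.exp E * (Real.exp (-E) / 4) := by
                    have : Real.exp E * Real.exp (-E) = 1 := by rw [← Real.exp_add]; simp
                    linear_combination (-3) * this
                _ ≤ m * d := mul_le_mul hm hd1 (by positivity) (Nat.cast_nonneg m)
            linarith
          have := par_exp3
          linarith
      _ = _ := mul_one _
  exact_mod_cast h8

/-- the tail condition -/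
theorem par_tails (q b D v m : ℕ) (hq : 2 ≤ q) (hb : 1 ≤ b) {W R : ℝ} (hW : 0 < W)
    (h1 : (D : ℝ) * (v - 1) ≤ b * (((q : ℝ) - 1) / 2) - W) (hv : 1 ≤ v)
    (h2 : (b : ℝ) * (((q : ℝ) - 1) / 2) + W ≤ D * (v + 1))
    (h3 : 24 * R ≤ 2 * W ^ 2 / (b * ((q : ℝ) - 1) ^ 2))
    (h4 : 16 * m * Real.exp (-(24 * R)) ≤ 1) :
    8 * m * tailCnt b q D v ≤ q ^ b := by
  have h5 := tailCnt_le q b D v hq hb W hW h1 hv h2
  have h6 : Real.exp (-(2 * W ^ 2) / (b * ((q : ℝ) - 1) ^ 2)) ≤ Real.exp (-(24 * R)) := by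
    apply Real.exp_le_exp.2
    rw [neg_div]
    linarith
  have h7 : (8 : ℝ) * m * tailCnt b q D v ≤ (q : ℝ) ^ b := by
    calc (8 : ℝ) * m * tailCnt b q D v ≤ 8 * m * (2 * q ^ b * Real.exp (-(24 * R))) := by
          apply mul_le_mul_of_nonneg_left _ (by positivity)
          refine h5.trans ?_
          exact mul_le_mul_of_nonneg_left h6 (by positivity)
      _ = (q : ℝ) ^ b * (16 * m * Real.exp (-(24 * R))) := by ring
      _ ≤ (q : ℝ) ^ b * 1 := mul_le_mul_of_nonneg_left h4 (by positivity)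
      _ = _ := mul_one _
  exact_mod_cast h7

theorem par_Zf_pos (q : ℕ) (hq : 2 ≤ q) (s : ℝ) : 0 < Zf q s := by
  unfold Zf
  apply sum_pos (fun a _ => Real.exp_pos _)
  exact nonempty_range_iff.2 (by omega)

/-- a block of `Λ` -/
theorem par_gainblock (q b l : ℕ) (hq : 2 ≤ q) {s R f : ℝ} (hs : 0 ≤ s)
    (hl : (l : ℝ) = ((q : ℝ) - 1) / 2 * b - f)
    (h : R / 4 ≤ s * f - sg q * s ^ 2 * b / 2 * Real.cosh (s * (((q : ℝ) - 1) / 2))) :
    Zf q s ^ b * (Real.exp (R / 4) / 4) * Real.exp (s * l) ≤ (q : ℝ) ^ b / 4 := by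
  have h1 := Zf_upper q (by omega) s hs
  have h2 := pow_le_pow_left₀ (par_Zf_pos q hq s).le h1 b
  rw [mul_pow, ← Real.exp_nat_mul] at h2
  calc Zf q s ^ b * (Real.exp (R / 4) / 4) * Real.exp (s * l) ≤
      ((q : ℝ) ^ b * Real.exp (b * (-s * (((q : ℝ) - 1) / 2)
      + sg q * s ^ 2 / 2 * Real.cosh (s * (((q : ℝ) - 1) / 2))))) * (Real.exp (R / 4) / 4) *
        Real.exp (s * l) := by
        apply mul_le_mul_of_nonneg_right _ (Real.exp_pos _).le
        exact mul_le_mul_of_nonneg_right h2 (by positivity)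
    _ = (q : ℝ) ^ b / 4 * Real.exp (b * (-s * (((q : ℝ) - 1) / 2)
      + sg q * s ^ 2 / 2 * Real.cosh (s * (((q : ℝ) - 1) / 2))) + R / 4 + s * l) := by
        rw [Real.exp_add, Real.exp_add]; ring
    _ ≤ (q : ℝ) ^ b / 4 * 1 := by
        apply mul_le_mul_of_nonneg_left _ (by positivity)
        apply Real.exp_le_one_iff.2
        rw [hl]
        nlinarith
    _ = _ := mul_one _

/-- the other blocks -/
theorem par_otherblock (q b h : ℕ) (hq : 2 ≤ q) {s R : ℝ} (hs : 0 ≤ s)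
    (hh : (h : ℝ) + 1 = ((q : ℝ) - 1) / 2 * b)
    (h5 : Real.exp (36 / 25 * R) ≤ (1 + sg q * s ^ 2 / 2) ^ b) :
    Zf q s ^ b * (1 - Real.exp (-(36 / 25 * R))) ≤ Zl q b h s := by
  have hσ := sg_pos q hq
  have h1 := Zf_lower q (by omega) s hs
  have h2 := pow_le_pow_left₀ (by positivity) h1 b
  rw [mul_pow, mul_pow, ← Real.exp_nat_mul] at h2
  have h3 : (q : ℝ) ^ b * Real.exp (-s * (h + 1)) * Real.exp (36 / 25 * R) ≤ Zf q s ^ b := by
    refine le_trans ?_ h2
    have e1 : -s * ((h : ℝ) + 1) = b * (-s * (((q : ℝ) - 1) / 2)) := by rw [hh]; ring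
    rw [e1]
    exact mul_le_mul_of_nonneg_left h5 (by positivity)
  have h4 : (q : ℝ) ^ b * Real.exp (-s * (h + 1)) ≤ Zf q s ^ b * Real.exp (-(36 / 25 * R)) := by
    calc (q : ℝ) ^ b * Real.exp (-s * (h + 1)) =
        ((q : ℝ) ^ b * Real.exp (-s * (h + 1)) * Real.exp (36 / 25 * R)) *
          Real.exp (-(36 / 25 * R)) := by
          rw [mul_assoc, ← Real.exp_add]; simp
      _ ≤ _ := mul_le_mul_of_nonneg_right h3 (Real.exp_pos _).le
  have h6 := Zl_lower q b h s hs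
  linarith

theorem par_oneminus {π : ℝ} (h0 : 0 ≤ π) (h1 : π ≤ 1 / 4) : Real.exp (-(2 * π)) ≤ 1 - π := by
  have h2 := Real.add_one_le_exp (2 * π)
  have h3 : Real.exp (2 * π) * Real.exp (-(2 * π)) = 1 := by rw [← Real.exp_add]; simp
  have h4 := Real.exp_pos (-(2 * π))
  have h5 : (1 + 2 * π) * Real.exp (-(2 * π)) ≤ 1 := by
    calc _ ≤ Real.exp (2 * π) * Real.exp (-(2 * π)) :=
          mul_le_mul_of_nonneg_right (by linarith) h4.le
      _ = 1 := h3
  have h6 : 1 ≤ (1 + 2 * π) * (1 - π) := by nlinarith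
  by_contra hc
  rw [not_le] at hc
  have := mul_lt_mul_of_pos_left hc (by linarith : (0 : ℝ) < 1 + 2 * π)
  linarith

end Vale.Agent.P346q
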