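import Vale.Agent.Lib.P346q.ParamB

/-!
# P346 over a finite field: the main inequality (module PARAM)
-/

open Finset

namespace Vale.Agent.P346q

theorem par_lhs (q b h K K₁ l m P : ℕ) {s R : ℝ} (hq : 2 ≤ q) (hm : 1 ≤ m) (hP1 : 1 ≤ P)
    (hK1 : 1 ≤ K₁) (hK : K = m * (P * K₁))
    (hgain : Zf q s ^ b * (Real.exp (R / 4) / 4) * Real.exp (s * l) ≤ (q : ℝ) ^ b / 4)
    (hother : Zf q s ^ b * (1 - Real.exp (-(36 / 25 * R))) ≤ Zl q b h s)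
    (h4 : 4 * m * P * Real.exp (-(36 / 25 * R)) ≤ 1) :
    ((m : ℝ) * P * (Real.exp (R / 4) / 4)) ^ K₁ * Real.exp (-(K₁ / 2)) *
        Real.exp (s * (K₁ * l)) * Zf q s ^ (K * b) ≤
      (K.choose K₁ : ℝ) * ((q : ℝ) ^ b / 4) ^ K₁ * Zl q b h s ^ (K - K₁) := by
  have hz : 0 < Zf q s ^ b := pow_pos (par_Zf_pos q hq s) b
  obtain ⟨z, hzdef⟩ : ∃ z : ℝ, z = Zf q s ^ b := ⟨_, rfl⟩
  obtain ⟨π, hπ⟩ : ∃ π : ℝ, π = Real.exp (-(36 / 25 * R)) := ⟨_, rfl⟩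
  obtain ⟨G, hG⟩ : ∃ G : ℝ, G = Real.exp (R / 4) / 4 := ⟨_, rfl⟩
  rw [← hzdef] at hz hgain hother
  rw [← hπ] at hother h4
  rw [← hG] at hgain ⊢
  have hG0 : 0 < G := by rw [hG]; positivity
  have hπ0 : 0 < π := by rw [hπ]; exact Real.exp_pos _
  have hm' : (1 : ℝ) ≤ m := by exact_mod_cast hm
  have hP' : (1 : ℝ) ≤ P := by exact_mod_cast hP1
  have hK1' : (1 : ℝ) ≤ K₁ := by exact_mod_cast hK1
  have hmP : (1 : ℝ) ≤ m * P := by nlinarith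
  have hπ1 : π ≤ 1 / 4 := by nlinarith
  have hKK : K₁ ≤ K := by
    rw [hK]
    calc K₁ = 1 * (1 * K₁) := by ring
      _ ≤ _ := Nat.mul_le_mul hm (Nat.mul_le_mul_right _ hP1)
  have e0 : (K : ℝ) = m * P * K₁ := by rw [hK]; push_cast; ring
  have h1 : ((m : ℝ) * P) ^ K₁ ≤ K.choose K₁ := by
    have h := choose_ge K K₁ hK1 hKK
    have e1 : (K : ℝ) / K₁ = m * P := by
      rw [e0]; field_simp
    rwa [e1] at h
  have h2 : (z * G * Real.exp (s * l)) ^ K₁ ≤ ((q : ℝ) ^ b / 4) ^ K₁ :=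
    pow_le_pow_left₀ (by positivity) hgain _
  have h5 : 0 ≤ 1 - π := by linarith
  have h3 : (z * (1 - π)) ^ (K - K₁) ≤ Zl q b h s ^ (K - K₁) :=
    pow_le_pow_left₀ (by positivity) hother _
  have h6 : Real.exp (-((K₁ : ℝ) / 2)) ≤ (1 - π) ^ (K - K₁) := by
    refine le_trans ?_ (pow_le_pow_left₀ (Real.exp_pos _).le (par_oneminus hπ0.le hπ1) _)
    rw [← Real.exp_nat_mul]
    apply Real.exp_le_exp.2
    have h7 : ((K - K₁ : ℕ) : ℝ) ≤ K := by exact_mod_cast Nat.sub_le K K₁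
    have h8 : ((K - K₁ : ℕ) : ℝ) * (2 * π) ≤ K * (2 * π) :=
      mul_le_mul_of_nonneg_right h7 (by positivity)
    have h9 : (K : ℝ) * (2 * π) ≤ K₁ / 2 := by
      rw [e0]
      calc (m : ℝ) * P * K₁ * (2 * π) = K₁ / 2 * (4 * m * P * π) := by ring
        _ ≤ K₁ / 2 * 1 := mul_le_mul_of_nonneg_left h4 (by positivity)
        _ = _ := mul_one _
    linarith
  calc ((m : ℝ) * P * G) ^ K₁ * Real.exp (-(K₁ / 2)) *
        Real.exp (s * (K₁ * l)) * Zf q s ^ (K * b) =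
      ((m : ℝ) * P) ^ K₁ * (z * G * Real.exp (s * l)) ^ K₁ *
        (z ^ (K - K₁) * Real.exp (-((K₁ : ℝ) / 2))) := by
        have e2 : Zf q s ^ (K * b) = z ^ K₁ * z ^ (K - K₁) := by
          rw [← pow_add, Nat.add_sub_cancel' hKK, hzdef, ← pow_mul, mul_comm K b]
        have e3 : Real.exp (s * (K₁ * l)) = Real.exp (s * l) ^ K₁ := by
          rw [← Real.exp_nat_mul]; congr 1; ring
        rw [e2, e3, mul_pow, mul_pow, mul_pow, mul_pow]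
        ring
    _ ≤ ((m : ℝ) * P) ^ K₁ * (z * G * Real.exp (s * l)) ^ K₁ *
        (z ^ (K - K₁) * (1 - π) ^ (K - K₁)) := by
        apply mul_le_mul_of_nonneg_left _ (by positivity)
        exact mul_le_mul_of_nonneg_left h6 (by positivity)
    _ = ((m : ℝ) * P) ^ K₁ * (z * G * Real.exp (s * l)) ^ K₁ * (z * (1 - π)) ^ (K - K₁) := by
        rw [← mul_pow z (1 - π)]
    _ ≤ (K.choose K₁ : ℝ) * ((q : ℝ) ^ b / 4) ^ K₁ * Zl q b h s ^ (K - K₁) := by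
        apply mul_le_mul _ h3 (by positivity) (by positivity)
        exact mul_le_mul h1 h2 (by positivity) (by positivity)

theorem par_groups (q n K₁ t B m P D : ℕ) {pp : ℝ} (hq : 2 ≤ q) (hm : 1 ≤ m)
    (hpp : 1 ≤ pp) (hK1 : 1 ≤ K₁) (hD : D = P * K₁) (hP1 : 1 ≤ P)
    (ht : t = (q - 1) * (B * K₁)) (hB8 : (8 : ℝ) ≤ B) (hBP : (B : ℝ) ≤ P)
    (hn : (n : ℝ) ≤ 16 * m * q ^ 2 * pp ^ 2 * D ^ 2)
    (hn' : t * K₁ ≤ 2 * n) :
    (fewSub (2 * n / t + 1) K₁ : ℝ) ≤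
      (Real.exp 1 * (48 * m * q ^ 2 * pp ^ 2 * P ^ 2 / (((q : ℝ) - 1) * B))) ^ K₁ := by
  have hm' : (1 : ℝ) ≤ m := by exact_mod_cast hm
  have hP' : (1 : ℝ) ≤ P := by exact_mod_cast hP1
  have hK1' : (1 : ℝ) ≤ K₁ := by exact_mod_cast hK1
  have hq' : (2 : ℝ) ≤ q := by exact_mod_cast hq
  obtain ⟨Q, hQ⟩ : ∃ Q : ℝ, Q = (q : ℝ) - 1 := ⟨_, rfl⟩
  have hqQ : ((q - 1 : ℕ) : ℝ) = Q := by
    rw [Nat.cast_sub (by omega), hQ]; simp
  rw [← hQ]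
  have hQ1 : 1 ≤ Q := by linarith
  have hDr : (D : ℝ) = P * K₁ := by rw [hD]; push_cast; ring
  have hD0 : (0 : ℝ) < D := by rw [hDr]; positivity
  have htr : (t : ℝ) = Q * (B * K₁) := by
    rw [ht]; push_cast; rw [hqQ]
  have ht0 : (0 : ℝ) < t := by rw [htr]; positivity
  have ht0' : 0 < t := by exact_mod_cast ht0
  have hr1 : K₁ ≤ 2 * n / t + 1 := by
    have : K₁ ≤ 2 * n / t := (Nat.le_div_iff_mul_le ht0').2 (by rw [mul_comm]; exact hn')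
    omega
  have hr2 : ((2 * n / t + 1 : ℕ) : ℝ) / K₁ ≤ 48 * m * q ^ 2 * pp ^ 2 * P ^ 2 / (Q * B) := by
    have h1 : ((2 * n / t : ℕ) : ℝ) ≤ 2 * n / t := by
      have := @Nat.cast_div_le ℝ _ _ _ (2 * n) t
      push_cast at this ⊢
      exact this
    have h2 : (2 * (n : ℝ) / t) / K₁ ≤ 32 * m * q ^ 2 * pp ^ 2 * P ^ 2 / (Q * B) := by
      rw [div_div, div_le_div_iff₀ (by positivity) (by positivity), htr]
      have h3 : (n : ℝ) ≤ 16 * m * q ^ 2 * pp ^ 2 * (P * K₁) ^ 2 := by rw [← hDr]; exact hn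
      have h4 := mul_le_mul_of_nonneg_right h3 (by positivity : 0 ≤ 2 * (Q * (B : ℝ)))
      calc 2 * (n : ℝ) * (Q * B) = n * (2 * (Q * B)) := by ring
        _ ≤ _ := h4
        _ = _ := by ring
    have h5 : (1 : ℝ) ≤ 16 * m * q ^ 2 * pp ^ 2 * P ^ 2 / (Q * B) := by
      rw [le_div_iff₀ (by positivity)]
      have h6 : Q * B ≤ q * P := mul_le_mul (by linarith) hBP (by positivity) (by positivity)
      have h7 : (q : ℝ) * P ≤ 16 * m * q ^ 2 * pp ^ 2 * P ^ 2 := by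
        calc (q : ℝ) * P = 1 * 1 * (q * 1) * 1 * (P * 1) := by ring
          _ ≤ 16 * m * (q * q) * pp ^ 2 * (P * P) := by
            have h8 : (1 : ℝ) ≤ pp ^ 2 := one_le_pow₀ hpp
            have h9 : (q : ℝ) * 1 ≤ q * q := mul_le_mul_of_nonneg_left (by linarith) (by linarith)
            have h10 : (P : ℝ) * 1 ≤ P * P := mul_le_mul_of_nonneg_left hP' (by linarith)
            have h11 : (1 : ℝ) * 1 ≤ 16 * m := by linarith
            exact mul_le_mul (mul_le_mul (mul_le_mul h11 h9 (by positivity) (by positivity)) h8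
              (by norm_num) (by positivity)) h10 (by positivity) (by positivity)
          _ = _ := by ring
      linarith
    have h6 : ((2 * n / t + 1 : ℕ) : ℝ) / K₁ ≤ (2 * (n : ℝ) / t) / K₁ + 1 := by
      push_cast
      rw [add_div]
      have h7 : (1 : ℝ) / K₁ ≤ 1 := by
        rw [div_le_one (by linarith)]; exact hK1'
      have h8 : ((2 * n / t : ℕ) : ℝ) / K₁ ≤ (2 * (n : ℝ) / t) / K₁ :=
        div_le_div_of_nonneg_right h1 (by linarith)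
      linarith
    calc _ ≤ _ := h6
      _ ≤ 32 * m * q ^ 2 * pp ^ 2 * P ^ 2 / (Q * B) +
          16 * m * q ^ 2 * pp ^ 2 * P ^ 2 / (Q * B) := add_le_add h2 h5
      _ = _ := by ring
  refine (fewSub_le _ K₁ hK1 hr1).trans ?_
  apply pow_le_pow_left₀ (by positivity)
  rw [mul_div_assoc]
  exact mul_le_mul_of_nonneg_left hr2 (Real.exp_pos _).le

theorem par_T1 (q K₁ l t B P D : ℕ) {s ϑ Q : ℝ} (hQ : 1 ≤ Q) (hqQ : ((q - 1 : ℕ) : ℝ) = Q)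
    (hK1' : (1 : ℝ) ≤ K₁) (hDr : (D : ℝ) = P * K₁) (hP' : (1 : ℝ) ≤ P)
    (ht : t = (q - 1) * (B * K₁)) (hs : s = ϑ / D) (hϑ : 0 < ϑ) (hB0 : (0 : ℝ) < B)
    (hP : (1 + ϑ * Q) * B ≤ P) :
    Real.exp (s * ((K₁ * l + K₁ * t : ℕ) : ℝ)) ≤ Real.exp (s * (K₁ * l)) * Real.exp K₁ := by
  have htr : (t : ℝ) = Q * (B * K₁) := by
    rw [ht]; push_cast; rw [hqQ]
  have hst : s * t ≤ 1 := by
    rw [hs, htr, hDr]
    have e1 : ϑ / (P * K₁) * (Q * (B * K₁)) = ϑ * Q * B / P := by field_simp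
    rw [e1, div_le_one (by linarith)]
    linarith
  rw [← Real.exp_add]
  apply Real.exp_le_exp.2
  push_cast
  have := mul_le_mul_of_nonneg_left hst (by linarith : (0 : ℝ) ≤ K₁)
  linarith

theorem par_T2 (q K₁ l τ B D : ℕ) {s ϑ Q : ℝ} (hq : 2 ≤ q) (hQ : 1 ≤ Q)
    (hqQ : ((q - 1 : ℕ) : ℝ) = Q) (hD0 : (0 : ℝ) < D)
    (hτ : τ = B * K₁) (hs : s = ϑ / D) (hϑ : 0 < ϑ)
    (hB : 4 * q * (1 + ϑ * Q) ≤ B) :
    fewZeros q τ K₁ / (q : ℝ) ^ (τ + 1)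
      * Real.exp (s * ((K₁ * l + K₁ * ((q - 1) * D) : ℕ) : ℝ)) ≤ Real.exp (s * (K₁ * l)) := by
  have hq' : (0 : ℝ) < q := by exact_mod_cast (by omega : 0 < q)
  have h1 := fewZeros_le q τ K₁ hq
  have h2 : (fewZeros q τ K₁ : ℝ) / (q : ℝ) ^ (τ + 1) ≤
      Real.exp (K₁ - (τ + 1) / (2 * q)) := by
    rw [div_le_iff₀ (by positivity), mul_comm]
    exact h1
  calc _ ≤ Real.exp (K₁ - (τ + 1) / (2 * q)) *
        Real.exp (s * ((K₁ * l + K₁ * ((q - 1) * D) : ℕ) : ℝ)) :=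
        mul_le_mul_of_nonneg_right h2 (Real.exp_pos _).le
    _ = Real.exp (K₁ - (τ + 1) / (2 * q) + s * ((K₁ * l + K₁ * ((q - 1) * D) : ℕ) : ℝ)) := by
        rw [Real.exp_add]
    _ ≤ _ := by
        apply Real.exp_le_exp.2
        push_cast
        rw [hqQ]
        have e1 : s * (K₁ * l + K₁ * (Q * D)) = s * (K₁ * l) + ϑ * Q * K₁ := by
          rw [hs]; field_simp
        rw [e1]
        have h3 : 2 * (1 + ϑ * Q) * K₁ ≤ ((τ : ℝ) + 1) / (2 * q) := by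
          rw [le_div_iff₀ (by positivity), hτ]
          push_cast
          have := mul_le_mul_of_nonneg_right hB (Nat.cast_nonneg K₁ : (0 : ℝ) ≤ K₁)
          linarith
        have h4 : 0 ≤ ϑ * Q * K₁ := by positivity
        have h5 : (0 : ℝ) ≤ K₁ := Nat.cast_nonneg K₁
        linarith

theorem par_rhs (q n K₁ l τ t B m P D : ℕ) {s ϑ pp : ℝ} (hq : 2 ≤ q) (hm : 1 ≤ m)
    (hpp : 1 ≤ pp) (hK1 : 1 ≤ K₁) (hD : D = P * K₁) (hP1 : 1 ≤ P) (hτ : τ = B * K₁)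
    (ht : t = (q - 1) * (B * K₁)) (hs : s = ϑ / D) (hϑ : 0 < ϑ)
    (hB : 4 * q * (1 + ϑ * ((q : ℝ) - 1)) ≤ B)
    (hP : (1 + ϑ * ((q : ℝ) - 1)) * B ≤ P)
    (hn : (n : ℝ) ≤ 16 * m * q ^ 2 * pp ^ 2 * D ^ 2)
    (hn' : t * K₁ ≤ 2 * n) :
    fewSub (2 * n / t + 1) K₁ * Real.exp (s * ((K₁ * l + K₁ * t : ℕ) : ℝ))
        + fewZeros q τ K₁ / (q : ℝ) ^ (τ + 1)
          * Real.exp (s * ((K₁ * l + K₁ * ((q - 1) * D) : ℕ) : ℝ)) ≤
      2 * (Real.exp 2 * (48 * m * q ^ 2 * pp ^ 2 * P ^ 2 / (((q : ℝ) - 1) * B))) ^ K₁ *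
        Real.exp (s * (K₁ * l)) := by
  have hP' : (1 : ℝ) ≤ P := by exact_mod_cast hP1
  have hK1' : (1 : ℝ) ≤ K₁ := by exact_mod_cast hK1
  have hq' : (2 : ℝ) ≤ q := by exact_mod_cast hq
  have hqQ : ((q - 1 : ℕ) : ℝ) = (q : ℝ) - 1 := by
    rw [Nat.cast_sub (by omega)]; simp
  have hQ1 : 1 ≤ (q : ℝ) - 1 := by linarith
  have hϑQ : 0 < ϑ * ((q : ℝ) - 1) := by positivity
  have hB8 : (8 : ℝ) ≤ B := by
    have h1 : 4 * (q : ℝ) * 1 ≤ 4 * q * (1 + ϑ * ((q : ℝ) - 1)) :=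
      mul_le_mul_of_nonneg_left (by linarith) (by linarith)
    linarith
  have hDr : (D : ℝ) = P * K₁ := by rw [hD]; push_cast; ring
  have hD0 : (0 : ℝ) < D := by rw [hDr]; positivity
  have hBP : (B : ℝ) ≤ P := by
    have h1 : 1 * (B : ℝ) ≤ (1 + ϑ * ((q : ℝ) - 1)) * B :=
      mul_le_mul_of_nonneg_right (by linarith) (by linarith)
    linarith
  have hfs := par_groups q n K₁ t B m P D hq hm hpp hK1 hD hP1 ht hB8 hBP hn hn'
  have hfs1 : (1 : ℝ) ≤ fewSub (2 * n / t + 1) K₁ := by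
    exact_mod_cast one_le_fewSub _ _
  have hT1 := par_T1 q K₁ l t B P D hQ1 hqQ hK1' hDr hP' ht hs hϑ (by linarith) hP
  have hT2 := par_T2 q K₁ l τ B D hq hQ1 hqQ hD0 hτ hs hϑ hB
  obtain ⟨Y, hY⟩ : ∃ Y : ℝ, Y = 48 * m * q ^ 2 * pp ^ 2 * P ^ 2 / (((q : ℝ) - 1) * B) := ⟨_, rfl⟩
  rw [← hY] at hfs ⊢
  obtain ⟨N, hN⟩ : ∃ N : ℝ, N = fewSub (2 * n / t + 1) K₁ := ⟨_, rfl⟩
  rw [← hN] at hfs hfs1 ⊢
  have h3 := Real.exp_pos (s * (K₁ * l))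
  calc N * Real.exp (s * ((K₁ * l + K₁ * t : ℕ) : ℝ))
        + fewZeros q τ K₁ / (q : ℝ) ^ (τ + 1)
          * Real.exp (s * ((K₁ * l + K₁ * ((q - 1) * D) : ℕ) : ℝ)) ≤
      N * (Real.exp (s * (K₁ * l)) * Real.exp K₁) + Real.exp (s * (K₁ * l)) :=
        add_le_add (mul_le_mul_of_nonneg_left hT1 (by linarith)) hT2
    _ = (N * Real.exp K₁ + 1) * Real.exp (s * (K₁ * l)) := by ring
    _ ≤ (2 * (N * Real.exp K₁)) * Real.exp (s * (K₁ * l)) := by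
        apply mul_le_mul_of_nonneg_right _ h3.le
        have h1 : (1 : ℝ) ≤ Real.exp K₁ := Real.one_le_exp (by linarith)
        have h2 : (1 : ℝ) ≤ N * Real.exp K₁ := by
          calc (1 : ℝ) = 1 * 1 := by ring
            _ ≤ _ := mul_le_mul hfs1 h1 (by norm_num) (by linarith)
        linarith
    _ ≤ (2 * ((Real.exp 1 * Y) ^ K₁ * Real.exp K₁)) * Real.exp (s * (K₁ * l)) := by
        apply mul_le_mul_of_nonneg_right _ h3.le
        apply mul_le_mul_of_nonneg_left _ (by norm_num)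
        exact mul_le_mul_of_nonneg_right hfs (Real.exp_pos _).le
    _ = _ := by
        have e1 : Real.exp (K₁ : ℝ) = Real.exp 1 ^ K₁ := by
          rw [← Real.exp_nat_mul, mul_one]
        have e2 : Real.exp 2 = Real.exp 1 * Real.exp 1 := by
          rw [← Real.exp_add]; norm_num
        have e3 : (Real.exp 1 * Y) ^ K₁ * Real.exp K₁ = (Real.exp 2 * Y) ^ K₁ := by
          rw [e1, e2, ← mul_pow]
          congr 1
          ring
        rw [e3]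

theorem par_final (q b h n K K₁ l τ t B m P D : ℕ) {s R ϑ pp : ℝ} (hq : 2 ≤ q) (hm : 1 ≤ m)
    (hpp : 1 ≤ pp) (hK1 : 1 ≤ K₁) (hD : D = P * K₁) (hK : K = m * D) (hP1 : 1 ≤ P)
    (hτ : τ = B * K₁) (ht : t = (q - 1) * (B * K₁)) (hs : s = ϑ / D) (hϑ : 0 < ϑ)
    (hgain : Zf q s ^ b * (Real.exp (R / 4) / 4) * Real.exp (s * l) ≤ (q : ℝ) ^ b / 4)
    (hother : Zf q s ^ b * (1 - Real.exp (-(36 / 25 * R))) ≤ Zl q b h s)
    (hB : 4 * q * (1 + ϑ * ((q : ℝ) - 1)) ≤ B)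
    (hP : (1 + ϑ * ((q : ℝ) - 1)) * B ≤ P)
    (h4 : 4 * m * P * Real.exp (-(36 / 25 * R)) ≤ 1)
    (hg : 48 * Real.exp (9 / 2) * q ^ 2 * pp ^ 2 * P ≤
      (Real.exp (R / 4) / 4) * ((q : ℝ) - 1) * B)
    (hn : (n : ℝ) ≤ 16 * m * q ^ 2 * pp ^ 2 * D ^ 2)
    (hn' : t * K₁ ≤ 2 * n) (S : ℝ) (hS : 0 ≤ S)
    (hmain : (K.choose K₁ : ℝ) * ((q : ℝ) ^ b / 4) ^ K₁ * Zl q b h s ^ (K - K₁)
            ≤ S * (fewSub (2 * n / t + 1) K₁
                * Real.exp (s * ((K₁ * l + K₁ * t : ℕ) : ℝ))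
              + fewZeros q τ K₁ / (q : ℝ) ^ (τ + 1)
                * Real.exp (s * ((K₁ * l + K₁ * ((q - 1) * D) : ℕ) : ℝ)))
              * Zf q s ^ (K * b)) : Real.exp K₁ ≤ S := by
  have hm' : (1 : ℝ) ≤ m := by exact_mod_cast hm
  have hP' : (1 : ℝ) ≤ P := by exact_mod_cast hP1
  have hK1' : (1 : ℝ) ≤ K₁ := by exact_mod_cast hK1
  have hq' : (2 : ℝ) ≤ q := by exact_mod_cast hq
  have h1 := par_lhs q b h K K₁ l m P hq hm hP1 hK1 (by rw [hK, hD]) hgain hother h4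
  have h2 := par_rhs q n K₁ l τ t B m P D hq hm hpp hK1 hD hP1 hτ ht hs hϑ hB hP hn hn'
  have hzp : 0 < Zf q s ^ (K * b) := pow_pos (par_Zf_pos q hq s) _
  obtain ⟨Y, hY⟩ : ∃ Y : ℝ, Y = 48 * m * q ^ 2 * pp ^ 2 * P ^ 2 / (((q : ℝ) - 1) * B) := ⟨_, rfl⟩
  rw [← hY] at h2
  have hQ0 : (0 : ℝ) < (q : ℝ) - 1 := by linarith
  have hB0 : (0 : ℝ) < B := lt_of_lt_of_le (by positivity) hB
  have hY0 : 0 < Y := by rw [hY]; positivity
  have h3 : ((m : ℝ) * P * (Real.exp (R / 4) / 4)) ^ K₁ * Real.exp (-(K₁ / 2)) *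
        Real.exp (s * (K₁ * l)) * Zf q s ^ (K * b) ≤
      S * (2 * (Real.exp 2 * Y) ^ K₁ * Real.exp (s * (K₁ * l))) * Zf q s ^ (K * b) := by
    refine h1.trans (hmain.trans ?_)
    apply mul_le_mul_of_nonneg_right _ hzp.le
    exact mul_le_mul_of_nonneg_left h2 hS
  have h5 : Real.exp (9 / 2) * Y ≤ (m : ℝ) * P * (Real.exp (R / 4) / 4) := by
    rw [hY, ← mul_div_assoc, div_le_iff₀ (by positivity)]
    have := mul_le_mul_of_nonneg_left hg (by positivity : (0 : ℝ) ≤ m * P)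
    calc Real.exp (9 / 2) * (48 * m * q ^ 2 * pp ^ 2 * P ^ 2) =
        m * P * (48 * Real.exp (9 / 2) * q ^ 2 * pp ^ 2 * P) := by ring
      _ ≤ _ := this
      _ = _ := by ring
  have h6 : (Real.exp (9 / 2) * Y) ^ K₁ * Real.exp (-(K₁ / 2)) * Real.exp (s * (K₁ * l)) *
      Zf q s ^ (K * b) ≤
      S * (2 * (Real.exp 2 * Y) ^ K₁ * Real.exp (s * (K₁ * l))) * Zf q s ^ (K * b) := by
    refine le_trans ?_ h3
    apply mul_le_mul_of_nonneg_right _ hzp.le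
    apply mul_le_mul_of_nonneg_right _ (Real.exp_pos _).le
    apply mul_le_mul_of_nonneg_right _ (Real.exp_pos _).le
    exact pow_le_pow_left₀ (by positivity) h5 _
  have e1 : (Real.exp (9 / 2) * Y) ^ K₁ * Real.exp (-(K₁ / 2)) =
      Real.exp (2 * K₁) * (Real.exp 2 * Y) ^ K₁ := by
    rw [mul_pow, mul_pow, ← Real.exp_nat_mul, ← Real.exp_nat_mul]
    have : Real.exp (K₁ * (9 / 2)) * Real.exp (-(K₁ / 2)) =
        Real.exp (2 * K₁) * Real.exp (K₁ * 2) := by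
      rw [← Real.exp_add, ← Real.exp_add]; congr 1; ring
    linear_combination (Y ^ K₁) * this
  rw [e1] at h6
  have h7 : 0 < (Real.exp 2 * Y) ^ K₁ * Real.exp (s * (K₁ * l)) * Zf q s ^ (K * b) := by
    positivity
  have h8 : Real.exp (2 * K₁) ≤ 2 * S := by
    apply le_of_mul_le_mul_right _ h7
    linarith
  have h9 : (2 : ℝ) ≤ Real.exp K₁ := by
    have := Real.add_one_le_exp (K₁ : ℝ)
    linarith
  have e2 : Real.exp (2 * K₁) = Real.exp K₁ * Real.exp K₁ := by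
    rw [← Real.exp_add]; congr 1; ring
  rw [e2] at h8
  nlinarith [Real.exp_pos (K₁ : ℝ)]

end Vale.Agent.P346q
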