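import Vale.Agent.Lib.P346q.ParamC

/-!
# P346 over a finite field: the conditions of `param` one by one (module PARAM)
-/

open Finset

namespace Vale.Agent.P346q

theorem par_condBall (q b l m : ℕ) {A₀ A₁ R D : ℝ} (hq : 2 ≤ q) (hA₀ : 0 < A₀) (hA₁ : 0 < A₁)
    (hR : R = ((q : ℝ) - 1) ^ 2 * A₁ / (2 * A₀ ^ 2 * sg q)) (hR1 : 1 ≤ R) (hD : 1 ≤ D)
    (hb : (b : ℝ) = 2 * (D ^ 2 / A₁ + D / A₀))
    (hl : (l : ℝ) = ((q : ℝ) - 1) / 2 * b - (((q : ℝ) - 1) * D / A₀ + 1))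
    (hm : 12 * Real.exp (R + 2 * √(2 * R) + 3) ≤ m)
    (t1 : A₀ * (3 * R + 2 * √(2 * R) + 1) ≤ ((q : ℝ) - 1) * D)
    (t2 : ((q : ℝ) - 1) ^ 2 * (R + 2 * √(2 * R) + 3) * A₁ ≤ 8 * sg q * D) :
    8 * (q ^ b - cnt (Fin b) q l) ^ m ≤ q ^ (b * m) := by
  have hσ := sg_pos q hq
  have hQ : (1 : ℝ) ≤ (q : ℝ) - 1 := by
    have : (2 : ℝ) ≤ q := by exact_mod_cast hq
    linarith
  have hD0 : 0 < D := by linarith
  have hb0 : (0 : ℝ) < b := by rw [hb]; positivity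
  have hb1 : 1 ≤ b := by
    have : 0 < b := by exact_mod_cast hb0
    exact this
  have hf := par_f1 hQ hσ hA₀ hA₁ hR hR1 hD hb t1
  have hg0 : 0 < ((q : ℝ) - 1) * D / A₀ + 1 + √(2 * sg q * b) := by
    have : 0 ≤ √(2 * sg q * b) := Real.sqrt_nonneg _
    have h2 : 0 < ((q : ℝ) - 1) * D / A₀ := by positivity
    linarith
  refine par_ball q b l m hq hb1 hg0 hf ?_ ?_ hm
  · apply par_f2 hQ hσ hA₁ hD _ hg0.le hf t2
    rw [hb]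
    have : 0 < D / A₀ := by positivity
    linarith
  · rw [hl]
    linarith

theorem par_condTail (q b D v m : ℕ) {A₀ A₁ R : ℝ} (hq : 2 ≤ q) (hA₀ : 0 < A₀) (hA₁ : 0 < A₁)
    (hA : 16 * ((q : ℝ) - 1) ^ 4 ≤ A₀ ^ 2 * sg q)
    (hR : R = ((q : ℝ) - 1) ^ 2 * A₁ / (2 * A₀ ^ 2 * sg q)) (hD : 1 ≤ D) (hv : 1 ≤ v)
    (hb : (b : ℝ) = 2 * ((D : ℝ) ^ 2 / A₁ + D / A₀))
    (hvr : (v : ℝ) = ((q : ℝ) - 1) * (D / A₁))
    (h4 : 16 * m * Real.exp (-(24 * R)) ≤ 1)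
    (t3 : 600 * A₁ ≤ A₀ * D) :
    8 * m * tailCnt b q D v ≤ q ^ b := by
  have hσ := sg_pos q hq
  have hQ : (1 : ℝ) ≤ (q : ℝ) - 1 := by
    have : (2 : ℝ) ≤ q := by exact_mod_cast hq
    linarith
  have hDr : (1 : ℝ) ≤ D := by exact_mod_cast hD
  have hD0 : (0 : ℝ) < D := by linarith
  have hb0 : (0 : ℝ) < b := by rw [hb]; positivity
  have hb1 : 1 ≤ b := by
    have : 0 < b := by exact_mod_cast hb0
    exact this
  have h8 : 8 * ((q : ℝ) - 1) ≤ A₀ := by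
    apply le_of_sq_le_sq _ hA₀.le
    have h1 := par_sg_le q hq
    have h2 : A₀ ^ 2 * sg q ≤ A₀ ^ 2 * (((q : ℝ) - 1) ^ 2 / 4) :=
      mul_le_mul_of_nonneg_left h1 (sq_nonneg _)
    have h3 : 0 < ((q : ℝ) - 1) ^ 2 := by positivity
    have h4 : (8 * ((q : ℝ) - 1)) ^ 2 * (((q : ℝ) - 1) ^ 2 / 4) ≤
        A₀ ^ 2 * (((q : ℝ) - 1) ^ 2 / 4) := by
      calc (8 * ((q : ℝ) - 1)) ^ 2 * (((q : ℝ) - 1) ^ 2 / 4) = 16 * ((q : ℝ) - 1) ^ 4 := by ring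
        _ ≤ _ := hA.trans h2
    exact le_of_mul_le_mul_right h4 (by positivity)
  have e1 : (b : ℝ) * (((q : ℝ) - 1) / 2) = D * v + ((q : ℝ) - 1) * (D / A₀) := by
    rw [hb, hvr]; ring
  have h9 : ((q : ℝ) - 1) * (D / A₀) ≤ D / 8 := by
    rw [← mul_div_assoc, div_le_div_iff₀ hA₀ (by norm_num)]
    have := mul_le_mul_of_nonneg_right h8 hD0.le
    linarith
  have h10 : 0 < ((q : ℝ) - 1) * (D / A₀) := by positivity
  refine par_tails q b D v m hq hb1 (W := 7 * D / 8) (R := R) (by positivity) ?_ hv ?_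
    (par_f3 hQ hσ hA₀ hA₁ hA hR hDr hb t3) h4
  · rw [e1]; linarith
  · rw [e1]; linarith

theorem par_condMain (q b h n K K₁ l τ t B m P D : ℕ) {s R ϑ pp A₀ A₁ : ℝ} (hq : 2 ≤ q)
    (hm : 1 ≤ m) (hpp : 1 ≤ pp) (hK1 : 1 ≤ K₁) (hD : D = P * K₁) (hK : K = m * D) (hP1 : 1 ≤ P)
    (hτ : τ = B * K₁) (ht : t = (q - 1) * (B * K₁)) (hs : s = ϑ / D) (hϑ0 : 0 < ϑ)
    (hA₀ : 0 < A₀) (hA₁ : 0 < A₁)
    (hR : R = ((q : ℝ) - 1) ^ 2 * A₁ / (2 * A₀ ^ 2 * sg q)) (hR1 : 1 ≤ R)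
    (hϑ : ϑ = 17 / 10 * ((q : ℝ) - 1) * A₁ / (2 * A₀ * sg q))
    (hb : (b : ℝ) = 2 * ((D : ℝ) ^ 2 / A₁ + D / A₀))
    (hl : (l : ℝ) = ((q : ℝ) - 1) / 2 * b - (((q : ℝ) - 1) * D / A₀ + 1))
    (hh : (h : ℝ) + 1 = ((q : ℝ) - 1) / 2 * b)
    (hB : 4 * q * (1 + ϑ * ((q : ℝ) - 1)) ≤ B)
    (hP : (1 + ϑ * ((q : ℝ) - 1)) * B ≤ P)
    (h4 : 4 * m * P * Real.exp (-(36 / 25 * R)) ≤ 1)
    (hg : 48 * Real.exp (9 / 2) * q ^ 2 * pp ^ 2 * P ≤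
      (Real.exp (R / 4) / 4) * ((q : ℝ) - 1) * B)
    (hn : (n : ℝ) ≤ 16 * m * q ^ 2 * pp ^ 2 * D ^ 2)
    (hn' : t * K₁ ≤ 2 * n)
    (t3 : 600 * A₁ ≤ A₀ * D) (t4 : 600 * (ϑ ^ 2 * (((q : ℝ) - 1) ^ 2 / 4)) ≤ D)
    (t5 : 150 * (sg q * ϑ ^ 2) ≤ D) (S : ℝ) (hS : 0 ≤ S)
    (hmain : (K.choose K₁ : ℝ) * ((q : ℝ) ^ b / 4) ^ K₁ * Zl q b h s ^ (K - K₁)
            ≤ S * (fewSub (2 * n / t + 1) K₁
                * Real.exp (s * ((K₁ * l + K₁ * t : ℕ) : ℝ))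
              + fewZeros q τ K₁ / (q : ℝ) ^ (τ + 1)
                * Real.exp (s * ((K₁ * l + K₁ * ((q - 1) * D) : ℕ) : ℝ)))
              * Zf q s ^ (K * b)) : Real.exp K₁ ≤ S := by
  have hσ := sg_pos q hq
  have hQ : (1 : ℝ) ≤ (q : ℝ) - 1 := by
    have : (2 : ℝ) ≤ q := by exact_mod_cast hq
    linarith
  have hD1 : 1 ≤ D := by
    rw [hD]
    exact Nat.succ_le_of_lt (Nat.mul_pos hP1 hK1)
  have hDr : (1 : ℝ) ≤ D := by exact_mod_cast hD1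
  have hD0 : (0 : ℝ) < D := by linarith
  have hs0 : 0 < s := by rw [hs]; positivity
  obtain ⟨f4, f5⟩ := par_f4 hQ hσ hA₀ hA₁ hR hR1 hϑ hDr hb t3 t4
  rw [← hs] at f4 f5
  have hgain := par_gainblock q b l hq hs0.le hl f4
  have hx : sg q * s ^ 2 / 2 ≤ 1 / 300 := by
    have e1 : sg q * s ^ 2 / 2 = (150 * (sg q * ϑ ^ 2)) / (300 * D ^ 2) := by
      rw [hs]; field_simp; ring
    rw [e1, div_le_div_iff₀ (by positivity) (by norm_num)]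
    have h1 : (D : ℝ) ≤ D ^ 2 := by nlinarith
    linarith
  have f6 := par_f5 hσ hR1 hx f5
  have hother := par_otherblock q b h hq hs0.le hh f6
  exact par_final q b h n K K₁ l τ t B m P D hq hm hpp hK1 hD hK hP1 hτ ht hs hϑ0 hgain hother
    hB hP h4 hg hn hn' S hS hmain

theorem par_j (p w j₀ n : ℕ) (hp : 2 ≤ p) (hw : 1 ≤ w) (hn : w * p ^ (2 * j₀) ≤ n) :
    ∃ j, j₀ ≤ j ∧ w * p ^ (2 * j) ≤ n ∧ n < w * p ^ (2 * (j + 1)) := by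
  classical
  have hex : ∃ j', n < w * p ^ (2 * j') := by
    refine ⟨n, ?_⟩
    calc n < p ^ n := Nat.lt_pow_self hp
      _ ≤ p ^ (2 * n) := Nat.pow_le_pow_right (by omega) (by omega)
      _ = 1 * p ^ (2 * n) := by ring
      _ ≤ w * p ^ (2 * n) := Nat.mul_le_mul_right _ hw
  have h1 := Nat.find_spec hex
  have h2 : j₀ < Nat.find hex := by
    by_contra hc
    rw [not_lt] at hc
    have h3 : w * p ^ (2 * Nat.find hex) ≤ w * p ^ (2 * j₀) :=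
      Nat.mul_le_mul_left _ (Nat.pow_le_pow_right (by omega) (by omega))
    omega
  obtain ⟨j, hj⟩ := Nat.exists_eq_succ_of_ne_zero (by omega : Nat.find hex ≠ 0)
  have h4 := Nat.find_min hex (m := j) (by omega)
  refine ⟨j, by omega, by omega, ?_⟩
  rw [hj] at h1
  exact h1

theorem par_cast (p j α : ℕ) (hp : 2 ≤ p) (h : α ≤ j) :
    ((p ^ (j - α) : ℕ) : ℝ) = ((p ^ j : ℕ) : ℝ) / (p : ℝ) ^ α := by
  have hp0 : (p : ℝ) ≠ 0 := by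
    have : 0 < p := by omega
    positivity
  push_cast
  rw [eq_div_iff (pow_ne_zero _ hp0), ← pow_add, Nat.sub_add_cancel h]

theorem par_sqrtn (w p D P K₁ n : ℕ) (hp : 1 ≤ p) (hw : 1 ≤ w) (hP : 1 ≤ P) (hD : D = P * K₁)
    (hn : n < w * p ^ 2 * D ^ 2) :
    1 / (√(w : ℝ) * p * P) * √(n : ℝ) ≤ K₁ := by
  have hw' : (0 : ℝ) < w := by exact_mod_cast hw
  have hp' : (0 : ℝ) < p := by exact_mod_cast hp
  have hP' : (0 : ℝ) < P := by exact_mod_cast hP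
  have hsw : 0 < √(w : ℝ) := Real.sqrt_pos.2 hw'
  have h1 : √(n : ℝ) ≤ √(w : ℝ) * p * P * K₁ := by
    rw [Real.sqrt_le_left (by positivity)]
    have e1 : (√(w : ℝ) * p * P * K₁) ^ 2 = w * p ^ 2 * (D : ℝ) ^ 2 := by
      rw [mul_pow, mul_pow, mul_pow, Real.sq_sqrt hw'.le, hD]
      push_cast
      ring
    rw [e1]
    exact_mod_cast hn.le
  rw [one_div, inv_mul_le_iff₀ (by positivity)]
  exact h1

end Vale.Agent.P346q
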