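import Vale.Agent.Lib.P346q.RMa

/-!
# P346 over a finite field: reduced monomials (module RMb)

`mono a`, `a : X → Fin q`, are linearly independent (e.g. induction on the number of variables, or
`MvPolynomial` reduced polynomials, `MvPolynomial.eq_zero_of_eval_zero_at_prod_finset`-type
statements); they span `RM D` because `x ^ q = x` lowers exponents without raising the degree.
-/

open Finset

namespace Vale.Agent.P346q

variable {F X : Type} [Field F] [Fintype X]

/-- over a finite field every function has degree at most `(q - 1) |X|` -/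
theorem mem_RM_top [Fintype F] (f : Fn F X) : f ∈ RM F X ((Fintype.card F - 1) * Fintype.card X) := by
  classical
  set q := Fintype.card F with hq
  have hq1 : 1 < q := Fintype.one_lt_card
  -- the delta functions
  set δ : (X → F) → Fn F X := fun c => ∏ i, ((fun _ => 1) - ((fun x => x i) + fun _ => -c i) ^ (q - 1))
    with hδ
  have hδm : ∀ c, δ c ∈ RM F X ((q - 1) * Fintype.card X) := by
    intro c
    have h1 := prod_mem_RM (F := F) (X := X) univ
      (fun i => ((fun _ => 1) - ((fun x => x i) + fun _ => -c i) ^ (q - 1) : Fn F X))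
      (fun _ => q - 1) (by
        intro i _
        apply Submodule.sub_mem
        · exact const_mem_RM 1 _
        · have h2 : ((fun x => x i) + fun _ => -c i : Fn F X) ∈ RM F X 1 :=
            Submodule.add_mem _ (coord_mem_RM i) (const_mem_RM _ _)
          have h3 := pow_mem_RM h2 (q - 1)
          rwa [mul_one] at h3)
    simp only [Finset.sum_const, card_univ, smul_eq_mul] at h1
    rw [mul_comm] at h1
    exact h1
  have hδv : ∀ c x, δ c x = if x = c then 1 else 0 := by
    intro c x
    simp only [hδ, Finset.prod_apply, Pi.sub_apply, Pi.pow_apply, Pi.add_apply]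
    split_ifs with h
    · subst h
      apply Finset.prod_eq_one
      intro i _
      rw [add_neg_cancel, zero_pow (by omega), sub_zero]
    · obtain ⟨i, hi⟩ := Function.ne_iff.mp h
      apply Finset.prod_eq_zero (mem_univ i)
      have hne : x i + -c i ≠ 0 := by
        intro h0
        apply hi
        linear_combination h0
      rw [FiniteField.pow_card_sub_one_eq_one _ hne, sub_self]
  have hf : f = ∑ c, f c • δ c := by
    ext x
    rw [Finset.sum_apply, Finset.sum_eq_single x]
    · rw [Pi.smul_apply, hδv, if_pos rfl, smul_eq_mul, mul_one]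
    · intro c _ hc
      rw [Pi.smul_apply, hδv, if_neg (Ne.symm hc), smul_zero]
    · intro h
      exact absurd (mem_univ x) h
  rw [hf]
  exact Submodule.sum_mem _ fun c _ => Submodule.smul_mem _ _ (hδm c)

/-- exponents can be reduced below `q` without raising them -/
theorem exists_red [Fintype F] (a : ℕ) :
    ∃ a' < Fintype.card F, a' ≤ a ∧ ∀ x : F, x ^ a = x ^ a' := by
  have hq1 : 1 < Fintype.card F := Fintype.one_lt_card
  induction a using Nat.strong_induction_on with
  | _ a ih =>
    by_cases h : a < Fintype.card F
    · exact ⟨a, h, le_rfl, fun _ => rfl⟩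
    · push Not at h
      obtain ⟨k, rfl⟩ := Nat.exists_eq_add_of_le h
      obtain ⟨a', h1, h2, h3⟩ := ih (k + 1) (by omega)
      refine ⟨a', h1, by omega, fun x => ?_⟩
      rw [← h3 x, pow_add, FiniteField.pow_card, pow_succ, mul_comm]

/-- reduced monomials of weight at most `D` span `RM D` -/
theorem RM_eq_span [Fintype F] (D : ℕ) :
    RM F X D = Submodule.span F {f | ∃ a : X → Fin (Fintype.card F),
      ∑ i, (a i : ℕ) ≤ D ∧ f = mono fun i => (a i : ℕ)} := by
  apply le_antisymm
  · unfold RM
    rw [Submodule.span_le]
    rintro _ ⟨a, ha, rfl⟩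
    choose r h1 h2 h3 using fun i => exists_red (F := F) (a i)
    apply Submodule.subset_span
    refine ⟨fun i => ⟨r i, h1 i⟩, ?_, ?_⟩
    · exact (Finset.sum_le_sum fun i _ => h2 i).trans ha
    · ext x
      simp only [mono]
      exact Finset.prod_congr rfl fun i _ => h3 i (x i)
  · unfold RM
    apply Submodule.span_mono
    rintro f ⟨a, ha, rfl⟩
    exact ⟨fun i => (a i : ℕ), ha, rfl⟩

/-- reduced monomials are linearly independent -/
theorem linInd_mono [Fintype F] :
    LinearIndependent F fun a : X → Fin (Fintype.card F) => (mono fun i => (a i : ℕ) : Fn F X) := by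
  classical
  apply linearIndependent_of_top_le_span_of_card_eq_finrank
  · intro f _
    have h1 := mem_RM_top f
    rw [RM_eq_span] at h1
    refine Submodule.span_mono ?_ h1
    rintro _ ⟨a, _, rfl⟩
    exact ⟨a, rfl⟩
  · rw [Module.finrank_fintype_fun_eq_card]
    simp

theorem finrank_RM [Fintype F] [DecidableEq X] (D : ℕ) :
    Module.finrank F (RM F X D) = cnt X (Fintype.card F) D := by
  classical
  set q := Fintype.card F with hq
  set ι := {a : X → Fin q // ∑ i, (a i : ℕ) ≤ D} with hι
  set b : ι → Fn F X := fun a => mono fun i => (a.1 i : ℕ) with hb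
  have hli : LinearIndependent F b := linInd_mono.comp _ Subtype.val_injective
  have hspan : RM F X D = Submodule.span F (Set.range b) := by
    rw [RM_eq_span]
    congr 1
    ext f
    constructor
    · rintro ⟨a, ha, rfl⟩; exact ⟨⟨a, ha⟩, rfl⟩
    · rintro ⟨⟨a, ha⟩, rfl⟩; exact ⟨a, ha, rfl⟩
  rw [hspan, finrank_span_eq_card hli]
  unfold cnt
  exact Fintype.card_subtype _

end Vale.Agent.P346q
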