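import Vale.Agent.Lib.P346q.RMb

/-!
# P346 over a finite field: interpolation on balls (module RMc)

`interp`: the functions `∏_i ∏_{u < a_i} (x_i - e(u))`, `∑ a ≤ D`, `e = (equivFin F).symm`, vanish at
all points `x` with `idx x_i < a_i` for some `i`: triangular with respect to the weight.
`uu_mem_RM`: `C(wt x, D)` is the elementary symmetric polynomial of degree `D` in the thermometer
functions `[a < idx (x i)]`, `a < q - 1`, which have degree at most `q - 1`.
-/

open Finset

namespace Vale.Agent.P346q

variable {F X : Type} [Field F] [Fintype X]

omit [Field F] in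
theorem idx_lt [Fintype F] (x : F) : idx F x < Fintype.card F := (Fintype.equivFin F x).2

omit [Field F] in
theorem idx_inj [Fintype F] {x y : F} (h : idx F x = idx F y) : x = y := by
  unfold idx at h
  exact (Fintype.equivFin F).injective (Fin.ext h)

/-- the basis functions for the interpolation -/
noncomputable def tri [Fintype F] (c : X → F) : Fn F X :=
  ∏ i, ∏ y ∈ (univ : Finset F).filter (fun y => idx F y < idx F (c i)),
    ((fun x => x i) + fun _ => -y)

theorem tri_mem [Fintype F] (c : X → F) : (tri c : Fn F X) ∈ RM F X (wt c) := by
  classical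
  have hcard : ∀ z : F, ((univ : Finset F).filter (fun y => idx F y < idx F z)).card = idx F z := by
    intro z
    have h1 : ((univ : Finset F).filter (fun y => idx F y < idx F z)).image (idx F) =
        range (idx F z) := by
      ext k
      simp only [mem_image, mem_filter, mem_univ, true_and, mem_range]
      constructor
      · rintro ⟨y, hy, rfl⟩; exact hy
      · intro hk
        refine ⟨(Fintype.equivFin F).symm ⟨k, hk.trans (idx_lt z)⟩, ?_, ?_⟩
        · unfold idx at *
          rw [Equiv.apply_symm_apply]
          exact hk
        · unfold idx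
          rw [Equiv.apply_symm_apply]
    rw [← Finset.card_image_of_injective _ (fun _ _ h => idx_inj h), h1, card_range]
  unfold tri wt
  apply prod_mem_RM
  intro i _
  have h2 := prod_mem_RM (F := F) (X := X)
    ((univ : Finset F).filter (fun y => idx F y < idx F (c i)))
    (fun y => ((fun x => x i) + fun _ => -y : Fn F X)) (fun _ => 1)
    (fun y _ => Submodule.add_mem _ (coord_mem_RM i) (const_mem_RM _ _))
  rw [Finset.sum_const, hcard, smul_eq_mul, mul_one] at h2
  exact h2

theorem tri_ne_zero [Fintype F] {c x : X → F} : (tri c : Fn F X) x ≠ 0 ↔ ∀ i, idx F (c i) ≤ idx F (x i) := by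
  classical
  unfold tri
  rw [Finset.prod_apply, Finset.prod_ne_zero_iff]
  constructor
  · intro h i
    have h1 := h i (mem_univ i)
    rw [Finset.prod_apply, Finset.prod_ne_zero_iff] at h1
    by_contra hcon
    push Not at hcon
    have h2 := h1 (x i) (by simp [hcon])
    simp at h2
  · intro h i _
    rw [Finset.prod_apply, Finset.prod_ne_zero_iff]
    intro y hy h0
    simp only [mem_filter, mem_univ, true_and] at hy
    simp only [Pi.add_apply] at h0
    have h1 : x i = y := by linear_combination h0
    have h2 := h i
    rw [h1] at h2
    omega

theorem tri_apply [Fintype F] {c x : X → F} (h : wt x ≤ wt c) :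
    (tri c : Fn F X) x ≠ 0 ↔ x = c := by
  rw [tri_ne_zero]
  constructor
  · intro h1
    unfold wt at h
    have h2 : ∑ i, idx F (c i) = ∑ i, idx F (x i) := le_antisymm (Finset.sum_le_sum fun i _ => h1 i) h
    have h3 := (Finset.sum_eq_sum_iff_of_le (fun i _ => h1 i)).mp h2
    funext i
    exact (idx_inj (h3 i (mem_univ i))).symm
  · rintro rfl i
    exact le_rfl

/-- interpolation on `{x | wt x ≤ D}` by functions of degree at most `D` -/
theorem interp [Fintype F] (D : ℕ) (g : Fn F X) :
    ∃ h ∈ RM F X D, ∀ x : X → F, wt x ≤ D → h x = g x := by
  classical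
  have key : ∀ n ≤ D + 1, ∃ h ∈ RM F X D, ∀ x : X → F, wt x < n → h x = g x := by
    intro n
    induction n with
    | zero => intro _; exact ⟨0, Submodule.zero_mem _, fun x hx => absurd hx (Nat.not_lt_zero _)⟩
    | succ n ih =>
      intro hn
      obtain ⟨h, h1, h2⟩ := ih (by omega)
      refine ⟨h + ∑ c ∈ (univ : Finset (X → F)).filter (fun c => wt c = n),
        ((g c - h c) / (tri c : Fn F X) c) • tri c, ?_, ?_⟩
      · apply Submodule.add_mem _ h1
        apply Submodule.sum_mem
        intro c hc
        simp only [mem_filter, mem_univ, true_and] at hc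
        apply Submodule.smul_mem
        exact RM_mono (by omega) (tri_mem c)
      · intro x hx
        rw [Pi.add_apply, Finset.sum_apply]
        by_cases hxn : wt x = n
        · rw [Finset.sum_eq_single x]
          · have h3 : (tri x : Fn F X) x ≠ 0 := (tri_apply le_rfl).mpr rfl
            rw [Pi.smul_apply, smul_eq_mul, div_mul_cancel₀ _ h3]
            ring
          · intro c hc hne
            simp only [mem_filter, mem_univ, true_and] at hc
            have h4 : (tri c : Fn F X) x = 0 := by
              by_contra hcon
              exact hne ((tri_apply (by omega)).mp hcon).symm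
            rw [Pi.smul_apply, h4, smul_zero]
          · intro h5
            exact absurd (by simp [hxn]) h5
        · rw [Finset.sum_eq_zero, add_zero]
          · exact h2 x (by omega)
          · intro c hc
            simp only [mem_filter, mem_univ, true_and] at hc
            have h4 : (tri c : Fn F X) x = 0 := by
              by_contra hcon
              have := (tri_apply (by omega)).mp hcon
              subst this
              exact hxn hc
            rw [Pi.smul_apply, h4, smul_zero]
  obtain ⟨h, h1, h2⟩ := key (D + 1) le_rfl
  exact ⟨h, h1, fun x hx => h2 x (by omega)⟩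

theorem card_wt_le [Fintype F] [DecidableEq F] [DecidableEq X] (D : ℕ) :
    (univ.filter fun x : X → F => wt x ≤ D).card = cnt X (Fintype.card F) D := by
  unfold cnt
  apply Finset.card_bij' (fun x _ => fun i => Fintype.equivFin F (x i))
    (fun a _ => fun i => (Fintype.equivFin F).symm (a i))
  · intro x hx
    simp only [mem_filter, mem_univ, true_and] at hx ⊢
    exact hx
  · intro a ha
    simp only [mem_filter, mem_univ, true_and] at ha ⊢
    unfold wt idx
    simpa using ha
  · intro x _
    funext i
    simp
  · intro a _
    funext i
    simp

/-- one-variable functions -/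
theorem single_mem_RM [Fintype F] (i : X) (f : F → F) :
    (fun x => f (x i) : Fn F X) ∈ RM F X (Fintype.card F - 1) := by
  have h1 := mem_RM_top (F := F) (X := Unit) (fun x => f (x ()))
  rw [Fintype.card_unit, mul_one] at h1
  exact comp_mem_RM h1 (fun _ => fun x => x i) (fun _ => coord_mem_RM i)

/-- the number of thermometer functions that are one is the weight -/
theorem card_therm [Fintype F] [DecidableEq X] (x : X → F) :
    ((univ : Finset (X × Fin (Fintype.card F - 1))).filter
      (fun p => (p.2 : ℕ) < idx F (x p.1))).card = wt x := by
  unfold wt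
  rw [Finset.card_filter, ← Finset.univ_product_univ, Finset.sum_product]
  apply Finset.sum_congr rfl
  intro i _
  rw [← Finset.card_filter]
  have h1 := idx_lt (x i)
  have h2 : ((univ : Finset (Fin (Fintype.card F - 1))).filter
      (fun k : Fin (Fintype.card F - 1) => (k : ℕ) < idx F (x i))).map Fin.valEmbedding =
        range (idx F (x i)) := by
    ext k
    simp only [mem_map, mem_filter, mem_univ, true_and, Fin.valEmbedding_apply, mem_range]
    constructor
    · rintro ⟨y, hy, rfl⟩; exact hy
    · intro hk
      exact ⟨⟨k, by omega⟩, hk, rfl⟩
  have h3 := congrArg Finset.card h2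
  rw [Finset.card_map, card_range] at h3
  exact h3

/-- `C(wt x, D) - v` has degree at most `(q-1) D` -/
theorem uu_mem_RM [Fintype F] (D v : ℕ) : (uu D v : Fn F X) ∈ RM F X ((Fintype.card F - 1) * D) := by
  classical
  set q := Fintype.card F with hq
  set T : X × Fin (q - 1) → Fn F X := fun p x => if (p.2 : ℕ) < idx F (x p.1) then 1 else 0 with hT
  have hTm : ∀ p, T p ∈ RM F X (q - 1) := fun p =>
    single_mem_RM p.1 (fun y => if (p.2 : ℕ) < idx F y then 1 else 0)
  have h1 : (uu D v : Fn F X) =
      ∑ S ∈ (univ : Finset (X × Fin (q - 1))).powersetCard D, ∏ p ∈ S, T p +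
        fun _ => -(v : F) := by
    ext x
    unfold uu
    rw [Pi.add_apply, Finset.sum_apply, sub_eq_add_neg]
    congr 1
    have h2 : ∀ S : Finset (X × Fin (q - 1)), (∏ p ∈ S, T p) x =
        if S ⊆ univ.filter (fun p => (p.2 : ℕ) < idx F (x p.1)) then 1 else 0 := by
      intro S
      rw [Finset.prod_apply]
      split_ifs with h
      · apply Finset.prod_eq_one
        intro p hp
        have := h hp
        simp only [mem_filter, mem_univ, true_and] at this
        simp only [hT, if_pos this]
      · rw [Finset.not_subset] at h
        obtain ⟨p, hp, hp2⟩ := h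
        apply Finset.prod_eq_zero hp
        simp only [mem_filter, mem_univ, true_and] at hp2
        simp only [hT, if_neg hp2]
    simp only [h2]
    rw [← Finset.sum_filter, Finset.sum_const, nsmul_eq_mul, mul_one]
    congr 1
    rw [← card_therm x, ← Finset.card_powersetCard]
    congr 1
    ext S
    simp only [mem_filter, mem_powersetCard, subset_univ, true_and]
    tauto
  rw [h1]
  apply Submodule.add_mem _ _ (const_mem_RM _ _)
  apply Submodule.sum_mem
  intro S hS
  rw [mem_powersetCard] at hS
  have h3 := prod_mem_RM S T (fun _ => q - 1) (fun p _ => hTm p)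
  rw [Finset.sum_const, hS.2, smul_eq_mul, mul_comm] at h3
  exact h3

end Vale.Agent.P346q
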