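import Vale.Agent.Lib.P346q.Defs

/-!
# P346 over a finite field: functions of bounded degree, basic rules (module RMa)
-/

open Finset

namespace Vale.Agent.P346q

variable {F X Y : Type} [Field F] [Fintype X] [Fintype Y]

theorem mono_mem_RM {a : X → ℕ} {D : ℕ} (h : ∑ i, a i ≤ D) : (mono a : Fn F X) ∈ RM F X D :=
  Submodule.subset_span ⟨a, h, rfl⟩

theorem mono_mul (a b : X → ℕ) : (mono a * mono b : Fn F X) = mono fun i => a i + b i := by
  ext x
  simp only [mono, Pi.mul_apply, ← Finset.prod_mul_distrib, pow_add]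

theorem RM_mono {D D' : ℕ} (h : D ≤ D') : RM F X D ≤ RM F X D' := by
  unfold RM
  apply Submodule.span_mono
  rintro f ⟨a, ha, rfl⟩
  exact ⟨a, ha.trans h, rfl⟩

theorem const_mem_RM (c : F) (D : ℕ) : (fun _ => c) ∈ RM F X D := by
  have h : (fun _ => c : Fn F X) = c • (mono fun _ => 0) := by
    ext x
    simp [mono]
  rw [h]
  apply Submodule.smul_mem
  apply mono_mem_RM
  simp

theorem coord_mem_RM (i : X) : (fun x => x i) ∈ RM F X 1 := by
  classical
  have h : (fun x => x i : Fn F X) = mono (Pi.single i 1) := by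
    ext x
    unfold mono
    rw [Finset.prod_eq_single i]
    · simp
    · intro j _ hj
      simp [hj]
    · intro h
      exact absurd (mem_univ i) h
  rw [h]
  apply mono_mem_RM
  rw [Finset.sum_pi_single']
  simp

theorem mul_mem_RM {D D' : ℕ} {f g : Fn F X} (hf : f ∈ RM F X D) (hg : g ∈ RM F X D') :
    f * g ∈ RM F X (D + D') := by
  have h := Submodule.mul_mem_mul hf hg
  unfold RM at h
  rw [Submodule.span_mul_span] at h
  refine Submodule.span_mono ?_ h
  rintro _ ⟨_, ⟨a, ha, rfl⟩, _, ⟨b, hb, rfl⟩, rfl⟩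
  refine ⟨fun i => a i + b i, ?_, mono_mul a b⟩
  rw [Finset.sum_add_distrib]
  omega

theorem prod_mem_RM {ι : Type} (s : Finset ι) (f : ι → Fn F X) (d : ι → ℕ)
    (h : ∀ i ∈ s, f i ∈ RM F X (d i)) : (∏ i ∈ s, f i) ∈ RM F X (∑ i ∈ s, d i) := by
  classical
  induction s using Finset.induction_on with
  | empty =>
    simp only [Finset.prod_empty, Finset.sum_empty]
    exact const_mem_RM 1 0
  | insert i s his ih =>
    rw [Finset.prod_insert his, Finset.sum_insert his]
    exact mul_mem_RM (h i (mem_insert_self i s)) (ih fun j hj => h j (mem_insert_of_mem hj))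

theorem pow_mem_RM {d : ℕ} {f : Fn F X} (hf : f ∈ RM F X d) (n : ℕ) :
    f ^ n ∈ RM F X (n * d) := by
  have h := prod_mem_RM (range n) (fun _ => f) (fun _ => d) (fun _ _ => hf)
  simpa using h

/-- composition with an affine map -/
theorem comp_mem_RM {D : ℕ} {f : Fn F X} (hf : f ∈ RM F X D) (g : X → Fn F Y)
    (hg : ∀ i, g i ∈ RM F Y 1) : (fun y => f fun i => g i y) ∈ RM F Y D := by
  set L := LinearMap.funLeft F F (fun (y : Y → F) (i : X) => g i y) with hL
  have h1 : (fun y => f fun i => g i y) = L f := rfl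
  rw [h1]
  have h2 : RM F X D ≤ (RM F Y D).comap L := by
    unfold RM
    rw [Submodule.span_le]
    rintro _ ⟨a, ha, rfl⟩
    have h3 : L (mono a) = ∏ i, g i ^ a i := by
      ext y
      simp [hL, LinearMap.funLeft_apply, mono, Finset.prod_apply]
    change L (mono a) ∈ RM F Y D
    rw [h3]
    have h4 := prod_mem_RM univ (fun i => g i ^ a i) (fun i => a i * 1)
      (fun i _ => pow_mem_RM (hg i) (a i))
    simp only [mul_one] at h4
    exact RM_mono ha h4
  exact h2 hf

end Vale.Agent.P346q
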