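import Vale.Agent.Lib.P346q.BF

/-!
# P346 over a finite field: products of affine forms of high rank (module RankB)

Pick `τ + 1` elements of `M` with linearly independent `x`-parts; `E` is the set of `x` at which at
most `k` of these `τ + 1` forms have constant part `l.c + l.m ⬝ x` equal to `0`. The map
`x ↦ (l.c + l.m ⬝ x)_l` onto `F^(τ+1)` has fibres of equal size. For `x ∉ E` more than `k` factors
have no constant term, so the product has order more than `k`.
-/

open Finset

namespace Vale.Agent.P346q

variable {F Z X : Type} [Field F] [Fintype X] [Fintype Z]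

/-- number of points of `F^T` with at most `k` zero coordinates -/
theorem card_few [Fintype F] [DecidableEq F] (T k : ℕ) :
    (univ.filter fun y : Fin (T + 1) → F => (univ.filter fun i => y i = 0).card ≤ k).card
      ≤ fewZeros (Fintype.card F) T k := by
  classical
  have h1 : (univ.filter fun y : Fin (T + 1) → F => (univ.filter fun i => y i = 0).card ≤ k).card
      ≤ ∑ U : Finset (Fin (T + 1)), if U.card ≤ k then (Fintype.card F - 1) ^ (T + 1 - U.card)
        else 0 := by
    rw [Finset.card_eq_sum_card_fiberwise (f := fun y => univ.filter fun i => y i = 0)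
      (t := (univ : Finset (Finset (Fin (T + 1))))) (fun _ _ => mem_univ _)]
    refine Finset.sum_le_sum fun U _ => ?_
    split_ifs with hU
    · have h2 : ((univ.filter fun y : Fin (T + 1) → F =>
          (univ.filter fun i => y i = 0).card ≤ k).filter
            fun y => (univ.filter fun i => y i = 0) = U)
          ⊆ Fintype.piFinset fun i => if i ∈ U then {0} else univ.erase 0 := by
        intro y hy
        rw [Finset.mem_filter] at hy
        rw [Fintype.mem_piFinset]
        intro i
        by_cases hi : i ∈ U
        · have h3 : i ∈ univ.filter fun i => y i = 0 := hy.2 ▸ hi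
          rw [if_pos hi, Finset.mem_singleton]
          exact (Finset.mem_filter.mp h3).2
        · rw [if_neg hi, Finset.mem_erase]
          refine ⟨fun h0 => hi ?_, mem_univ _⟩
          rw [← hy.2]
          exact Finset.mem_filter.mpr ⟨mem_univ _, h0⟩
      refine (Finset.card_le_card h2).trans (le_of_eq ?_)
      rw [Fintype.card_piFinset]
      have h4 : ∀ i : Fin (T + 1), (if i ∈ U then ({0} : Finset F) else univ.erase 0).card
          = if i ∈ U then 1 else (Fintype.card F - 1) := by
        intro i
        split_ifs
        · exact Finset.card_singleton _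
        · rw [Finset.card_erase_of_mem (mem_univ _), Finset.card_univ]
      simp only [h4]
      rw [Finset.prod_ite, Finset.prod_const_one, one_mul, Finset.prod_const]
      congr 1
      have h5 : (univ.filter fun i : Fin (T + 1) => i ∉ U) = univ \ U := by
        ext i
        simp
      rw [h5, Finset.card_sdiff_of_subset (Finset.subset_univ U), Finset.card_univ,
        Fintype.card_fin]
    · apply le_of_eq
      rw [Finset.card_eq_zero]
      refine Finset.filter_eq_empty_iff.mpr fun y hy he => hU ?_
      rw [← he]
      exact (Finset.mem_filter.mp hy).2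
  refine h1.trans ?_
  have h6 := Finset.sum_powerset_apply_card
    (fun m => if m ≤ k then (Fintype.card F - 1) ^ (T + 1 - m) else 0)
    (x := (univ : Finset (Fin (T + 1))))
  rw [Finset.powerset_univ, Finset.card_univ, Fintype.card_fin] at h6
  rw [h6]
  unfold fewZeros
  have h7 : ∀ m ∈ range (T + 1 + 1), ((T + 1).choose m • if m ≤ k then
      (Fintype.card F - 1) ^ (T + 1 - m) else 0)
      = if m ≤ k then (T + 1).choose m * (Fintype.card F - 1) ^ (T + 1 - m) else 0 := by
    intro m _
    split_ifs <;> simp
  rw [Finset.sum_congr rfl h7, ← Finset.sum_filter]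
  apply Finset.sum_le_sum_of_subset
  intro m hm
  rw [Finset.mem_filter] at hm
  rw [Finset.mem_range]
  omega

/-- fibres of a surjective affine map have equal size -/
theorem card_preimage [Fintype F] [DecidableEq F] {ι : Type} [Fintype ι] [DecidableEq ι]
    [DecidableEq X]
    (c : ι → F) (A : Matrix ι X F) (hA : Function.Surjective A.mulVec) (T : Finset (ι → F)) :
    (univ.filter fun x : X → F => (c + A.mulVec x) ∈ T).card
        * Fintype.card F ^ Fintype.card ι
      = T.card * Fintype.card F ^ Fintype.card X := by
  classical
  let N : ℕ := (univ.filter fun x : X → F => A.mulVec x = 0).card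
  have hN : ∀ y : ι → F, (univ.filter fun x : X → F => c + A.mulVec x = y).card = N := by
    intro y
    obtain ⟨x₀, hx₀⟩ := hA (y - c)
    refine Finset.card_bij' (fun x _ => x - x₀) (fun x _ => x + x₀) ?_ ?_ ?_ ?_
    · intro x hx
      rw [Finset.mem_filter] at hx ⊢
      refine ⟨mem_univ _, ?_⟩
      rw [Matrix.mulVec_sub, hx₀, ← hx.2]
      abel
    · intro x hx
      rw [Finset.mem_filter] at hx ⊢
      refine ⟨mem_univ _, ?_⟩
      rw [Matrix.mulVec_add, hx₀, hx.2]
      abel
    · intro x _
      abel
    · intro x _
      abel
  have h1 : (univ.filter fun x : X → F => (c + A.mulVec x) ∈ T).card = T.card * N := by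
    rw [Finset.card_eq_sum_card_fiberwise (f := fun x : X → F => c + A.mulVec x) (t := T)
      (s := univ.filter fun x : X → F => (c + A.mulVec x) ∈ T)
      (fun x hx => (Finset.mem_filter.mp hx).2)]
    rw [Finset.sum_congr rfl (g := fun _ => N), Finset.sum_const, smul_eq_mul]
    intro y hy
    rw [← hN y, Finset.filter_filter]
    congr 1
    ext x
    simp only [Finset.mem_filter, mem_univ, true_and]
    constructor
    · exact fun h => h.2
    · exact fun h => ⟨h ▸ hy, h⟩
  have h2 : Fintype.card F ^ Fintype.card X = Fintype.card F ^ Fintype.card ι * N := by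
    have h3 : (univ : Finset (X → F)).card = (univ : Finset (ι → F)).card * N := by
      rw [Finset.card_eq_sum_card_fiberwise (f := fun x : X → F => c + A.mulVec x)
        (t := (univ : Finset (ι → F))) (fun x _ => mem_univ _)]
      rw [Finset.sum_congr rfl (g := fun _ => N), Finset.sum_const, smul_eq_mul]
      intro y _
      exact hN y
    rw [Finset.card_univ, Finset.card_univ, Fintype.card_fun, Fintype.card_fun] at h3
    exact h3
  rw [h1, h2]
  ring

theorem mulVec_surjective [Fintype F] {ι : Type} [Fintype ι] (A : Matrix ι X F)
    (hA : LinearIndependent F A.row) : Function.Surjective A.mulVec := by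
  have h1 : LinearMap.range A.mulVecLin = ⊤ := by
    apply Submodule.eq_top_of_finrank_eq
    have h2 := hA.rank_matrix
    unfold Matrix.rank at h2
    rw [h2, Module.finrank_fintype_fun_eq_card]
  intro y
  have h3 : y ∈ LinearMap.range A.mulVecLin := h1 ▸ Submodule.mem_top
  obtain ⟨x, hx⟩ := h3
  exact ⟨x, hx⟩

/-- a product of affine forms whose `x`-parts span a space of dimension more than `τ`: off a small
set of `x` all its coefficients of order at most `k` vanish -/
theorem high_rank [Fintype F] [DecidableEq F] (M : Multiset (BF F Z X)) (τ k : ℕ)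
    (h : τ < Module.finrank F (Submodule.span F {m : X → F | ∃ l ∈ M, l.m = m})) :
    ∃ E : Finset (X → F), E.card * Fintype.card F ^ (τ + 1)
        ≤ fewZeros (Fintype.card F) τ k * Fintype.card F ^ Fintype.card X ∧
      ∀ x ∉ E, ∀ α : Z →₀ ℕ, α.degree ≤ k → ((M.map fun l : BF F Z X => l.val x).prod).coeff α = 0 := by
  classical
  obtain ⟨f, hf1, _, hf2⟩ := Submodule.exists_fun_fin_finrank_span_eq F
    {m : X → F | ∃ l ∈ M, l.m = m}
  choose l hlM hlm using hf1
  let l' : Fin (τ + 1) → BF F Z X := fun i => l (Fin.castLE h i)
  let A : Matrix (Fin (τ + 1)) X F := Matrix.of fun i => (l' i).m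
  have hA : LinearIndependent F A.row := by
    have h1 : A.row = f ∘ Fin.castLE h := by
      funext i
      exact hlm _
    rw [h1]
    exact hf2.comp _ (Fin.castLE_injective h)
  have hinj : Function.Injective l' := by
    intro i j hij
    have h1 : A.row i = A.row j := by
      change (l' i).m = (l' j).m
      rw [hij]
    exact hA.injective h1
  let c : Fin (τ + 1) → F := fun i => (l' i).c
  let T : Finset (Fin (τ + 1) → F) := univ.filter fun y : Fin (τ + 1) → F =>
    (univ.filter fun i => y i = 0).card ≤ k
  refine ⟨univ.filter fun x : X → F => (c + A.mulVec x) ∈ T, ?_, ?_⟩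
  · have h1 := card_preimage c A (mulVec_surjective A hA) T
    rw [Fintype.card_fin] at h1
    rw [h1]
    exact Nat.mul_le_mul_right _ (card_few τ k)
  · intro x hx α hα
    have h2 : k < (univ.filter fun i => (c + A.mulVec x) i = 0).card := by
      by_contra hle
      apply hx
      rw [Finset.mem_filter]
      refine ⟨mem_univ _, ?_⟩
      simp only [T, Finset.mem_filter, mem_univ, true_and]
      exact not_lt.mp hle
    set I : Finset (Fin (τ + 1)) := univ.filter fun i => (c + A.mulVec x) i = 0 with hI
    have h3 : (I.image l').val ≤ M := by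
      rw [Multiset.le_iff_subset (I.image l').nodup]
      intro b hb
      rw [Finset.mem_val, Finset.mem_image] at hb
      obtain ⟨i, _, rfl⟩ := hb
      exact hlM _
    obtain ⟨R, hR⟩ := Multiset.le_iff_exists_add.mp h3
    have h4 : (M.map fun l : BF F Z X => l.val x).prod
        = (∏ i ∈ I, (l' i).val x) * (R.map fun l : BF F Z X => l.val x).prod := by
      rw [hR, Multiset.map_add, Multiset.prod_add]
      congr 1
      exact Finset.prod_image fun i _ j _ hij => hinj hij
    have h5 : (∏ i ∈ I, (l' i).val x).IsHomogeneous I.card := by
      have h6 : ∀ i ∈ I, ((l' i).val x).IsHomogeneous 1 := by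
        intro i hi
        rw [hI, Finset.mem_filter] at hi
        have h7 : (l' i).c + ∑ j, (l' i).m j * x j = 0 := hi.2
        unfold BF.val
        rw [h7, map_zero, zero_add]
        apply MvPolynomial.IsHomogeneous.sum
        intro z _
        have h8 := (MvPolynomial.isHomogeneous_C Z ((l' i).w z)).mul
          (MvPolynomial.isHomogeneous_X F z)
        rwa [zero_add] at h8
      have h9 := MvPolynomial.IsHomogeneous.prod I (fun i => (l' i).val x) (fun _ => 1) h6
      rwa [Finset.sum_const, smul_eq_mul, mul_one] at h9
    rw [h4, MvPolynomial.coeff_mul]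
    refine Finset.sum_eq_zero fun y hy => ?_
    rw [Finset.HasAntidiagonal.mem_antidiagonal] at hy
    have h10 : y.1.degree + y.2.degree = α.degree := by
      rw [← map_add, hy]
    have h11 : (∏ i ∈ I, (l' i).val x).coeff y.1 = 0 := h5.coeff_eq_zero (by omega)
    rw [h11, zero_mul]

end Vale.Agent.P346q
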