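import Vale.Agent.Lib.P346q.LDa
import Vale.Agent.Lib.P346q.RM
import Vale.Agent.Lib.P346q.BF

/-!
# P346 over a finite field: products of affine forms of low rank (module RankA)
-/

open Finset

namespace Vale.Agent.P346q

variable {F V Z X : Type} [Field F] [Fintype X] [Fintype Z]

theorem affine_of_mem_RM {f : Fn F X} (hf : f ∈ RM F X 1) :
    ∃ (c : F) (m : X → F), ∀ x, f x = c + ∑ i, m i * x i := by
  classical
  unfold RM at hf
  induction hf using Submodule.span_induction with
  | mem f hf =>
    obtain ⟨a, ha, rfl⟩ := hf
    by_cases h0 : ∀ i, a i = 0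
    · refine ⟨1, 0, fun x => ?_⟩
      simp [mono, h0]
    · rw [not_forall] at h0
      obtain ⟨i, hi⟩ := h0
      have h1 : ∑ j ∈ univ.erase i, a j = 0 ∧ a i = 1 := by
        have := Finset.add_sum_erase univ a (mem_univ i)
        omega
      have h2 : ∀ j, j ≠ i → a j = 0 := by
        intro j hj
        have := Finset.sum_eq_zero_iff.mp h1.1 j (Finset.mem_erase.mpr ⟨hj, mem_univ j⟩)
        exact this
      refine ⟨0, Pi.single i 1, fun x => ?_⟩
      rw [zero_add]
      simp only [mono]
      rw [Finset.prod_eq_single i, Finset.sum_eq_single i]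
      · simp [h1.2]
      · intro j _ hj
        simp [hj]
      · intro h
        exact absurd (mem_univ i) h
      · intro j _ hj
        simp [h2 j hj]
      · intro h
        exact absurd (mem_univ i) h
  | zero => exact ⟨0, 0, fun x => by simp⟩
  | add f g _ _ hf hg =>
    obtain ⟨c, m, h⟩ := hf
    obtain ⟨c', m', h'⟩ := hg
    refine ⟨c + c', m + m', fun x => ?_⟩
    rw [Pi.add_apply, h, h']
    simp only [Pi.add_apply, add_mul, Finset.sum_add_distrib]
    ring
  | smul a f _ hf =>
    obtain ⟨c, m, h⟩ := hf
    refine ⟨a * c, a • m, fun x => ?_⟩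
    rw [Pi.smul_apply, h, smul_eq_mul, mul_add, Finset.mul_sum]
    congr 1
    refine Finset.sum_congr rfl fun i _ => ?_
    rw [Pi.smul_apply, smul_eq_mul, mul_assoc]

theorem BF.val_add (l l' : BF F Z X) (x : X → F) :
    (⟨l.c + l'.c, l.m + l'.m, l.w + l'.w⟩ : BF F Z X).val x = l.val x + l'.val x := by
  unfold BF.val
  have h1 : l.c + l'.c + ∑ i, (l.m + l'.m) i * x i
      = (l.c + ∑ i, l.m i * x i) + (l'.c + ∑ i, l'.m i * x i) := by
    simp only [Pi.add_apply, add_mul, Finset.sum_add_distrib]
    ring
  have h2 : (∑ z, MvPolynomial.C ((l.w + l'.w) z) * MvPolynomial.X z : MvPolynomial Z F)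
      = (∑ z, MvPolynomial.C (l.w z) * MvPolynomial.X z)
        + ∑ z, MvPolynomial.C (l'.w z) * MvPolynomial.X z := by
    rw [← Finset.sum_add_distrib]
    refine Finset.sum_congr rfl fun z _ => ?_
    rw [Pi.add_apply, map_add, add_mul]
  simp only [h1, h2, map_add]
  ring

theorem exists_BF (σ : Subst F V Z X) (P : MvPolynomial V F) (hP : P.totalDegree ≤ 1) :
    ∃ l : BF F Z X, ∀ x, σ.hom x P = l.val x := by
  classical
  have key : ∀ (S : Finset (V →₀ ℕ)) (co : (V →₀ ℕ) → F), (∀ s ∈ S, s.degree ≤ 1) →
      ∃ l : BF F Z X, ∀ x, σ.hom x (∑ s ∈ S, MvPolynomial.monomial s (co s)) = l.val x := by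
    intro S co
    induction S using Finset.induction_on with
    | empty =>
      intro _
      refine ⟨⟨0, 0, 0⟩, fun x => ?_⟩
      simp [BF.val]
    | insert s S hs ih =>
      intro hS
      obtain ⟨l, hl⟩ := ih fun s' hs' => hS s' (Finset.mem_insert_of_mem hs')
      have h1 : ∃ l' : BF F Z X, ∀ x, σ.hom x (MvPolynomial.monomial s (co s)) = l'.val x := by
        have hd := hS s (Finset.mem_insert_self s S)
        by_cases h0 : s = 0
        · refine ⟨⟨co s, 0, 0⟩, fun x => ?_⟩
          subst h0
          have h2 : (MvPolynomial.monomial 0 (co 0) : MvPolynomial V F)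
              = MvPolynomial.C (co 0) := rfl
          rw [h2]
          have h := (σ.hom x).commutes (co 0)
          rw [MvPolynomial.algebraMap_eq, MvPolynomial.algebraMap_eq] at h
          rw [h]
          simp [BF.val]
        · obtain ⟨v, hv⟩ := Finsupp.support_nonempty_iff.mpr h0
          have hv1 : s v ≠ 0 := Finsupp.mem_support_iff.mp hv
          have hs1 : s = Finsupp.single v 1 := by
            have hd' : ∑ i ∈ s.support, s i ≤ 1 := hd
            have h3 := Finset.add_sum_erase s.support (fun i => s i) hv
            have h4 : s v = 1 ∧ ∑ i ∈ s.support.erase v, s i = 0 := by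
              have h5 : s v + ∑ i ∈ s.support.erase v, s i = ∑ i ∈ s.support, s i := h3
              omega
            ext u
            by_cases hu : u = v
            · subst hu
              simp [h4.1]
            · rw [Finsupp.single_eq_of_ne hu]
              by_contra hne
              have := Finset.sum_eq_zero_iff.mp h4.2 u
                (Finset.mem_erase.mpr ⟨hu, Finsupp.mem_support_iff.mpr hne⟩)
              exact hne this
          obtain ⟨c, m, hcm⟩ := affine_of_mem_RM (σ.hal v)
          refine ⟨⟨co s * c, fun i => co s * m i, fun z => co s * σ.be v z⟩, fun x => ?_⟩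
          have h6 : (MvPolynomial.monomial s (co s) : MvPolynomial V F)
              = MvPolynomial.C (co s) * MvPolynomial.X v := by
            rw [hs1, MvPolynomial.X, MvPolynomial.C_mul_monomial, mul_one]
          rw [h6, map_mul]
          have h := (σ.hom x).commutes (co s)
          rw [MvPolynomial.algebraMap_eq, MvPolynomial.algebraMap_eq] at h
          rw [h]
          unfold Subst.hom BF.val
          rw [MvPolynomial.aeval_X, hcm x]
          have h7 : co s * c + ∑ i, co s * m i * x i = co s * (c + ∑ i, m i * x i) := by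
            rw [mul_add, Finset.mul_sum]
            congr 1
            refine Finset.sum_congr rfl fun i _ => by ring
          have h8 : (∑ z, MvPolynomial.C (co s * σ.be v z) * MvPolynomial.X z :
              MvPolynomial Z F)
              = MvPolynomial.C (co s) * ∑ z, MvPolynomial.C (σ.be v z) * MvPolynomial.X z := by
            rw [Finset.mul_sum]
            refine Finset.sum_congr rfl fun z _ => ?_
            rw [map_mul, mul_assoc]
          rw [h7, h8, map_mul, mul_add]
      obtain ⟨l', hl'⟩ := h1
      refine ⟨⟨l'.c + l.c, l'.m + l.m, l'.w + l.w⟩, fun x => ?_⟩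
      rw [Finset.sum_insert hs, map_add, hl x, hl' x, BF.val_add]
  have h := key P.support (fun s => P.coeff s) (by
    intro s hs
    exact (MvPolynomial.le_totalDegree hs).trans hP)
  rw [← P.as_sum] at h
  exact h

/-- a product of affine forms whose `x`-parts span a space of dimension at most `τ`: its
coefficients depend only on `τ` linear functions of `x`, so they have degree at most `(q-1) τ` -/
theorem low_rank [Fintype F] (M : Multiset (BF F Z X)) (τ k : ℕ)
    (h : Module.finrank F (Submodule.span F {m : X → F | ∃ l ∈ M, l.m = m}) ≤ τ) :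
    LD (∅ : Finset (X → F)) k ((Fintype.card F - 1) * τ)
      (fun x => (M.map fun l : BF F Z X => l.val x).prod) := by
  classical
  set W : Submodule F (X → F) := Submodule.span F {m : X → F | ∃ l ∈ M, l.m = m} with hW
  let r := Module.finrank F W
  let bs : Module.Basis (Fin r) F W := Module.finBasis F W
  let co : BF F Z X → Fin r → F := fun l j =>
    if hl : l.m ∈ W then bs.repr ⟨l.m, hl⟩ j else 0
  let y : (X → F) → Fin r → F := fun x j => ∑ i, (bs j : X → F) i * x i
  let Φ : (Fin r → F) → MvPolynomial Z F := fun y =>
    (M.map fun l : BF F Z X => MvPolynomial.C (l.c + ∑ j, co l j * y j)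
      + ∑ z, MvPolynomial.C (l.w z) * MvPolynomial.X z).prod
  have hmem : ∀ l ∈ M, l.m ∈ W := fun l hl => Submodule.subset_span ⟨l, hl, rfl⟩
  have hΦ : ∀ x, (M.map fun l : BF F Z X => l.val x).prod = Φ (y x) := by
    intro x
    simp only [Φ]
    refine congrArg Multiset.prod (Multiset.map_congr rfl ?_)
    intro l hl
    unfold BF.val
    have h1 : (l.m : X → F) = ∑ j, co l j • (bs j : X → F) := by
      have h2 := bs.sum_repr ⟨l.m, hmem l hl⟩
      have h3 := congrArg (fun w : W => (w : X → F)) h2
      simp only [Submodule.coe_sum, Submodule.coe_smul] at h3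
      rw [← h3]
      refine Finset.sum_congr rfl fun j _ => ?_
      simp only [co, dif_pos (hmem l hl)]
    have h4 : ∑ i, l.m i * x i = ∑ j, co l j * y x j := by
      simp only [y]
      rw [h1]
      simp only [Finset.sum_apply, Pi.smul_apply, smul_eq_mul, Finset.sum_mul, Finset.mul_sum]
      rw [Finset.sum_comm]
      refine Finset.sum_congr rfl fun j _ => Finset.sum_congr rfl fun i _ => by ring
    rw [h4]
  intro α _
  refine ⟨fun x => (Φ (y x)).coeff α, ?_, fun x _ => congrArg (MvPolynomial.coeff α) (hΦ x)⟩
  have h1 : (fun x : X → F => (Φ (y x)).coeff α) ∈ RM F X ((Fintype.card F - 1) * r) := by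
    have h2 := mem_RM_top (F := F) (X := Fin r) (fun y => (Φ y).coeff α)
    rw [Fintype.card_fin] at h2
    refine comp_mem_RM h2 (fun j x => y x j) ?_
    intro j
    have h3 : (fun x : X → F => y x j) = ∑ i, (bs j : X → F) i • fun x : X → F => x i := by
      funext x
      simp only [y, Finset.sum_apply, Pi.smul_apply, smul_eq_mul]
    rw [h3]
    exact Submodule.sum_mem _ fun i _ => Submodule.smul_mem _ _ (coord_mem_RM i)
  exact RM_mono (Nat.mul_le_mul_left _ h) h1

end Vale.Agent.P346q
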