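import Vale.Agent.Lib.P346q.Rank
import Vale.Agent.Lib.P346q.LD
import Vale.Agent.Lib.P346q.Group

/-!
# P346 over a finite field: structure of homogeneous circuits (module STRUCT)

`E` is the union over the lower product gates whose `x`-rank exceeds `τ` of the sets of `high_rank`.
Middle gates `val3 i`: `LD E k ((q-1)τ)` and also `LD ∅ k (formal degree)`. The inputs of an upper
product gate have formal degrees adding to `N`; group them by `grouping`; apply `top_expand`.
-/

open Finset

namespace Vale.Agent.P346q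

open Vale.Agent.P346

section Hom

variable {F V : Type} [Field F] (C : Circuit F V)

theorem val0_hom (i : Fin C.n0) : (C.val0 i).IsHomogeneous (C.deg0 i) := by
  unfold Circuit.val0 Circuit.deg0
  rcases C.leaf i with v | c
  · exact MvPolynomial.isHomogeneous_X _ _
  · exact MvPolynomial.isHomogeneous_C _ _

theorem val1_hom (d1 : Fin C.n1 → ℕ) (h1 : ∀ i, ∀ j ∈ C.in1 i, C.deg0 j = d1 i) (i : Fin C.n1) :
    (C.val1 i).IsHomogeneous (d1 i) := by
  unfold Circuit.val1
  apply MvPolynomial.IsHomogeneous.sum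
  intro j hj
  have h := (MvPolynomial.isHomogeneous_C V (C.c1 i j)).mul (val0_hom C j)
  rw [zero_add, h1 i j hj] at h
  exact h

theorem val1_deg (i : Fin C.n1) : (C.val1 i).totalDegree ≤ 1 := by
  unfold Circuit.val1
  apply MvPolynomial.totalDegree_finsetSum_le
  intro j _
  refine (MvPolynomial.totalDegree_mul _ _).trans ?_
  rw [MvPolynomial.totalDegree_C, zero_add]
  unfold Circuit.val0
  rcases C.leaf j with v | c
  · simp [MvPolynomial.totalDegree_X]
  · simp [MvPolynomial.totalDegree_C]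

theorem multiset_hom {ι : Type} (M : Multiset ι) (d : ι → ℕ) (g : ι → MvPolynomial V F)
    (h : ∀ i ∈ M, (g i).IsHomogeneous (d i)) : (M.map g).prod.IsHomogeneous (M.map d).sum := by
  induction M using Multiset.induction_on with
  | empty => simpa using MvPolynomial.isHomogeneous_one V F
  | cons a M ih =>
    rw [Multiset.map_cons, Multiset.prod_cons, Multiset.map_cons, Multiset.sum_cons]
    exact (h a (Multiset.mem_cons_self a M)).mul
      (ih fun i hi => h i (Multiset.mem_cons_of_mem hi))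

theorem val2_hom (d1 : Fin C.n1 → ℕ) (d2 : Fin C.n2 → ℕ)
    (h1 : ∀ i, ∀ j ∈ C.in1 i, C.deg0 j = d1 i)
    (h2 : ∀ i, d2 i = ((C.in2 i).map d1).sum) (i : Fin C.n2) :
    (C.val2 i).IsHomogeneous (d2 i) := by
  rw [h2 i]
  exact multiset_hom _ _ _ fun j _ => val1_hom C d1 h1 j

theorem val3_hom (d2 : Fin C.n2 → ℕ) (d3 : Fin C.n3 → ℕ)
    (hv : ∀ i, (C.val2 i).IsHomogeneous (d2 i)) (h3 : ∀ i, ∀ j ∈ C.in3 i, d2 j = d3 i)
    (i : Fin C.n3) : (C.val3 i).IsHomogeneous (d3 i) := by
  unfold Circuit.val3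
  apply MvPolynomial.IsHomogeneous.sum
  intro j hj
  have h := (MvPolynomial.isHomogeneous_C V (C.c3 i j)).mul (hv j)
  rw [zero_add, h3 i j hj] at h
  exact h

theorem value_hom (d3 : Fin C.n3 → ℕ) (d4 : Fin C.n4 → ℕ) (d5 : ℕ)
    (hv : ∀ i, (C.val3 i).IsHomogeneous (d3 i)) (h4 : ∀ i, d4 i = ((C.in4 i).map d3).sum)
    (h5 : ∀ j ∈ C.in5, d4 j = d5) : C.value.IsHomogeneous d5 := by
  unfold Circuit.value
  apply MvPolynomial.IsHomogeneous.sum
  intro j hj
  have h := (MvPolynomial.isHomogeneous_C V (C.c5 j)).mul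
    (multiset_hom (C.in4 j) d3 C.val3 fun i _ => hv i)
  rw [zero_add, ← h4 j, h5 j hj] at h
  exact h

end Hom

theorem hom_C {F V Z X : Type} [Field F] [Fintype X] [Fintype Z] (σ : Subst F V Z X) (x : X → F)
    (c : F) : σ.hom x (MvPolynomial.C c) = MvPolynomial.C c := by
  have h := (σ.hom x).commutes c
  rwa [MvPolynomial.algebraMap_eq, MvPolynomial.algebraMap_eq] at h

theorem multiset_prod_sum {ι κ R : Type} [CommRing R] (s : Finset κ) (G : κ → Multiset ι)
    (f : ι → R) : ((∑ g ∈ s, G g).map f).prod = ∏ g ∈ s, ((G g).map f).prod := by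
  classical
  induction s using Finset.induction_on with
  | empty => simp
  | insert a s ha ih =>
    rw [Finset.sum_insert ha, Finset.prod_insert ha, Multiset.map_add, Multiset.prod_add, ih]

theorem struct_main {F V Z X : Type} [Field F] [Fintype F] [DecidableEq F] [Fintype X] [Fintype Z]
    (σ : Subst F V Z X) (C : Circuit F V) (hC : C.Homogeneous) (N : ℕ)
    (hdeg : C.value.IsHomogeneous N) (hne : C.value ≠ 0) (k τ t : ℕ) (ht : 1 ≤ t)
    (hτ : (Fintype.card F - 1) * τ ≤ t) :
    ∃ (E : Finset (X → F)) (B : Fin C.n4 → Finset (Fin (2 * N / t + 1)) → Fn F X),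
      E.card * Fintype.card F ^ (τ + 1)
        ≤ C.n2 * (fewZeros (Fintype.card F) τ k * Fintype.card F ^ Fintype.card X) ∧
      ∀ α : Z →₀ ℕ, α.degree ≤ k →
        ∃ h : Fin C.n4 → Finset (Fin (2 * N / t + 1)) → Fn F X,
          (∀ j U, h j U ∈ RM F X (k * t)) ∧
          ∀ x ∉ E, (σ.hom x C.value).coeff α
            = ∑ j, ∑ U ∈ univ.filter (fun U : Finset (Fin (2 * N / t + 1)) => U.card ≤ k),
                B j U x * h j U x := by
  classical
  obtain ⟨d1, d2, d3, d4, d5, h1, h2, h3, h4, h5⟩ := hC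
  have hv2 := val2_hom C d1 d2 h1 h2
  have hv3 := val3_hom C d2 d3 hv2 h3
  have hval := value_hom C d3 d4 d5 hv3 h4 h5
  have hN : d5 = N := hval.inj_right hdeg hne
  subst hN
  -- affine forms
  choose bf hbf using fun j => exists_BF σ (C.val1 j) (val1_deg C j)
  have hprod : ∀ (i : Fin C.n2) (x : X → F),
      σ.hom x (C.val2 i) = (((C.in2 i).map bf).map fun l : BF F Z X => l.val x).prod := by
    intro i x
    unfold Circuit.val2
    rw [map_multiset_prod, Multiset.map_map, Multiset.map_map]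
    refine congrArg Multiset.prod (Multiset.map_congr rfl ?_)
    intro j _
    exact hbf j x
  -- exceptional sets
  have hE : ∀ i : Fin C.n2, ∃ E : Finset (X → F), E.card * Fintype.card F ^ (τ + 1)
        ≤ fewZeros (Fintype.card F) τ k * Fintype.card F ^ Fintype.card X ∧
      LD E k ((Fintype.card F - 1) * τ) (fun x => σ.hom x (C.val2 i)) := by
    intro i
    by_cases hr : τ < Module.finrank F (Submodule.span F {m : X → F | ∃ l ∈ (C.in2 i).map bf, l.m = m})
    · obtain ⟨E, hE1, hE2⟩ := high_rank ((C.in2 i).map bf) τ k hr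
      refine ⟨E, hE1, ?_⟩
      intro α hα
      refine ⟨0, Submodule.zero_mem _, ?_⟩
      intro x hx
      simp only [hprod, hE2 x hx α hα, Pi.zero_apply]
    · refine ⟨∅, by simp, ?_⟩
      have h := low_rank ((C.in2 i).map bf) τ k (not_lt.mp hr)
      intro α hα
      obtain ⟨h', hh', hx'⟩ := h α hα
      refine ⟨h', hh', ?_⟩
      intro x hx
      simp only [hprod]
      exact hx' x hx
  choose E0 hE01 hE02 using hE
  let E : Finset (X → F) := univ.biUnion E0
  have hEcard : E.card * Fintype.card F ^ (τ + 1)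
      ≤ C.n2 * (fewZeros (Fintype.card F) τ k * Fintype.card F ^ Fintype.card X) := by
    calc E.card * Fintype.card F ^ (τ + 1) ≤ (∑ i, (E0 i).card) * Fintype.card F ^ (τ + 1) :=
          Nat.mul_le_mul_right _ card_biUnion_le
      _ = ∑ i, (E0 i).card * Fintype.card F ^ (τ + 1) := by rw [Finset.sum_mul]
      _ ≤ ∑ _i : Fin C.n2, fewZeros (Fintype.card F) τ k * Fintype.card F ^ Fintype.card X :=
          Finset.sum_le_sum fun i _ => hE01 i
      _ = C.n2 * (fewZeros (Fintype.card F) τ k * Fintype.card F ^ Fintype.card X) := by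
          rw [Finset.sum_const, Finset.card_univ, Fintype.card_fin, smul_eq_mul]
  -- middle gates
  have hmid : ∀ i : Fin C.n3, LD E k t (fun x => σ.hom x (C.val3 i)) := by
    intro i
    have h := LD.linComb (E := E) (k := k) (t := (Fintype.card F - 1) * τ) (C.in3 i) (C.c3 i)
      (fun j x => σ.hom x (C.val2 j)) (fun j _ => (hE02 j).mono (subset_biUnion_of_mem E0 (mem_univ j))
        le_rfl)
    have h' := h.mono (Finset.Subset.refl E) hτ
    have e : (fun x => ∑ j ∈ C.in3 i, MvPolynomial.C (C.c3 i j) * σ.hom x (C.val2 j))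
        = fun x => σ.hom x (C.val3 i) := by
      funext x
      unfold Circuit.val3
      rw [map_sum]
      refine Finset.sum_congr rfl fun j _ => ?_
      rw [map_mul, hom_C]
    rw [e] at h'
    exact h'
  have hmid2 : ∀ i : Fin C.n3, LD E k (d3 i) (fun x => σ.hom x (C.val3 i)) := by
    intro i
    exact (LD.of_totalDegree σ (C.val3 i) (d3 i) k (hv3 i).totalDegree_le).mono
      (Finset.empty_subset _) le_rfl
  -- grouping
  have hG : ∀ j : Fin C.n4, ∃ G : Fin (2 * d5 / t + 1) → Multiset (Fin C.n3), j ∈ C.in5 →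
      (C.in4 j = ∑ g, G g ∧ ∀ g, ((G g).map d3).sum ≤ t ∨ ∃ i ∈ C.in4 j, G g = {i}) := by
    intro j
    by_cases hj : j ∈ C.in5
    · have hg := grouping (C.in4 j) d3 t ht
      rw [← h4 j, h5 j hj] at hg
      obtain ⟨G, hG⟩ := hg
      exact ⟨G, fun _ => hG⟩
    · exact ⟨fun _ => 0, fun h => absurd h hj⟩
  choose G hG using hG
  have hGLD : ∀ j ∈ C.in5, ∀ g, LD E k t (fun x => σ.hom x ((G j g).map C.val3).prod) := by
    intro j hj g
    rcases (hG j hj).2 g with hs | ⟨i, _, hi⟩
    · have h := LD.multiset_prod (E := E) (k := k) (G j g) d3 (fun i x => σ.hom x (C.val3 i))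
        (fun i _ => hmid2 i)
      have h' := h.mono (Finset.Subset.refl E) hs
      have e : (fun x => ((G j g).map fun i => σ.hom x (C.val3 i)).prod)
          = fun x => σ.hom x ((G j g).map C.val3).prod := by
        funext x
        rw [map_multiset_prod, Multiset.map_map]
        rfl
      rw [e] at h'
      exact h'
    · have e : (fun x => σ.hom x ((G j g).map C.val3).prod) = fun x => σ.hom x (C.val3 i) := by
        funext x
        rw [hi, Multiset.map_singleton, Multiset.prod_singleton]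
      rw [e]
      exact hmid i
  let B : Fin C.n4 → Finset (Fin (2 * d5 / t + 1)) → Fn F X := fun j U x =>
    if j ∈ C.in5 then
      C.c5 j * ∏ g ∈ univ \ U, (σ.hom x ((G j g).map C.val3).prod).coeff 0
    else 0
  refine ⟨E, B, hEcard, ?_⟩
  intro α hα
  have hex : ∀ j : Fin C.n4, ∃ h : Finset (Fin (2 * d5 / t + 1)) → Fn F X,
      (∀ U, h U ∈ RM F X (k * t)) ∧ (j ∈ C.in5 →
      ∀ x ∉ E, (∏ g, σ.hom x ((G j g).map C.val3).prod).coeff α
        = ∑ U ∈ univ.filter (fun U : Finset (Fin (2 * d5 / t + 1)) => U.card ≤ k),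
            (∏ g ∈ univ \ U, (σ.hom x ((G j g).map C.val3).prod).coeff 0) * h U x) := by
    intro j
    by_cases hj : j ∈ C.in5
    · obtain ⟨h, hh1, hh2⟩ := top_expand (E := E) (k := k) (t := t)
        (fun g x => σ.hom x ((G j g).map C.val3).prod) (hGLD j hj) α hα
      exact ⟨h, hh1, fun _ => hh2⟩
    · exact ⟨fun _ => 0, fun _ => Submodule.zero_mem _, fun h => absurd h hj⟩
  choose h hh1 hh2 using hex
  refine ⟨h, hh1, ?_⟩
  intro x hx
  have hv4 : ∀ j ∈ C.in5, σ.hom x (C.val4 j) = ∏ g, σ.hom x ((G j g).map C.val3).prod := by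
    intro j hj
    unfold Circuit.val4
    rw [(hG j hj).1, ← map_prod, multiset_prod_sum]
  have hL : (σ.hom x C.value).coeff α
      = ∑ j ∈ C.in5, C.c5 j * (∏ g, σ.hom x ((G j g).map C.val3).prod).coeff α := by
    unfold Circuit.value
    rw [map_sum, MvPolynomial.coeff_sum]
    refine Finset.sum_congr rfl fun j hj => ?_
    rw [map_mul, hom_C, MvPolynomial.coeff_C_mul, hv4 j hj]
  rw [hL, ← Finset.sum_subset (Finset.subset_univ C.in5)]
  · refine Finset.sum_congr rfl fun j hj => ?_
    rw [hh2 j hj x hx, Finset.mul_sum]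
    refine Finset.sum_congr rfl fun U _ => ?_
    simp only [B, if_pos hj]
    ring
  · intro j _ hj
    refine Finset.sum_eq_zero fun U _ => ?_
    simp only [B, if_neg hj, zero_mul]

end Vale.Agent.P346q
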